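import Crest.Agent.R77.Defs

/-! Row 77: basic lemmas on the cylinder. -/

set_option autoImplicit false
open MeasureTheory Set Filter Topology
open scoped ENNReal

namespace Crest.Agent.R77

variable {S : Type} [MeasurableSpace S] {σ : Measure S} {K : ℝ → S → S → ℝ≥0∞}
  {k C N p q A₁ e₁ A₂ e₂ : ℝ} {U V : ℝ × S → ℝ≥0∞}

theorem wt_ne_top (A e t : ℝ) : wt A e t ≠ ⊤ := ENNReal.ofReal_ne_top

theorem continuous_wt (A e : ℝ) : Continuous (wt A e) :=
  ENNReal.continuous_ofReal.comp (by fun_prop)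

@[fun_prop]
theorem measurable_wt {α : Type} [MeasurableSpace α] (A e : ℝ) {t : α → ℝ} (ht : Measurable t) :
    Measurable fun x => wt A e (t x) := (continuous_wt A e).measurable.comp ht

theorem wt_pos {A : ℝ} (hA : 0 < A) (e t : ℝ) : 0 < wt A e t :=
  ENNReal.ofReal_pos.2 (by positivity)

theorem wt_mul {A B : ℝ} (hA : 0 ≤ A) (e t e' t' : ℝ) :
    wt A e t * wt B e' t' = wt (A * B) 1 (e * t + e' * t') := by
  unfold wt
  rw [← ENNReal.ofReal_mul (by positivity), one_mul, Real.exp_add]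
  congr 1; ring

theorem wt_le_wt {A B e t e' t' : ℝ} (hA : A ≤ B) (hB : 0 ≤ B) (h : e * t ≤ e' * t') :
    wt A e t ≤ wt B e' t' :=
  ENNReal.ofReal_le_ofReal ((mul_le_mul_of_nonneg_right hA (Real.exp_pos _).le).trans
    (mul_le_mul_of_nonneg_left (Real.exp_le_exp.2 h) hB))

theorem wt_congr {A e t e' t' : ℝ} (h : e * t = e' * t') : wt A e t = wt A e' t' := by
  unfold wt; rw [h]

theorem wt_rpow {A : ℝ} (hA : 0 ≤ A) (e t : ℝ) {p : ℝ} (hp : 0 ≤ p) :
    wt A e t ^ p = wt (A ^ p) (p * e) t := by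
  unfold wt
  rw [ENNReal.ofReal_rpow_of_nonneg (by positivity) hp,
    Real.mul_rpow hA (Real.exp_pos _).le, ← Real.exp_mul]
  congr 3; ring

theorem measurableSet_st {I : Set ℝ} (hI : MeasurableSet I) : MeasurableSet (st S I) :=
  measurable_fst hI

omit [MeasurableSpace S] in
@[simp] theorem mem_st {I : Set ℝ} {x : ℝ × S} : x ∈ st S I ↔ x.1 ∈ I := Iff.rfl

@[fun_prop]
theorem measurable_rf : Measurable (rf : ℝ × S → ℝ × S) := by unfold rf; fun_prop

@[fun_prop]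
theorem measurable_sh (h : ℝ) : Measurable (sh h : ℝ × S → ℝ × S) := by unfold sh; fun_prop

@[fun_prop]
theorem measurable_src (A e p : ℝ) (hV : Measurable V) : Measurable (src A e p V) := by
  unfold src; fun_prop

theorem measurePreserving_rf [SFinite σ] : MeasurePreserving rf (vol σ) (vol σ) :=
  (Measure.measurePreserving_neg (volume : Measure ℝ)).prod (MeasurePreserving.id σ)

theorem measurePreserving_sh [SFinite σ] (h : ℝ) : MeasurePreserving (sh h) (vol σ) (vol σ) :=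
  (measurePreserving_add_right (volume : Measure ℝ) h).prod (MeasurePreserving.id σ)

/-- Change of variables by the reflection. -/
theorem setLIntegral_rf [SFinite σ] {I : Set ℝ} (hI : MeasurableSet I) {F : ℝ × S → ℝ≥0∞}
    (hF : Measurable F) :
    ∫⁻ x in st S ((fun t => -t) ⁻¹' I), F (rf x) ∂vol σ = ∫⁻ x in st S I, F x ∂vol σ :=
  measurePreserving_rf.setLIntegral_comp_preimage (measurableSet_st hI) hF

/-- Change of variables by a shift. -/
theorem setLIntegral_sh [SFinite σ] (h : ℝ) {I : Set ℝ} (hI : MeasurableSet I)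
    {F : ℝ × S → ℝ≥0∞} (hF : Measurable F) :
    ∫⁻ x in st S ((fun t => t + h) ⁻¹' I), F (sh h x) ∂vol σ = ∫⁻ x in st S I, F x ∂vol σ :=
  (measurePreserving_sh h).setLIntegral_comp_preimage (measurableSet_st hI) hF

theorem vol_restrict_st [SFinite σ] (I : Set ℝ) :
    (vol σ).restrict (st S I) = ((volume : Measure ℝ).restrict I).prod σ := by
  rw [vol, Measure.restrict_prod_eq_prod_univ]
  congr 1
  ext x; simp

theorem vol_st_singleton [SFinite σ] (t : ℝ) : vol σ (st S {t}) = 0 := by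
  have : st S {t} = ({t} : Set ℝ) ×ˢ (univ : Set S) := by ext x; simp
  rw [this, vol, Measure.prod_prod]; simp

/-- Splitting an integral over the cylinder into the two halves. -/
theorem lintegral_halves [SFinite σ] {F : ℝ × S → ℝ≥0∞} (hF : Measurable F) :
    ∫⁻ x, F x ∂vol σ =
      (∫⁻ x in st S (Ioi 0), F x ∂vol σ) + ∫⁻ x in st S (Ioi 0), F (rf x) ∂vol σ := by
  have h1 := setLIntegral_rf (σ := σ) (I := Iio (0 : ℝ)) measurableSet_Iio hF
  have h2 : (fun t : ℝ => -t) ⁻¹' Iio 0 = Ioi 0 := by ext t; simp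
  rw [h2] at h1
  rw [h1, ← lintegral_add_compl F (measurableSet_st (S := S) (I := Ioi 0) measurableSet_Ioi)]
  congr 1
  refine setLIntegral_congr ?_
  have : (st S (Ioi 0))ᶜ = st S (Iio 0) ∪ st S {0} := by
    ext x; simp [le_iff_lt_or_eq]
  rw [this]
  exact union_ae_eq_left_of_ae_eq_empty (ae_eq_empty.2 (vol_st_singleton 0))

theorem Ker.even (hK : Ker σ k C N K) (τ : ℝ) (a b : S) : K (-τ) a b = K τ a b :=
  le_antisymm (hK.anti _ _ _ _ (by simp)) (hK.anti _ _ _ _ (by simp))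

theorem Ker.swap (hK : Ker σ k C N K) (x y : ℝ × S) :
    K (x.1 - y.1) x.2 y.2 = K (y.1 - x.1) y.2 x.2 := by
  rw [hK.symm, ← hK.even, neg_sub]

theorem Ker.ne_top (hK : Ker σ k C N K) {τ : ℝ} (hτ : τ ≠ 0) (a b : S) : K τ a b ≠ ⊤ :=
  ne_top_of_le_ne_top (wt_ne_top _ _ _)
    (hK.upper (min |τ| 1) τ a b (lt_min (abs_pos.2 hτ) one_pos) (min_le_right _ _)
      (min_le_left _ _))

theorem Ker.measurable (hK : Ker σ k C N K) {α : Type} [MeasurableSpace α] {t : α → ℝ}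
    {a b : α → S} (ht : Measurable t) (ha : Measurable a) (hb : Measurable b) :
    Measurable fun x => K (t x) (a x) (b x) :=
  hK.meas.comp (ht.prodMk (ha.prodMk hb))

theorem Ker.measurable_Gk (hK : Ker σ k C N K) :
    Measurable fun z : (ℝ × S) × ℝ × S => Gk K z.1 z.2 :=
  (hK.measurable (by fun_prop) (by fun_prop) (by fun_prop)).sub
    (hK.measurable (by fun_prop) (by fun_prop) (by fun_prop))

theorem Ker.Gk_symm (hK : Ker σ k C N K) (x y : ℝ × S) : Gk K x y = Gk K y x := by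
  unfold Gk
  rw [hK.swap x y, hK.symm (x.1 + y.1), add_comm]

theorem Ker.Gk_add (hK : Ker σ k C N K) {x y : ℝ × S} (hx : 0 < x.1) (hy : 0 < y.1) :
    Gk K x y + K (x.1 + y.1) x.2 y.2 = K (x.1 - y.1) x.2 y.2 :=
  tsub_add_cancel_of_le (hK.anti _ _ _ _ (by
    rw [abs_of_pos (add_pos hx hy), abs_le]; constructor <;> linarith))

theorem Sys.symm (h : Sys σ K k p q A₁ e₁ A₂ e₂ U V) : Sys σ K k q p A₂ e₂ A₁ e₁ V U :=
  ⟨h.q_pos, h.p_pos, h.A₂_pos, h.A₁_pos, h.e₂_gt, h.e₁_gt, h.measV, h.measU, h.contV, h.contU,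
    h.eqV, h.eqU, fun T => (h.bdd T).imp fun _ hD => ⟨hD.1, fun x hx => (hD.2 x hx).symm⟩,
    h.posV, h.posU⟩

theorem Sys.U_ne_top (h : Sys σ K k p q A₁ e₁ A₂ e₂ U V) (x : ℝ × S) : U x ≠ ⊤ := by
  obtain ⟨D, -, hD⟩ := h.bdd x.1
  exact ne_top_of_le_ne_top (wt_ne_top _ _ _) (hD x le_rfl).1

/-- The source `g = A₂ e^{e₂ t} U^q` decays exponentially as `t → -∞`. -/
theorem Sys.src_le (h : Sys σ K k p q A₁ e₁ A₂ e₂ U V) (T : ℝ) :
    ∃ D : ℝ, 0 < D ∧ ∀ x : ℝ × S, x.1 ≤ T → src A₂ e₂ q U x ≤ wt D (e₂ + q * k) x.1 := by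
  obtain ⟨D, hD0, hD⟩ := h.bdd T
  refine ⟨A₂ * D ^ q, mul_pos h.A₂_pos (by positivity), fun x hx => ?_⟩
  calc src A₂ e₂ q U x ≤ wt A₂ e₂ x.1 * wt D k x.1 ^ q :=
        mul_le_mul_right (ENNReal.rpow_le_rpow (hD x hx).1 h.q_pos.le) _
    _ = _ := by
        rw [wt_rpow hD0.le _ _ h.q_pos.le, wt_mul h.A₂_pos.le]
        exact wt_congr (by ring)

theorem lintegral_wt_Iio_ne_top [IsFiniteMeasure σ] (D : ℝ) {β : ℝ} (hβ : 0 < β) (T : ℝ) :
    ∫⁻ x in st S (Iio T), wt D β x.1 ∂vol σ ≠ ⊤ := by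
  rw [vol_restrict_st, lintegral_prod _ (by fun_prop)]
  simp only [lintegral_const]
  rw [lintegral_mul_const _ (by fun_prop)]
  refine ENNReal.mul_ne_top ?_ (measure_ne_top _ _)
  have : IntegrableOn (fun t => D * Real.exp (β * t)) (Iio T) :=
    ((integrableOn_exp_mul_Iic hβ T).mono_set Iio_subset_Iic_self).const_mul D
  exact this.lintegral_lt_top.ne

theorem Sys.en_ne_top [IsFiniteMeasure σ] (hk : 0 < k) (h : Sys σ K k p q A₁ e₁ A₂ e₂ U V)
    (T : ℝ) : en σ A₂ e₂ q U (Iio T) ≠ ⊤ := by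
  obtain ⟨D, hD0, hD⟩ := h.src_le T
  obtain ⟨D', -, hD'⟩ := h.bdd T
  refine ne_top_of_le_ne_top
    (lintegral_wt_Iio_ne_top (σ := σ) (D * D') (β := e₂ + q * k + k) (by linarith [h.e₂_gt]) T) ?_
  refine setLIntegral_mono' (measurableSet_st measurableSet_Iio) fun x hx => ?_
  refine (mul_le_mul' (hD x (le_of_lt hx)) (hD' x (le_of_lt hx)).1).trans ?_
  rw [wt_mul hD0.le]
  exact (wt_congr (by ring)).le

end Crest.Agent.R77
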