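import Mathlib

/-!
Row 77 (Hénon–Lane–Emden conjecture): definitions.

The system is rewritten as an integral system on a cylinder `ℝ × S` (`t = log r`), with a kernel
`K τ a b` that is even and decreasing in `|τ|`.
-/

set_option autoImplicit false
open MeasureTheory Set Filter Topology
open scoped ENNReal RealInnerProductSpace

namespace Crest.Agent.R77

section Cyl
variable {S : Type} [MeasurableSpace S]

/-- The weight `A e^{e t}`. -/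
noncomputable def wt (A e t : ℝ) : ℝ≥0∞ := ENNReal.ofReal (A * Real.exp (e * t))

/-- The measure on the cylinder. -/
noncomputable def vol (σ : Measure S) : Measure (ℝ × S) := (volume : Measure ℝ).prod σ

instance (σ : Measure S) [SFinite σ] : SFinite (vol σ) := by unfold vol; infer_instance

/-- The strip over a set of times. -/
def st (S : Type) (I : Set ℝ) : Set (ℝ × S) := Prod.fst ⁻¹' I

/-- Reflection `t ↦ -t`. -/
def rf {S : Type} (x : ℝ × S) : ℝ × S := (-x.1, x.2)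

/-- Shift `t ↦ t + h`. -/
def sh {S : Type} (h : ℝ) (x : ℝ × S) : ℝ × S := (x.1 + h, x.2)

/-- The source density `A e^{e t} V^p`. -/
noncomputable def src {S : Type} (A e p : ℝ) (V : ℝ × S → ℝ≥0∞) (y : ℝ × S) : ℝ≥0∞ :=
  wt A e y.1 * V y ^ p

/-- `Φ(t) = ∫ e^{-k |t - s|} f`. -/
noncomputable def Phi (σ : Measure S) (k : ℝ) (f : ℝ × S → ℝ≥0∞) (t : ℝ) : ℝ≥0∞ :=
  ∫⁻ y, wt 1 (-k) |t - y.1| * f y ∂vol σ

/-- The energy `∫ A e^{e t} U^{q+1}` in the strip over `I`. -/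
noncomputable def en (σ : Measure S) (A e q : ℝ) (U : ℝ × S → ℝ≥0∞) (I : Set ℝ) : ℝ≥0∞ :=
  ∫⁻ x in st S I, src A e q U x * U x ∂vol σ

/-- Hypotheses on the kernel. -/
structure Ker (σ : Measure S) (k C N : ℝ) (K : ℝ → S → S → ℝ≥0∞) : Prop where
  k_pos : 0 < k
  C_pos : 0 < C
  N_pos : 0 < N
  meas : Measurable fun z : ℝ × S × S => K z.1 z.2.1 z.2.2
  symm : ∀ τ a b, K τ a b = K τ b a
  anti : ∀ τ τ' a b, |τ| ≤ |τ'| → K τ' a b ≤ K τ a b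
  lower : ∀ τ a b, wt C⁻¹ (-k) |τ| ≤ K τ a b
  upper : ∀ δ τ a b, 0 < δ → δ ≤ 1 → δ ≤ |τ| → K τ a b ≤ wt (C * δ ^ (-N)) (-k) |τ|
  lip : ∀ τ h a b, 0 < τ → 0 ≤ h →
    K τ a b ≤ K (τ + h) a b + ENNReal.ofReal (h * (C * (1 + τ⁻¹))) * K τ a b
  slice : ∫⁻ a, ∫⁻ b, K 0 a b ∂σ ∂σ ≠ ⊤
  first : ∀ h : ℝ, ∫⁻ z : ℝ × S × S, (K z.1 z.2.1 z.2.2 - K (z.1 + h) z.2.1 z.2.2)
    ∂((volume : Measure ℝ).prod (σ.prod σ)) ≤ ENNReal.ofReal (C * |h|)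
  second : ∀ ε : ℝ, 0 < ε → ∀ᶠ h in 𝓝[>] (0 : ℝ), ∫⁻ z : ℝ × S × S,
    (2 * K z.1 z.2.1 z.2.2 - (K (z.1 + h) z.2.1 z.2.2 + K (z.1 - h) z.2.1 z.2.2))
    ∂((volume : Measure ℝ).prod (σ.prod σ)) ≤ ENNReal.ofReal (ε * h)

/-- The integral system on the cylinder. -/
structure Sys (σ : Measure S) (K : ℝ → S → S → ℝ≥0∞) (k p q A₁ e₁ A₂ e₂ : ℝ)
    (U V : ℝ × S → ℝ≥0∞) : Prop where
  p_pos : 0 < p
  q_pos : 0 < q
  A₁_pos : 0 < A₁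
  A₂_pos : 0 < A₂
  e₁_gt : k < e₁ + p * k
  e₂_gt : k < e₂ + q * k
  measU : Measurable U
  measV : Measurable V
  contU : ∀ a, Continuous fun t => U (t, a)
  contV : ∀ a, Continuous fun t => V (t, a)
  eqU : ∀ x, U x = ∫⁻ y, K (x.1 - y.1) x.2 y.2 * src A₁ e₁ p V y ∂vol σ
  eqV : ∀ x, V x = ∫⁻ y, K (x.1 - y.1) x.2 y.2 * src A₂ e₂ q U y ∂vol σ
  bdd : ∀ T : ℝ, ∃ D : ℝ, 0 < D ∧ ∀ x, x.1 ≤ T → U x ≤ wt D k x.1 ∧ V x ≤ wt D k x.1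
  posU : ∀ x, U x ≠ 0
  posV : ∀ x, V x ≠ 0

/-- Green kernel of the half cylinder `t > 0`. -/
noncomputable def Gk {S : Type} (K : ℝ → S → S → ℝ≥0∞) (x y : ℝ × S) : ℝ≥0∞ :=
  K (x.1 - y.1) x.2 y.2 - K (x.1 + y.1) x.2 y.2

/-- The "harmonic extension" to `t > 0` of the values at `t = 0` of the potential of `f`. -/
noncomputable def fold (σ : Measure S) (K : ℝ → S → S → ℝ≥0∞) (f : ℝ × S → ℝ≥0∞) :
    ℝ × S → ℝ≥0∞ :=
  (st S (Ioi 0)).indicator fun x =>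
    ∫⁻ y in st S (Ioi 0), K (x.1 + y.1) x.2 y.2 * (f y + f (rf y)) ∂vol σ

/-- The folded minimal solution `(a, b)` on the half cylinder `t > 0`. -/
structure Hat (σ : Measure S) (K : ℝ → S → S → ℝ≥0∞) (k p q A₁ e₁ A₂ e₂ : ℝ)
    (U V a b : ℝ × S → ℝ≥0∞) : Prop where
  measa : Measurable a
  measb : Measurable b
  eqa : ∀ x, a x = fold σ K (src A₁ e₁ p V) x +
    ∫⁻ y in st S (Ioi 0), Gk K x y * src A₁ (-(|e₁| + k)) p b y ∂vol σ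
  eqb : ∀ x, b x = fold σ K (src A₂ e₂ q U) x +
    ∫⁻ y in st S (Ioi 0), Gk K x y * src A₂ (-(|e₂| + k)) q a y ∂vol σ
  lea : ∀ x, a x ≤ U x ∧ a x ≤ U (rf x)
  leb : ∀ x, b x ≤ V x ∧ b x ≤ V (rf x)
  stab : ∀ p' q' : ℝ, 0 < p' → p' < p → 0 < q' → q' < q →
    ∀ η : ℝ × S → ℝ≥0∞, Measurable η → (∀ x, η x ≤ 1) →
    2 * ENNReal.ofReal (√(p' * q')) * ∫⁻ x in st S (Ioi 0), ∫⁻ y in st S (Ioi 0),
        src A₂ (-(|e₂| + k)) q a x * η x * Gk K x y * (src A₁ (-(|e₁| + k)) p b y * η y)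
        ∂vol σ ∂vol σ ≤
      (∫⁻ x in st S (Ioi 0), src A₂ (-(|e₂| + k)) q a x * a x * η x ^ 2 ∂vol σ) +
        ∫⁻ x in st S (Ioi 0), src A₁ (-(|e₁| + k)) p b x * b x * η x ^ 2 ∂vol σ

end Cyl

/-- The Newtonian kernel in cylindrical coordinates. -/
noncomputable def Ksph (n : ℕ) (τ : ℝ) (a b : Metric.sphere (0 : EuclideanSpace ℝ (Fin n)) 1) :
    ℝ≥0∞ :=
  ENNReal.ofReal (2 * Real.cosh τ - 2 * ⟪(a : EuclideanSpace ℝ (Fin n)), b⟫) ^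
    (-(((n : ℝ) - 2) / 2))

end Crest.Agent.R77
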