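import Crest.Agent.R77.Force2

/-! Row 77: the no-compression inequality. -/

set_option autoImplicit false
open MeasureTheory Set Filter Topology
open scoped ENNReal

namespace Crest.Agent.R77

variable {S : Type} [MeasurableSpace S] {σ : Measure S} [IsFiniteMeasure σ]
  {K : ℝ → S → S → ℝ≥0∞} {k C N p q A₁ e₁ A₂ e₂ : ℝ} {U V a b : ℝ × S → ℝ≥0∞}

namespace ForceAux

omit [MeasurableSpace S] in
theorem src_rf (A e p : ℝ) (V : ℝ × S → ℝ≥0∞) :
    src A (-e) p (fun x => V (rf x)) = fun x => src A e p V (rf x) := by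
  funext x
  simp only [src, rf]
  rw [wt_congr (e' := e) (t' := -x.1) (by ring)]

theorem en_rf (hU : Measurable U) :
    en σ A₂ (-e₂) q (fun x => U (rf x)) (Ioi 0) = en σ A₂ e₂ q U (Iio 0) := by
  rw [en, en, src_rf, ← setLIntegral_rf measurableSet_Iio (by fun_prop)]
  congr 3
  ext t; simp

omit [IsFiniteMeasure σ] in
theorem src_ne_top (hS : Sys σ K k p q A₁ e₁ A₂ e₂ U V) (x : ℝ × S) : src A₂ e₂ q U x ≠ ⊤ :=
  ENNReal.mul_ne_top (wt_ne_top _ _ _) (ENNReal.rpow_ne_top_of_nonneg hS.q_pos.le (hS.U_ne_top x))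

omit [IsFiniteMeasure σ] in
theorem hat_src_le (hk : 0 < k) (hS : Sys σ K k p q A₁ e₁ A₂ e₂ U V)
    (lea : ∀ x, a x ≤ U x ∧ a x ≤ U (rf x)) (x : ℝ × S) (hx : 0 < x.1) :
    src A₂ (-(|e₂| + k)) q a x ≠ ⊤ ∧ src A₂ (-(|e₂| + k)) q a x ≤ src A₂ e₂ q U x ∧
      src A₂ (-(|e₂| + k)) q a x ≤ src A₂ e₂ q U (rf x) := by
  have h1 : src A₂ (-(|e₂| + k)) q a x ≤ src A₂ e₂ q U x :=
    mul_le_mul' (wt_le_wt le_rfl hS.A₂_pos.le (by nlinarith [neg_abs_le e₂]))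
      (ENNReal.rpow_le_rpow (lea x).1 hS.q_pos.le)
  refine ⟨ne_top_of_le_ne_top (src_ne_top hS x) h1, h1, ?_⟩
  exact mul_le_mul' (wt_le_wt le_rfl hS.A₂_pos.le (by simp only [rf]; nlinarith [le_abs_self e₂]))
    (ENNReal.rpow_le_rpow (lea x).2 hS.q_pos.le)

theorem eq_true (hK : Ker σ k C N K) (hS : Sys σ K k p q A₁ e₁ A₂ e₂ U V) (x : ℝ × S) :
    U (rf x) = (∫⁻ y in st S (Ioi 0), K (x.1 - y.1) x.2 y.2 *
        src A₁ (-e₁) p (fun x => V (rf x)) y ∂vol σ) +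
      ∫⁻ y in st S (Ioi 0), K (x.1 + y.1) x.2 y.2 * src A₁ e₁ p V y ∂vol σ := by
  have := hK.meas
  have := hS.measV
  rw [hS.eqU, lintegral_halves (by fun_prop), add_comm, src_rf]
  congr 1 <;> refine lintegral_congr fun y => ?_
  · rw [← hK.even]; simp only [rf]; congr 2; ring
  · rw [← hK.even]; simp only [rf]; congr 2; ring

omit [IsFiniteMeasure σ] in
theorem eq_hat (hK : Ker σ k C N K) {f fh : ℝ × S → ℝ≥0∞} (hf : Measurable f)
    (hfh : Measurable fh) (hle : ∀ x, 0 < x.1 → fh x ≤ f x) (x : ℝ × S) (hx : 0 < x.1) :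
    fold σ K f x + ∫⁻ y in st S (Ioi 0), Gk K x y * fh y ∂vol σ =
      (∫⁻ y in st S (Ioi 0), K (x.1 - y.1) x.2 y.2 * fh y ∂vol σ) +
        ∫⁻ y in st S (Ioi 0), K (x.1 + y.1) x.2 y.2 * (f y + f (rf y) - fh y) ∂vol σ := by
  have := hK.meas
  rw [fold, indicator_of_mem (show x ∈ st S (Ioi 0) from hx), ← lintegral_add_left (by fun_prop),
    ← lintegral_add_left (by fun_prop)]
  refine setLIntegral_congr_fun (measurableSet_st measurableSet_Ioi) fun y hy => ?_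
  have h1 : f y + f (rf y) = (f y + f (rf y) - fh y) + fh y :=
    (tsub_add_cancel_of_le ((hle y hy).trans le_self_add)).symm
  rw [← hK.Gk_add hx hy]
  generalize f y + f (rf y) - fh y = z at h1 ⊢
  rw [h1]; ring

omit [IsFiniteMeasure σ] in
theorem src_rf_le (hS : Sys σ K k p q A₁ e₁ A₂ e₂ U V) :
    ∃ D : ℝ, 0 < D ∧ ∀ x : ℝ × S, 0 < x.1 → src A₁ e₁ p V (rf x) ≤ wt D (-k) x.1 ∧
      src A₂ e₂ q U (rf x) ≤ wt D (-k) x.1 := by
  obtain ⟨D₁, h1, hD₁⟩ := hS.symm.src_le 0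
  obtain ⟨D₂, h2, hD₂⟩ := hS.src_le 0
  refine ⟨max D₁ D₂, by positivity, fun x hx => ⟨(hD₁ _ ?_).trans ?_, (hD₂ _ ?_).trans ?_⟩⟩
  · simp only [rf]; linarith
  · exact wt_le_wt (le_max_left _ _) (by positivity) (by simp only [rf]; nlinarith [hS.e₁_gt])
  · simp only [rf]; linarith
  · exact wt_le_wt (le_max_right _ _) (by positivity) (by simp only [rf]; nlinarith [hS.e₂_gt])

theorem half_true (hK : Ker σ k C N K) (hS : Sys σ K k p q A₁ e₁ A₂ e₂ U V) :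
    Half σ K p q A₁ (-e₁) A₂ (-e₂) (fun x => U (rf x)) (fun x => V (rf x))
      (src A₁ e₁ p V) (src A₂ e₂ q U) where
  p_pos := hS.p_pos
  q_pos := hS.q_pos
  A₁_nonneg := hS.A₁_pos.le
  A₂_nonneg := hS.A₂_pos.le
  measa := hS.measU.comp measurable_rf
  measb := hS.measV.comp measurable_rf
  measF := measurable_src _ _ _ hS.measV
  measG := measurable_src _ _ _ hS.measU
  eqa x _ := eq_true hK hS x
  eqb x _ := eq_true hK hS.symm x
  bdd := by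
    obtain ⟨D, hD, h⟩ := src_rf_le hS
    exact ⟨D, k, hD, hK.k_pos, fun x hx => by simpa only [src_rf] using h x hx⟩
  fina := by rw [en_rf hS.measU]; exact hS.en_ne_top hK.k_pos 0
  finb := by rw [en_rf hS.measV]; exact hS.symm.en_ne_top hK.k_pos 0

theorem en_hat_ne_top (hk : 0 < k) (hS : Sys σ K k p q A₁ e₁ A₂ e₂ U V)
    (lea : ∀ x, a x ≤ U x ∧ a x ≤ U (rf x)) : en σ A₂ (-(|e₂| + k)) q a (Ioi 0) ≠ ⊤ := by
  refine ne_top_of_le_ne_top (hS.en_ne_top hk 0) ?_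
  rw [← en_rf hS.measU, en, en, src_rf]
  exact setLIntegral_mono' (measurableSet_st measurableSet_Ioi) fun x hx =>
    mul_le_mul' (hat_src_le hk hS lea x hx).2.2 (lea x).2

theorem half_hat (hK : Ker σ k C N K) (hS : Sys σ K k p q A₁ e₁ A₂ e₂ U V)
    (hH : Hat σ K k p q A₁ e₁ A₂ e₂ U V a b) :
    Half σ K p q A₁ (-(|e₁| + k)) A₂ (-(|e₂| + k)) a b
      (fun y => src A₁ e₁ p V y + src A₁ e₁ p V (rf y) - src A₁ (-(|e₁| + k)) p b y)
      (fun y => src A₂ e₂ q U y + src A₂ e₂ q U (rf y) - src A₂ (-(|e₂| + k)) q a y) where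
  p_pos := hS.p_pos
  q_pos := hS.q_pos
  A₁_nonneg := hS.A₁_pos.le
  A₂_nonneg := hS.A₂_pos.le
  measa := hH.measa
  measb := hH.measb
  measF := by have := hS.measV; have := hH.measb; fun_prop
  measG := by have := hS.measU; have := hH.measa; fun_prop
  eqa x hx := by
    rw [hH.eqa]
    exact eq_hat hK (measurable_src _ _ _ hS.measV) (measurable_src _ _ _ hH.measb)
      (fun y hy => (hat_src_le hK.k_pos hS.symm hH.leb y hy).2.1) x hx
  eqb x hx := by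
    rw [hH.eqb]
    exact eq_hat hK (measurable_src _ _ _ hS.measU) (measurable_src _ _ _ hH.measa)
      (fun y hy => (hat_src_le hK.k_pos hS hH.lea y hy).2.1) x hx
  bdd := by
    obtain ⟨D, hD, h⟩ := src_rf_le hS
    exact ⟨D, k, hD, hK.k_pos, fun x hx =>
      ⟨(hat_src_le hK.k_pos hS.symm hH.leb x hx).2.2.trans (h x hx).1,
        (hat_src_le hK.k_pos hS hH.lea x hx).2.2.trans (h x hx).2⟩⟩
  fina := en_hat_ne_top hK.k_pos hS hH.lea
  finb := en_hat_ne_top hK.k_pos hS.symm hH.leb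

omit [IsFiniteMeasure σ] in
theorem tendsto_K (hK : Ker σ k C N K) {s : ℝ} (hs : 0 < s) (ω ω' : S) :
    Tendsto (fun t => K (t + s) ω ω') (𝓝[>] 0) (𝓝 (K s ω ω')) := by
  have h1 : Tendsto (fun t : ℝ => ENNReal.ofReal (t * (C * (1 + s⁻¹))) * K s ω ω') (𝓝[>] 0)
      (𝓝 0) := by
    have : Tendsto (fun t : ℝ => ENNReal.ofReal (t * (C * (1 + s⁻¹)))) (𝓝[>] 0) (𝓝 0) := by
      have : Continuous fun t : ℝ => ENNReal.ofReal (t * (C * (1 + s⁻¹))) :=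
        ENNReal.continuous_ofReal.comp (by fun_prop)
      simpa using (this.tendsto 0).mono_left nhdsWithin_le_nhds
    simpa using ENNReal.Tendsto.mul_const this (Or.inr (hK.ne_top hs.ne' ω ω'))
  have h2 := ENNReal.Tendsto.sub (tendsto_const_nhds (x := K s ω ω')) h1
    (Or.inr ENNReal.zero_ne_top)
  rw [tsub_zero] at h2
  refine tendsto_of_tendsto_of_tendsto_of_le_of_le' h2 tendsto_const_nhds ?_ ?_
  · filter_upwards [self_mem_nhdsWithin] with t ht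
    rw [tsub_le_iff_right, add_comm t]
    exact hK.lip _ _ _ _ hs (le_of_lt ht)
  · filter_upwards [self_mem_nhdsWithin] with t ht
    have ht : 0 < t := ht
    refine hK.anti _ _ _ _ ?_
    rw [abs_of_pos hs, abs_of_pos (by linarith)]; linarith

theorem tendsto_fold (hK : Ker σ k C N K) (hS : Sys σ K k p q A₁ e₁ A₂ e₂ U V) (ω : S) :
    Tendsto (fun t => fold σ K (src A₁ e₁ p V) (t, ω)) (𝓝[>] 0) (𝓝 (U (0, ω))) := by
  have := hK.meas
  have := hS.measV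
  have e : U (0, ω) = ∫⁻ y in st S (Ioi 0), K y.1 ω y.2 *
      (src A₁ e₁ p V y + src A₁ e₁ p V (rf y)) ∂vol σ := by
    rw [hS.eqU, lintegral_halves (by fun_prop), ← lintegral_add_left (by fun_prop)]
    refine lintegral_congr fun y => ?_
    simp only [rf, zero_sub, neg_neg, hK.even, mul_add]
  have hl : Tendsto (fun t => ∫⁻ y in st S (Ioi 0), K (t + y.1) ω y.2 *
      (src A₁ e₁ p V y + src A₁ e₁ p V (rf y)) ∂vol σ) (𝓝[>] 0) (𝓝 (U (0, ω))) := by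
    rw [e]
    refine tendsto_lintegral_filter_of_dominated_convergence (fun y => K y.1 ω y.2 *
      (src A₁ e₁ p V y + src A₁ e₁ p V (rf y))) (Eventually.of_forall fun h => by fun_prop) ?_
      (e ▸ hS.U_ne_top _) ?_
    · filter_upwards [self_mem_nhdsWithin] with t ht
      have ht : 0 < t := ht
      refine ae_restrict_of_forall_mem (measurableSet_st measurableSet_Ioi) fun y hy => ?_
      have hy : 0 < y.1 := hy
      refine mul_le_mul_left (hK.anti _ _ _ _ ?_) _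
      rw [abs_of_pos hy, abs_of_pos (by linarith)]; linarith
    · refine ae_restrict_of_forall_mem (measurableSet_st measurableSet_Ioi) fun y hy => ?_
      exact ENNReal.Tendsto.mul_const (tendsto_K hK hy _ _)
        (Or.inr (ENNReal.add_ne_top.2 ⟨src_ne_top hS.symm _, src_ne_top hS.symm _⟩))
  refine hl.congr' ?_
  filter_upwards [self_mem_nhdsWithin] with t ht
  rw [fold, indicator_of_mem (show (t, ω) ∈ st S (Ioi 0) from ht)]

omit [MeasurableSpace S] in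
theorem tendsto_en {A l : ℝ} (hq : 0 < q) {ω : S} {u : ℝ≥0∞} (hu : u ≠ ⊤)
    (h : Tendsto (fun t => a (t, ω)) (𝓝[>] 0) (𝓝 u)) :
    Tendsto (fun t => src A l q a (t, ω) * a (t, ω)) (𝓝[>] 0) (𝓝 (wt A 0 0 * u ^ q * u)) := by
  have h1 : Tendsto (fun t => wt A l t) (𝓝[>] 0) (𝓝 (wt A 0 0)) := by
    rw [wt_congr (e' := l) (t' := 0) (by ring)]
    exact ((continuous_wt A l).tendsto 0).mono_left nhdsWithin_le_nhds
  have hu' := ENNReal.rpow_ne_top_of_nonneg hq.le hu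
  exact ENNReal.Tendsto.mul (ENNReal.Tendsto.mul h1 (Or.inr hu')
    ((ENNReal.continuous_rpow_const.tendsto u).comp h) (Or.inr (wt_ne_top _ _ _))) (Or.inr hu) h
    (Or.inr (ENNReal.mul_ne_top (wt_ne_top _ _ _) hu'))

theorem pressure_le (hK : Ker σ k C N K) (hS : Sys σ K k p q A₁ e₁ A₂ e₂ U V) (ha : Measurable a)
    (h1 : ∀ x, fold σ K (src A₁ e₁ p V) x ≤ a x) (h2 : ∀ x, a x ≤ U (rf x)) (l : ℝ) {ε : ℝ}
    (hε : 0 < ε) : ∀ᶠ h in 𝓝[>] (0 : ℝ), en σ A₂ (-e₂) q (fun x => U (rf x)) (Ioc 0 h) ≤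
      en σ A₂ l q a (Ioc 0 h) + ENNReal.ofReal (ε * h) := by
  have := hS.measU
  obtain ⟨D, hD, hb⟩ := src_rf_le hS
  obtain ⟨D', hD', hb'⟩ := hS.bdd 0
  have hk := hK.k_pos
  refine pressure (D := wt D 0 0 * wt D' 0 0) (by fun_prop) (by fun_prop)
    (ENNReal.mul_ne_top (wt_ne_top _ _ _) (wt_ne_top _ _ _)) (fun x hx => ?_) (fun ω => ?_) hε
  · rw [src_rf]
    refine mul_le_mul' ((hb x hx).2.trans (wt_le_wt le_rfl hD.le (by nlinarith)))
      ((hb' _ (by simp only [rf]; linarith)).1.trans (wt_le_wt le_rfl hD'.le ?_))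
    simp only [rf]; nlinarith
  · have hU : Tendsto (fun t => U (rf (t, ω))) (𝓝[>] 0) (𝓝 (U (0, ω))) := by
      have : Continuous fun t : ℝ => U (rf (t, ω)) := (hS.contU ω).comp continuous_neg
      simpa [rf] using (this.tendsto 0).mono_left nhdsWithin_le_nhds
    have ha' : Tendsto (fun t => a (t, ω)) (𝓝[>] 0) (𝓝 (U (0, ω))) :=
      tendsto_of_tendsto_of_tendsto_of_le_of_le (tendsto_fold hK hS ω) hU (fun t => h1 _)
        fun t => h2 _
    have := ENNReal.Tendsto.sub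
      (tendsto_en (A := A₂) (l := -e₂) (a := fun x => U (rf x)) hS.q_pos (hS.U_ne_top _) hU)
      (tendsto_en (A := A₂) (l := l) hS.q_pos (hS.U_ne_top _) ha')
      (Or.inl (ENNReal.mul_ne_top (ENNReal.mul_ne_top (wt_ne_top _ _ _)
        (ENNReal.rpow_ne_top_of_nonneg hS.q_pos.le (hS.U_ne_top _))) (hS.U_ne_top _)))
    rwa [tsub_self] at this

omit [IsFiniteMeasure σ] in
theorem en_split {A l h : ℝ} (hh : 0 ≤ h) :
    en σ A l q a (Ioi 0) = en σ A l q a (Ioc 0 h) + en σ A l q a (Ioi h) := by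
  rw [← Ioc_union_Ioi_eq_Ioi hh]
  exact lintegral_union (measurableSet_st measurableSet_Ioi)
    (Disjoint.preimage _ (Ioc_disjoint_Ioi le_rfl))

theorem tension_le (hK : Ker σ k C N K) (hS : Sys σ K k p q A₁ e₁ A₂ e₂ U V) {ε : ℝ}
    (hε : 0 < ε) : ∀ᶠ h in 𝓝[>] (0 : ℝ),
    tensI σ K (fun x => src A₂ e₂ q U (rf x)) (src A₁ e₁ p V) h ≤
      tensI σ K (fun x => src A₂ e₂ q U (rf (sh h x))) (src A₁ e₁ p V) h +
        ENNReal.ofReal (ε * h) := by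
  have := hS.measU
  have := hS.measV
  have hk := hK.k_pos
  obtain ⟨D, hD, hb⟩ := src_rf_le hS
  obtain ⟨D', hD', hb'⟩ := hS.symm.src_le 1
  refine tensI_shift (D := wt D 0 0 + wt D' (e₁ + p * k) 1) hK (by fun_prop) (by fun_prop)
    (ENNReal.add_ne_top.2 ⟨wt_ne_top _ _ _, wt_ne_top _ _ _⟩) (fun x hx hx1 => ⟨?_, ?_⟩) ?_
    (fun ω => ?_) (fun x => src_ne_top hS _) (fun x => src_ne_top hS.symm _) hε
  · exact ((hb x hx).2.trans (wt_le_wt le_rfl hD.le (by nlinarith))).trans le_self_add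
  · exact ((hb' x hx1.le).trans (wt_le_wt le_rfl hD'.le (by nlinarith [hS.e₁_gt]))).trans
      le_add_self
  · have := (ENNReal.add_ne_top.1
      ((half_true hK hS).selfI_ne_top hK (r := 0) (η := 0) le_rfl (by simp))).2
    rwa [src_rf] at this
  · exact ((continuous_wt _ _).comp continuous_neg).ennreal_mul
      (ENNReal.continuous_rpow_const.comp ((hS.contU ω).comp continuous_neg))
      (fun t => Or.inr (ENNReal.rpow_ne_top_of_nonneg hS.q_pos.le (hS.U_ne_top _)))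
      fun t => Or.inr (wt_ne_top _ _ _)

theorem hat_ineq (hK : Ker σ k C N K) {l₁ l₂ : ℝ} {F G : ℝ × S → ℝ≥0∞}
    (h : Half σ K p q A₁ l₁ A₂ l₂ a b F G) {ε : ℝ} (hε : 0 < ε) : ∀ᶠ t in 𝓝[>] (0 : ℝ),
    (ENNReal.ofReal (q + 1))⁻¹ * en σ A₂ l₂ q a (Ioi 0) +
      (ENNReal.ofReal (p + 1))⁻¹ * en σ A₁ l₁ p b (Ioi 0) ≤
    (ENNReal.ofReal (q + 1))⁻¹ * (wt 1 (-l₂) t * en σ A₂ l₂ q a (Ioi t)) +
      (ENNReal.ofReal (p + 1))⁻¹ * (wt 1 (-l₁) t * en σ A₁ l₁ p b (Ioi t)) +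
      (tensI σ K (src A₂ l₂ q a) F t + tensI σ K (src A₁ l₁ p b) G t) +
      ENNReal.ofReal (ε * t) := by
  filter_upwards [h.balance hK hε, self_mem_nhdsWithin] with t ht h0
  have h0 : 0 < t := h0
  have h1 := ht t 0 (abs_of_pos h0) le_rfl h0.le (by linarith)
  rw [crossI_zero hK (measurable_src _ _ _ h.measa) h.measF h0.le,
    crossI_zero hK (measurable_src _ _ _ h.measb) h.measG h0.le, zero_add] at h1
  have f1 := (ENNReal.add_ne_top.1 (h.selfI_ne_top hK (r := 0) (η := t) le_rfl (by linarith))).2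
  have f2 := (ENNReal.add_ne_top.1
    (h.symm.selfI_ne_top hK (r := 0) (η := t) le_rfl (by linarith))).2
  rw [← ENNReal.add_le_add_iff_right (ENNReal.add_ne_top.2 ⟨f1, f2⟩)]
  exact h1.trans (le_of_eq (by ring))

theorem true_ineq (hK : Ker σ k C N K) {l₁ l₂ : ℝ} {F G : ℝ × S → ℝ≥0∞}
    (h : Half σ K p q A₁ l₁ A₂ l₂ a b F G) {ε : ℝ} (hε : 0 < ε) : ∀ᶠ t in 𝓝[>] (0 : ℝ),
    (ENNReal.ofReal (q + 1))⁻¹ * en σ A₂ l₂ q a (Ioi t) +
      (ENNReal.ofReal (p + 1))⁻¹ * en σ A₁ l₁ p b (Ioi t) +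
      (tensI σ K (fun x => src A₂ l₂ q a (sh t x)) F t +
        tensI σ K (fun x => src A₁ l₁ p b (sh t x)) G t) ≤
    (ENNReal.ofReal (q + 1))⁻¹ * (wt 1 l₂ t * en σ A₂ l₂ q a (Ioi 0)) +
      (ENNReal.ofReal (p + 1))⁻¹ * (wt 1 l₁ t * en σ A₁ l₁ p b (Ioi 0)) +
      ENNReal.ofReal (ε * t) := by
  filter_upwards [h.balance hK hε, self_mem_nhdsWithin] with t ht h0
  have h0 : 0 < t := h0
  have h1 := ht (-t) t (by rw [abs_neg, abs_of_pos h0]) h0.le le_rfl (by linarith)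
  have ma := measurable_src A₂ l₂ q h.measa
  have mb := measurable_src A₁ l₁ p h.measb
  have f1 := (ENNReal.add_ne_top.1 (h.selfI_ne_top hK (r := t) (η := 0) h0.le (by linarith))).2
  have f2 := (ENNReal.add_ne_top.1
    (h.symm.selfI_ne_top hK (r := t) (η := 0) h0.le (by linarith))).2
  rw [crossI_shift hK ma h.measF, add_zero] at f1
  rw [crossI_shift hK mb h.measG, add_zero] at f2
  rw [crossI_shift hK ma h.measF t (-t), crossI_shift hK mb h.measG t (-t),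
    crossI_shift hK ma h.measF t 0, crossI_shift hK mb h.measG t 0, add_neg_cancel, add_zero,
    crossI_zero hK (by fun_prop) h.measF h0.le, crossI_zero hK (by fun_prop) h.measG h0.le,
    wt_congr (e := -l₂) (e' := l₂) (t' := t) (by ring),
    wt_congr (e := -l₁) (e' := l₁) (t' := t) (by ring)] at h1
  rw [← ENNReal.add_le_add_iff_right (ENNReal.add_ne_top.2 ⟨f1, f2⟩)]
  exact (le_of_eq (by ring)).trans (h1.trans (le_of_eq (by ring)))

theorem tendsto_slope_exp (e : ℝ) :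
    Tendsto (fun h : ℝ => h⁻¹ * (Real.exp (e * h) - 1)) (𝓝[>] 0) (𝓝 e) := by
  have : HasDerivAt (fun h : ℝ => Real.exp (e * h)) e 0 := by
    simpa using ((hasDerivAt_id (0 : ℝ)).const_mul e).exp
  simpa using this.tendsto_slope_zero_right

theorem real_final {c₁ c₂ e₁ e₂ L₁ L₂ E₁ E₂ H₁ H₂ c : ℝ}
    (h : ∀ ε : ℝ, 0 < ε → ∀ᶠ t in 𝓝[>] (0 : ℝ),
      c₂ * (E₂ + H₂) + c₁ * (E₁ + H₁) ≤ c₂ * (Real.exp (-e₂ * t) * E₂ + Real.exp (L₂ * t) * H₂) +
        c₁ * (Real.exp (-e₁ * t) * E₁ + Real.exp (L₁ * t) * H₁) + c * (ε * t)) :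
    e₂ * c₂ * E₂ + e₁ * c₁ * E₁ ≤ L₂ * c₂ * H₂ + L₁ * c₁ * H₁ := by
  have h1 : ∀ ε : ℝ, 0 < ε → 0 ≤ c₂ * (-e₂ * E₂ + L₂ * H₂) + c₁ * (-e₁ * E₁ + L₁ * H₁) + c * ε := by
    intro ε hε
    refine ge_of_tendsto ((((((tendsto_slope_exp (-e₂)).mul_const E₂).add
      ((tendsto_slope_exp L₂).mul_const H₂)).const_mul c₂).add
      ((((tendsto_slope_exp (-e₁)).mul_const E₁).add
      ((tendsto_slope_exp L₁).mul_const H₁)).const_mul c₁)).add_const (c * ε)) ?_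
    filter_upwards [h ε hε, self_mem_nhdsWithin] with t ht h0
    have h0 : 0 < t := h0
    have := mul_nonneg (inv_pos.2 h0).le (sub_nonneg.2 ht)
    refine this.trans_eq ?_
    field_simp
    ring
  have h2 : Tendsto (fun ε : ℝ => c₂ * (-e₂ * E₂ + L₂ * H₂) + c₁ * (-e₁ * E₁ + L₁ * H₁) + c * ε)
      (𝓝[>] 0) (𝓝 (c₂ * (-e₂ * E₂ + L₂ * H₂) + c₁ * (-e₁ * E₁ + L₁ * H₁) + c * 0)) :=
    (Continuous.tendsto (by fun_prop) 0).mono_left nhdsWithin_le_nhds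
  have := ge_of_tendsto h2 (eventually_mem_nhdsWithin.mono h1)
  linarith

theorem combine {c₁ c₂ P₁ P₂ R₁ R₂ Q₁ Q₂ W₁ W₂ w₁ w₂ v₁ v₂ T T' d : ℝ≥0∞} (hT' : T' ≠ ⊤)
    (hv₁ : 1 ≤ v₁) (hv₂ : 1 ≤ v₂)
    (h1 : c₂ * (Q₂ + W₂) + c₁ * (Q₁ + W₁) ≤ c₂ * (v₂ * W₂) + c₁ * (v₁ * W₁) + T + d)
    (h2 : c₂ * R₂ + c₁ * R₁ + T' ≤ c₂ * (w₂ * (P₂ + R₂)) + c₁ * (w₁ * (P₁ + R₁)) + d)
    (h3 : T ≤ T' + 2 * d) (h4 : P₁ ≤ Q₁ + d) (h5 : P₂ ≤ Q₂ + d) :
    c₂ * ((P₂ + R₂) + (Q₂ + W₂)) + c₁ * ((P₁ + R₁) + (Q₁ + W₁)) ≤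
      c₂ * (w₂ * (P₂ + R₂) + v₂ * (Q₂ + W₂)) + c₁ * (w₁ * (P₁ + R₁) + v₁ * (Q₁ + W₁)) +
        (4 + c₁ + c₂) * d := by
  rw [← ENNReal.add_le_add_iff_right hT']
  have q1 : Q₁ ≤ v₁ * Q₁ := le_mul_of_one_le_left' hv₁
  have q2 : Q₂ ≤ v₂ * Q₂ := le_mul_of_one_le_left' hv₂
  calc _ = (c₂ * (Q₂ + W₂) + c₁ * (Q₁ + W₁)) + (c₂ * R₂ + c₁ * R₁ + T') +
        (c₂ * P₂ + c₁ * P₁) := by ring
    _ ≤ (c₂ * (v₂ * W₂) + c₁ * (v₁ * W₁) + (T' + 2 * d) + d) +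
        (c₂ * (w₂ * (P₂ + R₂)) + c₁ * (w₁ * (P₁ + R₁)) + d) +
        (c₂ * (v₂ * Q₂ + d) + c₁ * (v₁ * Q₁ + d)) := by
      refine add_le_add (add_le_add (h1.trans (by gcongr)) h2) (add_le_add ?_ ?_)
      · exact mul_le_mul_right (h5.trans (add_le_add_left q2 _)) _
      · exact mul_le_mul_right (h4.trans (add_le_add_left q1 _)) _
    _ = _ := by ring

theorem toReal_final {c₁ c₂ E₁ E₂ H₁ H₂ w₁ w₂ v₁ v₂ d : ℝ≥0∞} (h₁ : c₁ ≠ ⊤) (h₂ : c₂ ≠ ⊤)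
    (h₃ : E₁ ≠ ⊤) (h₄ : E₂ ≠ ⊤) (h₅ : H₁ ≠ ⊤) (h₆ : H₂ ≠ ⊤) (h₇ : w₁ ≠ ⊤) (h₈ : w₂ ≠ ⊤)
    (h₉ : v₁ ≠ ⊤) (h₁₀ : v₂ ≠ ⊤) (h₁₁ : d ≠ ⊤)
    (h : c₂ * (E₂ + H₂) + c₁ * (E₁ + H₁) ≤
      c₂ * (w₂ * E₂ + v₂ * H₂) + c₁ * (w₁ * E₁ + v₁ * H₁) + (4 + c₁ + c₂) * d) :
    c₂.toReal * (E₂.toReal + H₂.toReal) + c₁.toReal * (E₁.toReal + H₁.toReal) ≤
      c₂.toReal * (w₂.toReal * E₂.toReal + v₂.toReal * H₂.toReal) +
        c₁.toReal * (w₁.toReal * E₁.toReal + v₁.toReal * H₁.toReal) +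
        (4 + c₁.toReal + c₂.toReal) * d.toReal := by
  lift c₁ to NNReal using h₁
  lift c₂ to NNReal using h₂
  lift E₁ to NNReal using h₃
  lift E₂ to NNReal using h₄
  lift H₁ to NNReal using h₅
  lift H₂ to NNReal using h₆
  lift w₁ to NNReal using h₇
  lift w₂ to NNReal using h₈
  lift v₁ to NNReal using h₉
  lift v₂ to NNReal using h₁₀
  lift d to NNReal using h₁₁
  simp only [ENNReal.coe_toReal]
  exact_mod_cast h

end ForceAux

open ForceAux in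
theorem force (hK : Ker σ k C N K) (hS : Sys σ K k p q A₁ e₁ A₂ e₂ U V)
    (hH : Hat σ K k p q A₁ e₁ A₂ e₂ U V a b) :
    e₂ / (q + 1) * (en σ A₂ e₂ q U (Iio 0)).toReal +
        e₁ / (p + 1) * (en σ A₁ e₁ p V (Iio 0)).toReal ≤
      (|e₂| + k) / (q + 1) * (en σ A₂ (-(|e₂| + k)) q a (Ioi 0)).toReal +
        (|e₁| + k) / (p + 1) * (en σ A₁ (-(|e₁| + k)) p b (Ioi 0)).toReal := by
  have hT := half_true hK hS
  have hH' := half_hat hK hS hH
  have hp := hS.p_pos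
  have hq := hS.q_pos
  have hk := hK.k_pos
  have mU := hS.measU
  have mV := hS.measV
  have ma := hH.measa
  have mb := hH.measb
  rw [← en_rf mU, ← en_rf mV]
  simp only [div_eq_mul_inv]
  refine real_final (c := 4 + (p + 1)⁻¹ + (q + 1)⁻¹) fun ε hε => ?_
  filter_upwards [hat_ineq hK hH' hε, true_ineq hK hT hε, tension_le hK hS hε,
    tension_le hK hS.symm hε,
    pressure_le hK hS ma (fun x => by rw [hH.eqa]; exact le_self_add) (fun x => (hH.lea x).2)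
      (-(|e₂| + k)) hε,
    pressure_le hK hS.symm mb (fun x => by rw [hH.eqb]; exact le_self_add) (fun x => (hH.leb x).2)
      (-(|e₁| + k)) hε, self_mem_nhdsWithin] with t h1 h2 h3 h4 h5 h6 h0
  have h0 : 0 < t := h0
  have h7 := tensI_hat_le hK (measurable_src A₂ (-(|e₂| + k)) q ma)
    (measurable_src A₁ (-(|e₁| + k)) p mb) (measurable_src A₂ e₂ q mU)
    (gm := fun x => src A₂ e₂ q U (rf x)) (by fun_prop) (measurable_src A₁ e₁ p mV)
    (fm := fun x => src A₁ e₁ p V (rf x)) (by fun_prop) (hat_src_le hk hS hH.lea)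
    (hat_src_le hk hS.symm hH.leb) t
  have h8 := h7.trans (add_le_add h3 h4)
  rw [add_add_add_comm, ← two_mul] at h8
  have c1 : (ENNReal.ofReal (p + 1))⁻¹ ≠ ⊤ := by
    simp only [ne_eq, ENNReal.inv_eq_top, ENNReal.ofReal_eq_zero, not_le]; linarith
  have c2 : (ENNReal.ofReal (q + 1))⁻¹ ≠ ⊤ := by
    simp only [ne_eq, ENNReal.inv_eq_top, ENNReal.ofReal_eq_zero, not_le]; linarith
  have f1 := hT.fina
  have f2 := hT.finb
  have f3 := hH'.fina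
  have f4 := hH'.finb
  have w := wt_ne_top
  simp only [src_rf] at h2
  have hT' := (ENNReal.add_ne_top.1 (ne_top_of_le_ne_top (ENNReal.add_ne_top.2
    ⟨ENNReal.add_ne_top.2 ⟨ENNReal.mul_ne_top c2 (ENNReal.mul_ne_top (w _ _ _) f1),
      ENNReal.mul_ne_top c1 (ENNReal.mul_ne_top (w _ _ _) f2)⟩, ENNReal.ofReal_ne_top⟩) h2)).2
  have hv : ∀ e : ℝ, 1 ≤ wt 1 (- -(|e| + k)) t := fun e => by
    rw [wt, ENNReal.one_le_ofReal, one_mul, neg_neg, Real.one_le_exp_iff]; positivity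
  rw [en_split h0.le, en_split (a := b) h0.le] at h1
  rw [en_split h0.le, en_split (a := fun x => V (rf x)) h0.le] at h2
  have h9 := combine hT' (hv e₁) (hv e₂) h1 h2 h8 h6 h5
  simp only [← en_split h0.le] at h9
  have h10 := toReal_final c1 c2 f2 f1 f4 f3 (w _ _ _) (w _ _ _) (w _ _ _) (w _ _ _)
    ENNReal.ofReal_ne_top h9
  simp (disch := positivity) only [ENNReal.toReal_inv, ENNReal.toReal_ofReal, wt, one_mul,
    neg_neg] at h10
  exact h10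

end Crest.Agent.R77
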