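import Crest.Agent.R77.Basic

/-! Row 77: energy of the folded minimal solution. -/

set_option autoImplicit false
set_option linter.unusedSectionVars false
open MeasureTheory Set Filter Topology
open scoped ENNReal

namespace Crest.Agent.R77

variable {S : Type} [MeasurableSpace S] {σ : Measure S} [IsFiniteMeasure σ]
  {K : ℝ → S → S → ℝ≥0∞} {k C N p q A₁ e₁ A₂ e₂ : ℝ} {U V a b : ℝ × S → ℝ≥0∞}

namespace HatAux

theorem wt_le_one {k t : ℝ} (hk : 0 ≤ k) (ht : 0 ≤ t) : wt 1 (-k) t ≤ 1 := by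
  unfold wt
  rw [← ENNReal.ofReal_one]
  refine ENNReal.ofReal_le_ofReal ?_
  rw [one_mul, Real.exp_le_one_iff]
  nlinarith

theorem wt_eq_mul {A : ℝ} (hA : 0 ≤ A) (e t : ℝ) : wt A e t = ENNReal.ofReal A * wt 1 e t := by
  unfold wt
  rw [one_mul, ENNReal.ofReal_mul hA]

omit [MeasurableSpace S] in
theorem src_le {A e : ℝ} (hA : 0 ≤ A) (hq : 0 ≤ q) (hle : ∀ x, a x ≤ U (rf x)) {x : ℝ × S}
    (hx : 0 < x.1) : src A (-(|e| + k)) q a x ≤ wt 1 (-k) x.1 * src A e q U (rf x) := by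
  unfold src
  rw [← mul_assoc, wt_mul zero_le_one, one_mul]
  refine mul_le_mul' (wt_le_wt le_rfl hA ?_) (ENNReal.rpow_le_rpow (hle x) hq)
  have := le_abs_self e
  simp only [rf]
  nlinarith

theorem en_le {A e : ℝ} (hA : 0 ≤ A) (hq : 0 ≤ q) (hk : 0 ≤ k) (hU : Measurable U)
    (hle : ∀ x, a x ≤ U (rf x)) {I J : Set ℝ} (hJ : MeasurableSet J)
    (hIJ : I = (fun t => -t) ⁻¹' J) (hI : I ⊆ Ioi 0) :
    en σ A (-(|e| + k)) q a I ≤ en σ A e q U J := by
  unfold en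
  rw [← setLIntegral_rf hJ (F := fun x => src A e q U x * U x) (by fun_prop), ← hIJ]
  refine setLIntegral_mono' (measurableSet_st (hIJ ▸ measurable_neg hJ)) fun x hx => ?_
  have hx0 : 0 < x.1 := hI hx
  refine mul_le_mul' ((src_le hA hq hle hx0).trans ?_) (hle x)
  exact mul_le_of_le_one_left' (wt_le_one hk hx0.le)

theorem phi_eq {f : ℝ × S → ℝ≥0∞} (hf : Measurable f) :
    ∫⁻ y in st S (Ioi 0), wt 1 (-k) y.1 * (f y + f (rf y)) ∂vol σ = Phi σ k f 0 := by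
  rw [Phi, lintegral_halves (by fun_prop), ← lintegral_add_left (by fun_prop)]
  refine setLIntegral_congr_fun (measurableSet_st measurableSet_Ioi) fun y hy => ?_
  have hy0 : 0 < y.1 := hy
  simp only [rf, zero_sub, neg_neg, abs_neg, abs_of_pos hy0, mul_add]

theorem int_src_le {A e : ℝ} (hA : 0 ≤ A) (hq : 0 ≤ q) (hU : Measurable U)
    (hle : ∀ x, a x ≤ U (rf x)) :
    ∫⁻ x in st S (Ioi 0), src A (-(|e| + k)) q a x ∂vol σ ≤ Phi σ k (src A e q U) 0 := by
  rw [← phi_eq (by fun_prop)]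
  refine setLIntegral_mono' (measurableSet_st measurableSet_Ioi) fun x hx => ?_
  exact (src_le hA hq hle hx).trans (mul_le_mul_right le_add_self _)

theorem fold_le (hK : Ker σ k C N K) {f : ℝ × S → ℝ≥0∞} (hf : Measurable f) {r : ℝ}
    (hr : 0 < r) (hr1 : r ≤ 1) {x : ℝ × S} (hx : r ≤ x.1) :
    fold σ K f x ≤ ENNReal.ofReal (C * r ^ (-N)) * Phi σ k f 0 := by
  have hx0 : x ∈ st S (Ioi 0) := hr.trans_le hx
  have hC := hK.C_pos
  have hk := hK.k_pos
  rw [fold, indicator_of_mem hx0, ← phi_eq hf, ← lintegral_const_mul _ (by fun_prop)]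
  refine setLIntegral_mono' (measurableSet_st measurableSet_Ioi) fun y hy => ?_
  have hy0 : 0 < y.1 := hy
  rw [← mul_assoc, ← wt_eq_mul (by positivity)]
  refine mul_le_mul_left ((hK.upper r _ _ _ hr hr1 ?_).trans
    (wt_le_wt le_rfl (by positivity) ?_)) _
  · rw [abs_of_pos (by linarith)]; linarith
  · rw [abs_of_pos (by linarith)]; nlinarith

/-- The cut-off function. -/
noncomputable def eta (τ : ℝ) (x : ℝ × S) : ℝ≥0∞ := ENNReal.ofReal (min 1 (x.1 / τ))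

@[fun_prop]
theorem measurable_eta (τ : ℝ) : Measurable (eta τ : ℝ × S → ℝ≥0∞) := by
  unfold eta; fun_prop

omit [MeasurableSpace S] in
theorem eta_le_one (τ : ℝ) (x : ℝ × S) : eta τ x ≤ 1 := by
  rw [eta, ← ENNReal.ofReal_one]
  exact ENNReal.ofReal_le_ofReal (min_le_left _ _)

omit [MeasurableSpace S] in
theorem eta_sq_le {δ τ : ℝ} (hδ : 0 < δ) (hτ : 0 < τ) {x : ℝ × S} (hx : x.1 ≤ δ * τ) :
    eta τ x ^ 2 ≤ ENNReal.ofReal (δ ^ 2) := by
  rw [ENNReal.ofReal_pow hδ.le]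
  refine pow_le_pow_left' (ENNReal.ofReal_le_ofReal ((min_le_right _ _).trans ?_)) 2
  rwa [div_le_iff₀ hτ]

theorem leak (hK : Ker σ k C N K) {f g : ℝ × S → ℝ≥0∞} (hf : Measurable f) (hg : Measurable g)
    (ha : Measurable a) (hle : ∀ x, fold σ K f x ≤ a x) {δ τ : ℝ} (hδ : 0 < δ) (hδ1 : δ ≤ 1)
    (hτ : 0 < τ) (hτ1 : τ ≤ 1) :
    ∫⁻ x in st S (Ioi 0), g x * fold σ K f x * eta τ x ^ 2 ∂vol σ ≤
      ENNReal.ofReal (δ ^ 2) * (∫⁻ x in st S (Ioi 0), g x * a x ∂vol σ) +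
        ENNReal.ofReal (C * (δ * τ) ^ (-N)) *
          (Phi σ k f 0 * ∫⁻ x in st S (Ioi 0), g x ∂vol σ) := by
  rw [← mul_assoc, ← lintegral_const_mul _ (by fun_prop), ← lintegral_const_mul _ hg,
    ← lintegral_add_left (by fun_prop)]
  refine lintegral_mono fun x => ?_
  by_cases hx : x.1 ≤ δ * τ
  · refine le_trans ?_ le_self_add
    rw [mul_comm (ENNReal.ofReal _)]
    exact mul_le_mul' (mul_le_mul_right (hle x) _) (eta_sq_le hδ hτ hx)
  · refine le_trans ?_ le_add_self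
    have h1 := fold_le hK hf (mul_pos hδ hτ) (mul_le_one₀ hδ1 hτ.le hτ1) (not_le.1 hx).le
    rw [mul_comm _ (g x)]
    exact (mul_le_of_le_one_right' (pow_le_one' (eta_le_one τ x) 2)).trans
      (mul_le_mul_right h1 _)

omit [MeasurableSpace S] in
theorem eta_add {τ : ℝ} (hτ : 0 < τ) {x y : ℝ × S} (hx : 0 < x.1) (hy : 0 < y.1) :
    eta τ x ^ 2 + eta τ y ^ 2 = 2 * (eta τ x * eta τ y) +
      ENNReal.ofReal ((min 1 (x.1 / τ) - min 1 (y.1 / τ)) ^ 2) := by
  have hu : 0 ≤ min 1 (x.1 / τ) := le_min zero_le_one (by positivity)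
  have hv : 0 ≤ min 1 (y.1 / τ) := le_min zero_le_one (by positivity)
  rw [eta, eta, ← ENNReal.ofReal_pow hu, ← ENNReal.ofReal_pow hv, ← ENNReal.ofReal_mul hu,
    ← ENNReal.ofReal_ofNat, ← ENNReal.ofReal_mul (by norm_num),
    ← ENNReal.ofReal_add (by positivity) (by positivity),
    ← ENNReal.ofReal_add (by positivity) (by positivity)]
  congr 1
  ring

theorem cross_pt (hK : Ker σ k C N K) {δ τ : ℝ} (hδ : 0 < δ) (hδ1 : δ ≤ 1) (hτ : 0 < τ)
    (hτ1 : τ ≤ 1) {x y : ℝ × S} (hx : 0 < x.1) (hy : 0 < y.1) :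
    Gk K x y * (eta τ x ^ 2 + eta τ y ^ 2) ≤ 2 * (eta τ x * Gk K x y * eta τ y) +
      ENNReal.ofReal (δ ^ 2) * Gk K x y + ENNReal.ofReal (C * (δ * τ) ^ (-N)) := by
  have hC := hK.C_pos
  have hk := hK.k_pos
  rw [eta_add hτ hx hy, mul_add, add_assoc]
  refine add_le_add (le_of_eq (by ring)) ?_
  by_cases h : |x.1 - y.1| ≤ δ * τ
  · refine le_trans ?_ le_self_add
    rw [mul_comm]
    refine mul_le_mul_left (ENNReal.ofReal_le_ofReal ?_) _
    have h1 : |min 1 (x.1 / τ) - min 1 (y.1 / τ)| ≤ δ := by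
      refine (abs_min_sub_min_le_max _ _ _ _).trans ?_
      rw [sub_self, abs_zero, ← sub_div, abs_div, abs_of_pos hτ]
      exact max_le hδ.le ((div_le_iff₀ hτ).2 h)
    exact sq_le_sq' (abs_le.1 h1).1 (abs_le.1 h1).2
  · refine le_trans ?_ le_add_self
    have h1 : ENNReal.ofReal ((min 1 (x.1 / τ) - min 1 (y.1 / τ)) ^ 2) ≤ 1 := by
      rw [← ENNReal.ofReal_one]
      refine ENNReal.ofReal_le_ofReal ?_
      have hu : 0 ≤ min 1 (x.1 / τ) := le_min zero_le_one (by positivity)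
      have hv : 0 ≤ min 1 (y.1 / τ) := le_min zero_le_one (by positivity)
      have hu1 : min 1 (x.1 / τ) ≤ 1 := min_le_left _ _
      have hv1 : min 1 (y.1 / τ) ≤ 1 := min_le_left _ _
      nlinarith
    refine (mul_le_of_le_one_right' h1).trans (tsub_le_self.trans ?_)
    refine (hK.upper (δ * τ) _ _ _ (mul_pos hδ hτ) (mul_le_one₀ hδ1 hτ.le hτ1)
      (not_le.1 h).le).trans ?_
    rw [wt_eq_mul (by positivity)]
    exact mul_le_of_le_one_right' (wt_le_one hk.le (abs_nonneg _))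

theorem cross (hK : Ker σ k C N K) {f g : ℝ × S → ℝ≥0∞} (hf : Measurable f) (hg : Measurable g)
    {δ τ : ℝ} (hδ : 0 < δ) (hδ1 : δ ≤ 1) (hτ : 0 < τ) (hτ1 : τ ≤ 1) :
    (∫⁻ x in st S (Ioi 0), g x * (∫⁻ y in st S (Ioi 0), Gk K x y * f y ∂vol σ) * eta τ x ^ 2
        ∂vol σ) +
      ∫⁻ y in st S (Ioi 0), f y * (∫⁻ x in st S (Ioi 0), Gk K y x * g x ∂vol σ) * eta τ y ^ 2
        ∂vol σ ≤
      2 * (∫⁻ x in st S (Ioi 0), ∫⁻ y in st S (Ioi 0),
        g x * eta τ x * Gk K x y * (f y * eta τ y) ∂vol σ ∂vol σ) +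
      ENNReal.ofReal (δ ^ 2) *
        (∫⁻ x in st S (Ioi 0), g x * ∫⁻ y in st S (Ioi 0), Gk K x y * f y ∂vol σ ∂vol σ) +
      ENNReal.ofReal (C * (δ * τ) ^ (-N)) *
        ((∫⁻ y in st S (Ioi 0), f y ∂vol σ) * ∫⁻ x in st S (Ioi 0), g x ∂vol σ) := by
  set μ := (vol σ).restrict (st S (Ioi 0)) with hμ
  have hG := hK.measurable_Gk
  have hGx : ∀ x, Measurable fun y => Gk K x y := fun x => hG.comp measurable_prodMk_left
  have e1 : ∫⁻ x, g x * (∫⁻ y, Gk K x y * f y ∂μ) * eta τ x ^ 2 ∂μ =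
      ∫⁻ z, g z.1 * (Gk K z.1 z.2 * f z.2) * eta τ z.1 ^ 2 ∂μ.prod μ := by
    rw [lintegral_prod _ (by fun_prop)]
    refine lintegral_congr fun x => ?_
    have := hGx x
    rw [← lintegral_const_mul _ (by fun_prop), ← lintegral_mul_const _ (by fun_prop)]
  have e2 : ∫⁻ y, f y * (∫⁻ x, Gk K y x * g x ∂μ) * eta τ y ^ 2 ∂μ =
      ∫⁻ z, f z.2 * (Gk K z.1 z.2 * g z.1) * eta τ z.2 ^ 2 ∂μ.prod μ := by
    rw [lintegral_prod_symm _ (by fun_prop)]
    refine lintegral_congr fun y => ?_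
    have := hGx y
    rw [← lintegral_const_mul _ (by fun_prop), ← lintegral_mul_const _ (by fun_prop)]
    simp only [hK.Gk_symm y]
  have e3 : ∫⁻ x, ∫⁻ y, g x * eta τ x * Gk K x y * (f y * eta τ y) ∂μ ∂μ =
      ∫⁻ z, g z.1 * eta τ z.1 * Gk K z.1 z.2 * (f z.2 * eta τ z.2) ∂μ.prod μ := by
    rw [lintegral_prod _ (by fun_prop)]
  have e4 : ∫⁻ x, g x * ∫⁻ y, Gk K x y * f y ∂μ ∂μ =
      ∫⁻ z, g z.1 * (Gk K z.1 z.2 * f z.2) ∂μ.prod μ := by
    rw [lintegral_prod _ (by fun_prop)]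
    refine lintegral_congr fun x => ?_
    have := hGx x
    rw [← lintegral_const_mul _ (by fun_prop)]
  have e5 : (∫⁻ y, f y ∂μ) * ∫⁻ x, g x ∂μ = ∫⁻ z, g z.1 * f z.2 ∂μ.prod μ := by
    rw [lintegral_prod_mul hg.aemeasurable hf.aemeasurable, mul_comm]
  rw [e1, e2, e3, e4, e5, ← lintegral_add_left (by fun_prop),
    ← lintegral_const_mul _ (by fun_prop), ← lintegral_const_mul _ (by fun_prop),
    ← lintegral_const_mul _ (by fun_prop), ← lintegral_add_left (by fun_prop),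
    ← lintegral_add_left (by fun_prop), hμ, Measure.prod_restrict]
  refine setLIntegral_mono' ((measurableSet_st measurableSet_Ioi).prod
    (measurableSet_st measurableSet_Ioi)) fun z hz => ?_
  have h := mul_le_mul_right (cross_pt hK hδ hδ1 hτ hτ1 (x := z.1) (y := z.2) hz.1 hz.2)
    (g z.1 * f z.2)
  refine le_trans (le_of_eq (by ring)) (h.trans (le_of_eq (by ring)))

theorem en_split {F : ℝ × S → ℝ≥0∞} {τ : ℝ} (hτ : 0 < τ) :
    ∫⁻ x in st S (Ioi 0), F x ∂vol σ ≤ (∫⁻ x in st S (Ioc 0 τ), F x ∂vol σ) +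
      ∫⁻ x in st S (Ioi 0), F x * eta τ x ^ 2 ∂vol σ := by
  have h1 : st S (Ioi 0) = st S (Ioc 0 τ) ∪ st S (Ioi τ) := by
    ext x; simp only [mem_st, mem_union, mem_Ioi, mem_Ioc]
    constructor
    · intro h
      rcases le_or_gt x.1 τ with h' | h'
      exacts [Or.inl ⟨h, h'⟩, Or.inr h']
    · rintro (h | h)
      exacts [h.1, hτ.trans h]
  conv_lhs => rw [h1]
  refine (lintegral_union_le _ _ _).trans (add_le_add_right ?_ _)
  refine le_trans (le_of_eq ?_) (lintegral_mono_set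
    (show st S (Ioi τ) ⊆ st S (Ioi 0) from fun x hx => hτ.trans hx))
  refine setLIntegral_congr_fun (measurableSet_st measurableSet_Ioi) fun x hx => ?_
  have hx' : τ < x.1 := hx
  have : eta τ x = 1 := by
    rw [eta, min_eq_left ((one_le_div hτ).2 hx'.le), ENNReal.ofReal_one]
  simp [this]

theorem absorb {m π R : ℝ≥0∞} {l : ℝ} (hl : 1 < l) (hm : m ≠ ⊤) (h1 : m ≤ 2 * π + R)
    (h2 : 2 * ENNReal.ofReal l * π ≤ m) : m ≤ ENNReal.ofReal (l / (l - 1)) * R := by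
  have hl0 : 0 < l - 1 := sub_pos.2 hl
  have h3 : ENNReal.ofReal (l - 1) * m + m ≤ ENNReal.ofReal l * R + m := by
    calc ENNReal.ofReal (l - 1) * m + m = ENNReal.ofReal l * m := by
          rw [← add_one_mul, ← ENNReal.ofReal_one, ← ENNReal.ofReal_add hl0.le zero_le_one,
            sub_add_cancel]
      _ ≤ ENNReal.ofReal l * (2 * π + R) := mul_le_mul_right h1 _
      _ = ENNReal.ofReal l * R + 2 * ENNReal.ofReal l * π := by ring
      _ ≤ _ := add_le_add_right h2 _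
  have h4 := ENNReal.le_of_add_le_add_right hm h3
  calc m = ENNReal.ofReal (l - 1)⁻¹ * (ENNReal.ofReal (l - 1) * m) := by
        rw [← mul_assoc, ← ENNReal.ofReal_mul (by positivity), inv_mul_cancel₀ hl0.ne',
          ENNReal.ofReal_one, one_mul]
    _ ≤ ENNReal.ofReal (l - 1)⁻¹ * (ENNReal.ofReal l * R) := mul_le_mul_right h4 _
    _ = _ := by
        rw [← mul_assoc, ← ENNReal.ofReal_mul (by positivity), div_eq_inv_mul]

theorem m_le {g h P : ℝ × S → ℝ≥0∞} (hg : Measurable g) (hP : Measurable P)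
    (he : ∀ x, a x = h x + P x) (τ : ℝ) :
    ∫⁻ x in st S (Ioi 0), g x * a x * eta τ x ^ 2 ∂vol σ =
      (∫⁻ x in st S (Ioi 0), g x * h x * eta τ x ^ 2 ∂vol σ) +
        ∫⁻ x in st S (Ioi 0), g x * P x * eta τ x ^ 2 ∂vol σ := by
  rw [← lintegral_add_right _ (by fun_prop)]
  refine lintegral_congr fun x => ?_
  rw [he]; ring

end HatAux

open HatAux in
theorem hat_energy (hK : Ker σ k C N K) (hp : 0 < p) (hq : 0 < q) (hpq : 1 < p * q) (e₁ e₂ : ℝ) :
    ∃ D : ℝ, 0 < D ∧ ∀ (A₁ A₂ : ℝ) (U V a b : ℝ × S → ℝ≥0∞),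
      Sys σ K k p q A₁ e₁ A₂ e₂ U V → Hat σ K k p q A₁ e₁ A₂ e₂ U V a b →
      ∀ δ τ : ℝ, 0 < δ → δ ≤ 1 → 0 < τ → τ ≤ 1 →
      en σ A₂ (-(|e₂| + k)) q a (Ioi 0) + en σ A₁ (-(|e₁| + k)) p b (Ioi 0) ≤
        (en σ A₂ e₂ q U (Ico (-τ) 0) + en σ A₁ e₁ p V (Ico (-τ) 0)) +
        ENNReal.ofReal (D * δ ^ 2) * (en σ A₂ e₂ q U (Iio 0) + en σ A₁ e₁ p V (Iio 0)) +
        ENNReal.ofReal (D * (δ * τ) ^ (-N)) *
          (Phi σ k (src A₁ e₁ p V) 0 * Phi σ k (src A₂ e₂ q U) 0) := by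
  obtain ⟨p', q', hp0, hp1, hq0, hq1, hpq'⟩ :
      ∃ p' q' : ℝ, 0 < p' ∧ p' < p ∧ 0 < q' ∧ q' < q ∧ 1 < p' * q' := by
    have h1 : 1 / q < p := by rw [div_lt_iff₀ hq]; linarith
    have h0 : 0 < 1 / q := by positivity
    have h2 : 1 < (p + 1 / q) / 2 * q := by
      have : (p + 1 / q) / 2 * q = (p * q + 1) / 2 := by field_simp
      rw [this]; linarith
    have h3 : 0 < (p + 1 / q) / 2 := by positivity
    have h4 : 1 / ((p + 1 / q) / 2) < q := by rw [div_lt_iff₀ h3]; linarith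
    refine ⟨(p + 1 / q) / 2, (q + 1 / ((p + 1 / q) / 2)) / 2, h3, by linarith, by positivity,
      by linarith, ?_⟩
    have : (p + 1 / q) / 2 * ((q + 1 / ((p + 1 / q) / 2)) / 2) = ((p + 1 / q) / 2 * q + 1) / 2 := by
      field_simp
    rw [this]; linarith
  have hl : 1 < √(p' * q') := Real.lt_sqrt_of_sq_lt (by simpa using hpq')
  set l := √(p' * q') with hldef
  have hl0 : 0 < l - 1 := sub_pos.2 hl
  have hC := hK.C_pos
  have hk := hK.k_pos
  have hL : 0 < l / (l - 1) := div_pos (by linarith) hl0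
  refine ⟨l / (l - 1) * (2 + 3 * C), by positivity, fun A₁ A₂ U V a b hS hH δ τ hδ hδ1 hτ hτ1 => ?_⟩
  have hU := hS.measU
  have hV := hS.measV
  have ha := hH.measa
  have hb := hH.measb
  have hG := hK.measurable_Gk
  have hla : ∀ x, a x ≤ U (rf x) := fun x => (hH.lea x).2
  have hlb : ∀ x, b x ≤ V (rf x) := fun x => (hH.leb x).2
  have hneg : Ioi (0 : ℝ) = (fun t => -t) ⁻¹' Iio 0 := by ext t; simp
  have hneg' : Ioc (0 : ℝ) τ = (fun t => -t) ⁻¹' Ico (-τ) 0 := by ext t; simp [and_comm]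
  have hEa : en σ A₂ (-(|e₂| + k)) q a (Ioi 0) ≤ en σ A₂ e₂ q U (Iio 0) :=
    en_le hS.A₂_pos.le hq.le hk.le hU hla measurableSet_Iio hneg subset_rfl
  have hEb : en σ A₁ (-(|e₁| + k)) p b (Ioi 0) ≤ en σ A₁ e₁ p V (Iio 0) :=
    en_le hS.A₁_pos.le hp.le hk.le hV hlb measurableSet_Iio hneg subset_rfl
  have hEa' : en σ A₂ (-(|e₂| + k)) q a (Ioc 0 τ) ≤ en σ A₂ e₂ q U (Ico (-τ) 0) :=
    en_le hS.A₂_pos.le hq.le hk.le hU hla measurableSet_Ico hneg' Ioc_subset_Ioi_self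
  have hEb' : en σ A₁ (-(|e₁| + k)) p b (Ioc 0 τ) ≤ en σ A₁ e₁ p V (Ico (-τ) 0) :=
    en_le hS.A₁_pos.le hp.le hk.le hV hlb measurableSet_Ico hneg' Ioc_subset_Ioi_self
  have hIa := int_src_le (σ := σ) (k := k) (e := e₂) hS.A₂_pos.le hq.le hU hla
  have hIb := int_src_le (σ := σ) (k := k) (e := e₁) hS.A₁_pos.le hp.le hV hlb
  have hfU := hS.en_ne_top hk 0
  have hfV := hS.symm.en_ne_top hk 0
  have hstab := hH.stab p' q' hp0 hp1 hq0 hq1 (eta τ) (measurable_eta τ) (eta_le_one τ)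
  have heqa := hH.eqa
  have heqb := hH.eqb
  simp only [en] at hEa hEb hEa' hEb' hfU hfV ⊢
  have hgm : Measurable (src A₂ (-(|e₂| + k)) q a) := measurable_src _ _ _ ha
  have hfm : Measurable (src A₁ (-(|e₁| + k)) p b) := measurable_src _ _ _ hb
  have hgM : Measurable (src A₂ e₂ q U) := measurable_src _ _ _ hU
  have hfM : Measurable (src A₁ e₁ p V) := measurable_src _ _ _ hV
  generalize src A₂ (-(|e₂| + k)) q a = g at *
  generalize src A₁ (-(|e₁| + k)) p b = f at *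
  generalize src A₂ e₂ q U = g₀ at *
  generalize src A₁ e₁ p V = f₀ at *
  have hsa := en_split (σ := σ) (F := fun x => g x * a x) hτ
  have hsb := en_split (σ := σ) (F := fun x => f x * b x) hτ
  have hma := m_le (σ := σ) hgm (Measurable.lintegral_prod_right'
    (f := fun z : (ℝ × S) × ℝ × S => Gk K z.1 z.2 * f z.2) (by fun_prop)) heqa τ
  have hmb := m_le (σ := σ) hfm (Measurable.lintegral_prod_right'
    (f := fun z : (ℝ × S) × ℝ × S => Gk K z.1 z.2 * g z.2) (by fun_prop)) heqb τ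
  have hka := leak hK hfM hgm ha (fun x => by rw [heqa]; exact le_self_add) hδ hδ1 hτ hτ1
  have hkb := leak hK hgM hfm hb (fun x => by rw [heqb]; exact le_self_add) hδ hδ1 hτ hτ1
  have hcr := cross hK hfm hgm hδ hδ1 hτ hτ1
  have hP : ∫⁻ x in st S (Ioi 0), g x * ∫⁻ y in st S (Ioi 0), Gk K x y * f y ∂vol σ ∂vol σ ≤
      ∫⁻ x in st S (Ioi 0), g x * a x ∂vol σ :=
    lintegral_mono fun x => mul_le_mul_right (by rw [heqa]; exact le_add_self) _
  have hfa : ∫⁻ x in st S (Ioi 0), g x * a x * eta τ x ^ 2 ∂vol σ ≤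
      ∫⁻ x in st S (Ioi 0), g x * a x ∂vol σ :=
    lintegral_mono fun x => mul_le_of_le_one_right' (pow_le_one' (eta_le_one τ x) 2)
  have hfb : ∫⁻ x in st S (Ioi 0), f x * b x * eta τ x ^ 2 ∂vol σ ≤
      ∫⁻ x in st S (Ioi 0), f x * b x ∂vol σ :=
    lintegral_mono fun x => mul_le_of_le_one_right' (pow_le_one' (eta_le_one τ x) 2)
  have hc1 : ENNReal.ofReal (l / (l - 1)) * (2 * ENNReal.ofReal (δ ^ 2)) ≤
      ENNReal.ofReal (l / (l - 1) * (2 + 3 * C) * δ ^ 2) := by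
    rw [← ENNReal.ofReal_ofNat, ← ENNReal.ofReal_mul (by norm_num), ← ENNReal.ofReal_mul hL.le,
      mul_assoc]
    refine ENNReal.ofReal_le_ofReal (mul_le_mul_of_nonneg_left ?_ hL.le)
    exact mul_le_mul_of_nonneg_right (by linarith) (by positivity)
  have hc2 : ENNReal.ofReal (l / (l - 1)) * (3 * ENNReal.ofReal (C * (δ * τ) ^ (-N))) ≤
      ENNReal.ofReal (l / (l - 1) * (2 + 3 * C) * (δ * τ) ^ (-N)) := by
    rw [← ENNReal.ofReal_ofNat, ← ENNReal.ofReal_mul (by norm_num), ← ENNReal.ofReal_mul hL.le,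
      mul_assoc, ← mul_assoc 3]
    refine ENNReal.ofReal_le_ofReal (mul_le_mul_of_nonneg_left ?_ hL.le)
    exact mul_le_mul_of_nonneg_right (by linarith) (by positivity)
  generalize ENNReal.ofReal (δ ^ 2) = d at *
  generalize ENNReal.ofReal (C * (δ * τ) ^ (-N)) = c at *
  generalize ENNReal.ofReal (l / (l - 1) * (2 + 3 * C) * δ ^ 2) = d' at *
  generalize ENNReal.ofReal (l / (l - 1) * (2 + 3 * C) * (δ * τ) ^ (-N)) = c' at *
  generalize Phi σ k f₀ 0 = Φf at *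
  generalize Phi σ k g₀ 0 = Φg at *
  generalize ∫⁻ x in st S (Ioi 0), g x * a x * eta τ x ^ 2 ∂vol σ = ma at *
  generalize ∫⁻ x in st S (Ioi 0), f x * b x * eta τ x ^ 2 ∂vol σ = mb at *
  generalize ∫⁻ x in st S (Ioi 0), g x * a x ∂vol σ = Ea at *
  generalize ∫⁻ x in st S (Ioi 0), f x * b x ∂vol σ = Eb at *
  generalize ∫⁻ x in st S (Iio 0), g₀ x * U x ∂vol σ = EU at *
  generalize ∫⁻ x in st S (Iio 0), f₀ x * V x ∂vol σ = EV at *
  generalize ∫⁻ x in st S (Ioi 0), g x ∂vol σ = Ig at *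
  generalize ∫⁻ x in st S (Ioi 0), f x ∂vol σ = If at *
  generalize ∫⁻ x in st S (Ioi 0), ∫⁻ y in st S (Ioi 0),
        g x * eta τ x * Gk K x y * (f y * eta τ y) ∂vol σ ∂vol σ = π at *
  have hm : ma + mb ≠ ⊤ := ENNReal.add_ne_top.2
    ⟨ne_top_of_le_ne_top hfU (hfa.trans hEa), ne_top_of_le_ne_top hfV (hfb.trans hEb)⟩
  have hmain : ma + mb ≤ 2 * π + (2 * d * (EU + EV) + 3 * c * (Φf * Φg)) := by
    rw [hma, hmb, add_add_add_comm]
    refine (add_le_add (add_le_add hka hkb) hcr).trans ?_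
    calc _ ≤ (d * EU + c * (Φf * Φg) + (d * EV + c * (Φg * Φf))) +
          (2 * π + d * EU + c * (Φf * Φg)) := by
          have := hP.trans hEa
          gcongr
      _ ≤ (d * EU + c * (Φf * Φg) + (d * EV + c * (Φg * Φf))) +
          (2 * π + d * EU + c * (Φf * Φg)) + d * EV := le_self_add
      _ = _ := by ring
  have habs := absorb hl hm hmain hstab
  calc Ea + Eb ≤ _ := add_le_add (hsa.trans (add_le_add_left hEa' _))
        (hsb.trans (add_le_add_left hEb' _))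
    _ = _ + (ma + mb) := add_add_add_comm _ _ _ _
    _ ≤ _ := by
        rw [add_assoc _ (d' * _)]
        refine add_le_add_right (habs.trans ?_) _
        rw [mul_add, ← mul_assoc, ← mul_assoc _ (3 * c)]
        gcongr

theorem Sys.en_le_en (hK : Ker σ k C N K) (hS : Sys σ K k p q A₁ e₁ A₂ e₂ U V) {τ : ℝ}
    (hτ : 0 < τ) (hτ1 : τ ≤ 1) :
    en σ A₂ e₂ q U (Iio 0) ≤ en σ A₁ e₁ p V (Iio 0) + en σ A₂ e₂ q U (Ico (-τ) 0) +
      ENNReal.ofReal (C * τ ^ (-N)) *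
        (Phi σ k (src A₁ e₁ p V) 0 * Phi σ k (src A₂ e₂ q U) 0) := by
  have hU := hS.measU
  have hV := hS.measV
  have hC := hK.C_pos
  have hk := hK.k_pos
  have heqU := hS.eqU
  have heqV := hS.eqV
  have hgM : Measurable (src A₂ e₂ q U) := measurable_src _ _ _ hU
  have hfM : Measurable (src A₁ e₁ p V) := measurable_src _ _ _ hV
  simp only [en]
  generalize src A₂ e₂ q U = g at *
  generalize src A₁ e₁ p V = f at *
  have hKm : Measurable fun z : (ℝ × S) × ℝ × S => K (z.1.1 - z.2.1) z.1.2 z.2.2 :=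
    hK.measurable (by fun_prop) (by fun_prop) (by fun_prop)
  have hKx : ∀ x : ℝ × S, Measurable fun y : ℝ × S => K (x.1 - y.1) x.2 y.2 :=
    fun x => hKm.comp measurable_prodMk_left
  have h1 : st S (Iio 0) ⊆ st S (Iio (-τ)) ∪ st S (Ico (-τ) 0) := by
    intro x hx
    rcases lt_or_ge x.1 (-τ) with h | h
    exacts [Or.inl h, Or.inr ⟨h, hx⟩]
  refine ((lintegral_mono_set h1).trans (lintegral_union_le _ _ _)).trans ?_
  rw [add_right_comm]
  refine add_le_add_left ?_ _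
  have hpt : ∀ x ∈ st S (Iio (-τ)), U x ≤
      (∫⁻ y in st S (Iio 0), K (x.1 - y.1) x.2 y.2 * f y ∂vol σ) +
        ENNReal.ofReal (C * τ ^ (-N)) * wt 1 (-k) |0 - x.1| * Phi σ k f 0 := by
    intro x hx
    have hx' : x.1 < -τ := hx
    rw [heqU, ← lintegral_add_compl _ (measurableSet_st (S := S) (I := Iio 0) measurableSet_Iio)]
    refine add_le_add_right ?_ _
    rw [Phi, ← lintegral_const_mul _ (by fun_prop)]
    refine le_trans (setLIntegral_mono' (measurableSet_st measurableSet_Iio).compl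
      fun y hy => ?_) (setLIntegral_le_lintegral _ _)
    have hy' : 0 ≤ y.1 := not_lt.1 hy
    rw [← mul_assoc]
    refine mul_le_mul_left ((hK.upper τ _ _ _ hτ hτ1 ?_).trans (le_of_eq ?_)) _
    · rw [abs_of_neg (by linarith)]; linarith
    · rw [← HatAux.wt_eq_mul (by positivity), wt_mul (by positivity), mul_one]
      refine wt_congr ?_
      rw [abs_of_neg (by linarith), abs_of_pos (by linarith), abs_of_nonpos (by linarith)]
      ring
  have hPm : Measurable fun x : ℝ × S =>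
      ∫⁻ y in st S (Iio 0), K (x.1 - y.1) x.2 y.2 * f y ∂vol σ :=
    Measurable.lintegral_prod_right'
      (f := fun z : (ℝ × S) × ℝ × S => K (z.1.1 - z.2.1) z.1.2 z.2.2 * f z.2)
      (hKm.mul (hfM.comp measurable_snd))
  calc ∫⁻ x in st S (Iio (-τ)), g x * U x ∂vol σ
      ≤ ∫⁻ x in st S (Iio (-τ)), g x *
          ((∫⁻ y in st S (Iio 0), K (x.1 - y.1) x.2 y.2 * f y ∂vol σ) +
          ENNReal.ofReal (C * τ ^ (-N)) * wt 1 (-k) |0 - x.1| * Phi σ k f 0) ∂vol σ :=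
        setLIntegral_mono' (measurableSet_st measurableSet_Iio) fun x hx =>
          mul_le_mul_right (hpt x hx) _
    _ ≤ ∫⁻ x, g x * ((∫⁻ y in st S (Iio 0), K (x.1 - y.1) x.2 y.2 * f y ∂vol σ) +
          ENNReal.ofReal (C * τ ^ (-N)) * wt 1 (-k) |0 - x.1| * Phi σ k f 0) ∂vol σ :=
        setLIntegral_le_lintegral _ _
    _ = (∫⁻ x, g x * (∫⁻ y in st S (Iio 0), K (x.1 - y.1) x.2 y.2 * f y ∂vol σ) ∂vol σ) +
          ∫⁻ x, (ENNReal.ofReal (C * τ ^ (-N)) * Phi σ k f 0) * (wt 1 (-k) |0 - x.1| * g x)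
            ∂vol σ := by
        rw [← lintegral_add_left (by fun_prop)]
        refine lintegral_congr fun x => ?_
        ring
    _ = _ := by
        rw [lintegral_const_mul _ (by fun_prop), mul_assoc]
        congr 1
        have e1 : ∀ x : ℝ × S, g x * ∫⁻ y in st S (Iio 0), K (x.1 - y.1) x.2 y.2 * f y ∂vol σ =
            ∫⁻ y in st S (Iio 0), g x * (K (x.1 - y.1) x.2 y.2 * f y) ∂vol σ := fun x => by
          rw [lintegral_const_mul _ ((hKx x).fun_mul hfM)]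
        simp only [e1]
        rw [lintegral_lintegral_swap (by
          refine Measurable.aemeasurable ?_
          change Measurable fun z : (ℝ × S) × ℝ × S =>
            g z.1 * (K (z.1.1 - z.2.1) z.1.2 z.2.2 * f z.2)
          exact (hgM.comp measurable_fst).mul (hKm.mul (hfM.comp measurable_snd)))]
        refine lintegral_congr fun y => ?_
        rw [heqV, ← lintegral_const_mul _ ((hKx y).fun_mul hgM)]
        refine lintegral_congr fun x => ?_
        rw [hK.swap x y]; ring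

end Crest.Agent.R77
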