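import Crest.Agent.R77.Basic

/-! Row 77: universal bounds and the blow-up lemma. -/

set_option autoImplicit false
set_option linter.unusedSectionVars false
open MeasureTheory Set Filter Topology
open scoped ENNReal

namespace Crest.Agent.R77

variable {S : Type} [MeasurableSpace S] {σ : Measure S} [IsFiniteMeasure σ]
  {K : ℝ → S → S → ℝ≥0∞} {k C N p q A₁ e₁ A₂ e₂ : ℝ} {U V a b : ℝ × S → ℝ≥0∞}

theorem ph_wt_eq {A : ℝ} (hA : 0 ≤ A) (e t : ℝ) : wt A e t = ENNReal.ofReal A * wt 1 e t := by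
  rw [wt, wt, one_mul, ENNReal.ofReal_mul hA]

theorem ph_toReal_wt {A : ℝ} (hA : 0 ≤ A) (e t : ℝ) : (wt A e t).toReal = A * Real.exp (e * t) :=
  ENNReal.toReal_ofReal (by positivity)

theorem Sys.phi_le (hK : Ker σ k C N K) (hS : Sys σ K k p q A₁ e₁ A₂ e₂ U V) (x : ℝ × S) :
    ENNReal.ofReal C⁻¹ * Phi σ k (src A₁ e₁ p V) x.1 ≤ U x := by
  rw [hS.eqU, Phi, ← lintegral_const_mul' _ _ ENNReal.ofReal_ne_top]
  refine lintegral_mono fun y => ?_
  rw [← mul_assoc, ← ph_wt_eq (inv_nonneg.2 hK.C_pos.le)]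
  exact mul_le_mul_left (hK.lower _ _ _) _

omit [IsFiniteMeasure σ] in
theorem ph_nonempty (hσ : σ ≠ 0) : Nonempty S := by
  by_contra h
  have := not_nonempty_iff.1 h
  exact hσ (Measure.eq_zero_of_isEmpty σ)

theorem Sys.phi_ne_top (hK : Ker σ k C N K) (hσ : σ ≠ 0) (hS : Sys σ K k p q A₁ e₁ A₂ e₂ U V)
    (t : ℝ) : Phi σ k (src A₁ e₁ p V) t ≠ ⊤ := by
  obtain ⟨a⟩ := ph_nonempty hσ
  intro h
  have h1 := hS.phi_le hK (t, a)
  rw [h, ENNReal.mul_top (ENNReal.ofReal_pos.2 (inv_pos.2 hK.C_pos)).ne'] at h1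
  exact hS.U_ne_top _ (top_le_iff.1 h1)

omit [IsFiniteMeasure σ] in
theorem ph_phi_shift (hk : 0 < k) (f : ℝ × S → ℝ≥0∞) (s t : ℝ) :
    wt 1 (-k) |s - t| * Phi σ k f t ≤ Phi σ k f s := by
  rw [Phi, Phi, ← lintegral_const_mul' _ _ (wt_ne_top _ _ _)]
  refine lintegral_mono fun y => ?_
  rw [← mul_assoc, wt_mul zero_le_one]
  refine mul_le_mul_left (wt_le_wt (by norm_num) zero_le_one ?_) _
  have := mul_le_mul_of_nonneg_left (abs_sub_le s t y.1) hk.le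
  linarith

theorem ph_src_ne_zero {A : ℝ} (hA : 0 < A) (hp : 0 < p) (e : ℝ) {x : ℝ × S} (hV : V x ≠ 0) :
    src A e p V x ≠ 0 :=
  mul_ne_zero (wt_pos hA _ _).ne'
    (ENNReal.rpow_pos_of_nonneg (pos_iff_ne_zero.2 hV) hp.le).ne'

theorem ph_vol_st (I : Set ℝ) : vol σ (st S I) = volume I * σ univ := by
  have : st S I = I ×ˢ (univ : Set S) := by ext x; simp
  rw [this, vol, Measure.prod_prod]

theorem ph_lintegral_ne_zero (hσ : σ ≠ 0) {F : ℝ × S → ℝ≥0∞} (hF : Measurable F)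
    (h0 : ∀ x, F x ≠ 0) {I : Set ℝ} (hI : volume I ≠ 0) : ∫⁻ x in st S I, F x ∂vol σ ≠ 0 := by
  rw [← pos_iff_ne_zero, lintegral_pos_iff_support hF, Function.support_eq_univ h0,
    Measure.restrict_apply_univ, ph_vol_st]
  exact ENNReal.mul_pos hI (Measure.measure_univ_ne_zero.2 hσ)

theorem Sys.phi_ne_zero (hσ : σ ≠ 0) (hS : Sys σ K k p q A₁ e₁ A₂ e₂ U V) (t : ℝ) :
    Phi σ k (src A₁ e₁ p V) t ≠ 0 := by
  have hV := hS.measV
  have h := ph_lintegral_ne_zero hσ (F := fun y => wt 1 (-k) |t - y.1| * src A₁ e₁ p V y)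
    (by fun_prop) (fun y => mul_ne_zero (wt_pos one_pos _ _).ne'
      (ph_src_ne_zero hS.A₁_pos hS.p_pos _ (hS.posV y))) (I := univ) (by simp)
  rwa [show st S univ = univ from rfl, Measure.restrict_univ] at h

theorem Sys.phi_pos (hK : Ker σ k C N K) (hσ : σ ≠ 0) (hS : Sys σ K k p q A₁ e₁ A₂ e₂ U V)
    (t : ℝ) : 0 < (Phi σ k (src A₁ e₁ p V) t).toReal :=
  ENNReal.toReal_pos (hS.phi_ne_zero hσ t) (hS.phi_ne_top hK hσ t)

theorem Sys.phi_lower (hK : Ker σ k C N K) (hσ : σ ≠ 0) (hS : Sys σ K k p q A₁ e₁ A₂ e₂ U V) :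
    ∃ L : ℝ, ∀ t, L + e₂ * t + q * Real.log (Phi σ k (src A₁ e₁ p V) t).toReal ≤
      Real.log (Phi σ k (src A₂ e₂ q U) t).toReal := by
  have hk := hK.k_pos
  have hC := hK.C_pos
  have hA := hS.A₂_pos
  have hs : 0 < (σ univ).toReal :=
    ENNReal.toReal_pos (Measure.measure_univ_ne_zero.2 hσ) (measure_ne_top _ _)
  refine ⟨-k + (Real.log A₂ - |e₂| + q * (Real.log C⁻¹ - k)) + Real.log (σ univ).toReal,
    fun t => ?_⟩
  have h1 : wt 1 (-k) 1 * (wt A₂ 1 (e₂ * t - |e₂|) *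
      (ENNReal.ofReal C⁻¹ * (wt 1 (-k) 1 * Phi σ k (src A₁ e₁ p V) t)) ^ q) * σ univ ≤
      Phi σ k (src A₂ e₂ q U) t := by
    have e : σ univ = vol σ (st S (Icc t (t + 1))) := by simp [ph_vol_st]
    rw [e, ← setLIntegral_const]
    refine le_trans (setLIntegral_mono' (measurableSet_st measurableSet_Icc) fun y hy => ?_)
      (setLIntegral_le_lintegral _ _)
    have hy1 : |t - y.1| ≤ 1 := by
      rw [abs_le]; constructor <;> linarith [hy.1, hy.2]
    have hy2 : |y.1 - t| ≤ 1 := by rwa [abs_sub_comm]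
    refine mul_le_mul' (wt_le_wt le_rfl zero_le_one (by nlinarith)) (mul_le_mul'
      (wt_le_wt le_rfl hA.le ?_) (ENNReal.rpow_le_rpow ?_ hS.q_pos.le))
    · have h2 : |e₂ * (y.1 - t)| ≤ |e₂| := by
        rw [abs_mul]; exact mul_le_of_le_one_right (abs_nonneg _) hy2
      have h3 := neg_abs_le (e₂ * (y.1 - t))
      linarith
    · refine le_trans (mul_le_mul_right ?_ _) (hS.phi_le hK y)
      exact le_trans (mul_le_mul_left (wt_le_wt le_rfl zero_le_one (by nlinarith)) _)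
        (ph_phi_shift hk _ y.1 t)
  have h2 := ENNReal.toReal_mono (hS.symm.phi_ne_top hK hσ t) h1
  have hφ := hS.phi_pos hK hσ t
  simp only [ENNReal.toReal_mul, ← ENNReal.toReal_rpow, ph_toReal_wt zero_le_one,
    ph_toReal_wt hA.le, ENNReal.toReal_ofReal (inv_nonneg.2 hC.le), one_mul, mul_one] at h2
  refine le_trans (le_of_eq ?_) (Real.log_le_log (by positivity) h2)
  rw [Real.log_mul (by positivity) hs.ne', Real.log_mul (by positivity) (by positivity),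
    Real.log_mul (by positivity) (by positivity), Real.log_mul hA.ne' (by positivity),
    Real.log_rpow (by positivity), Real.log_mul (by positivity) (by positivity),
    Real.log_mul (by positivity) hφ.ne']
  simp only [Real.log_exp]
  ring

theorem Sys.phi_upper (hK : Ker σ k C N K) (hσ : σ ≠ 0) (hS : Sys σ K k p q A₁ e₁ A₂ e₂ U V)
    {t : ℝ} (ht : 0 ≤ t) : Real.log (Phi σ k (src A₁ e₁ p V) t).toReal ≤
      k * t + Real.log (Phi σ k (src A₁ e₁ p V) 0).toReal := by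
  have h2 := ENNReal.toReal_mono (hS.phi_ne_top hK hσ 0) (ph_phi_shift hK.k_pos _ 0 t)
  have hφ := hS.phi_pos hK hσ t
  rw [ENNReal.toReal_mul, ph_toReal_wt zero_le_one, one_mul, zero_sub, abs_neg,
    abs_of_nonneg ht] at h2
  have h3 := Real.log_le_log (by positivity) h2
  rw [Real.log_mul (by positivity) hφ.ne', Real.log_exp] at h3
  linarith

theorem Sys.one_lt_mul (hK : Ker σ k C N K) (hσ : σ ≠ 0) (hS : Sys σ K k p q A₁ e₁ A₂ e₂ U V) :
    1 < p * q := by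
  by_contra hpq
  have hpq' : 0 ≤ 1 - p * q := by linarith
  obtain ⟨L₂, h₂⟩ := hS.phi_lower hK hσ
  obtain ⟨L₁, h₁⟩ := hS.symm.phi_lower hK hσ
  have hp := hS.p_pos
  have hη : 0 < e₁ + p * e₂ - k * (1 - p * q) := by
    have := mul_lt_mul_of_pos_left hS.e₂_gt hp
    linarith [hS.e₁_gt]
  set η := e₁ + p * e₂ - k * (1 - p * q) with hηdef
  set B := (1 - p * q) * Real.log (Phi σ k (src A₁ e₁ p V) 0).toReal - L₁ - p * L₂ with hB
  have key : ∀ t, 0 ≤ t → η * t ≤ B := fun t ht => by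
    have h3 := mul_le_mul_of_nonneg_left (hS.phi_upper hK hσ ht) hpq'
    have h4 := mul_le_mul_of_nonneg_left (h₂ t) hp.le
    have h5 := h₁ t
    rw [hηdef, hB]
    linarith
  have := key ((|B| + 1) / η) (by positivity)
  rw [mul_div_cancel₀ _ hη.ne'] at this
  linarith [le_abs_self B]

theorem Sys.phi_mul_le (hK : Ker σ k C N K) (hσ : σ ≠ 0) (hS : Sys σ K k p q A₁ e₁ A₂ e₂ U V)
    (hsub : 0 < e₂ / (q + 1) + e₁ / (p + 1)) :
    ∃ D γ : ℝ, 0 < D ∧ 0 < γ ∧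
      ∀ T, Phi σ k (src A₁ e₁ p V) T * Phi σ k (src A₂ e₂ q U) T ≤ wt D (-γ) T := by
  have hpq : 0 < p * q - 1 := sub_pos.2 (hS.one_lt_mul hK hσ)
  obtain ⟨L₂, h₂⟩ := hS.phi_lower hK hσ
  obtain ⟨L₁, h₁⟩ := hS.symm.phi_lower hK hσ
  have hp := hS.p_pos
  have hq := hS.q_pos
  have hγ : 0 < e₂ * (p + 1) + (q + 1) * e₁ := by
    rwa [div_add_div _ _ (by positivity) (by positivity),
      div_pos_iff_of_pos_right (by positivity)] at hsub
  refine ⟨Real.exp (-(L₂ * (p + 1) + (q + 1) * L₁) / (p * q - 1)),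
    (e₂ * (p + 1) + (q + 1) * e₁) / (p * q - 1), Real.exp_pos _, by positivity, fun T => ?_⟩
  have hφ₁ := hS.phi_pos hK hσ T
  have hφ₂ := hS.symm.phi_pos hK hσ T
  rw [← ENNReal.ofReal_toReal (hS.phi_ne_top hK hσ T),
    ← ENNReal.ofReal_toReal (hS.symm.phi_ne_top hK hσ T), ← ENNReal.ofReal_mul hφ₁.le]
  refine ENNReal.ofReal_le_ofReal ?_
  rw [← Real.exp_add, ← Real.log_le_iff_le_exp (by positivity), Real.log_mul hφ₁.ne' hφ₂.ne',
    ← neg_div, div_mul_eq_mul_div, ← add_div, le_div_iff₀ hpq]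
  have h3 := mul_le_mul_of_nonneg_left (h₂ T) (show 0 ≤ p + 1 by positivity)
  have h4 := mul_le_mul_of_nonneg_left (h₁ T) (show 0 ≤ q + 1 by positivity)
  linarith

theorem ph_emb_sh (T : ℝ) : MeasurableEmbedding (sh T : ℝ × S → ℝ × S) :=
  ((MeasurableEquiv.addRight T).prodCongr (MeasurableEquiv.refl S)).measurableEmbedding

theorem ph_wt_shift (A e T t : ℝ) : wt (A * Real.exp (e * T)) e t = wt A e (t + T) := by
  rw [wt, wt, mul_add, Real.exp_add]
  congr 1; ring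

omit [MeasurableSpace S] in
theorem ph_src_shift (A e p T : ℝ) (V : ℝ × S → ℝ≥0∞) (y : ℝ × S) :
    src (A * Real.exp (e * T)) e p (fun x => V (sh T x)) y = src A e p V (sh T y) := by
  rw [src, src, ph_wt_shift]; rfl

theorem ph_eq_shift {A e : ℝ} (T : ℝ)
    (h : ∀ x, U x = ∫⁻ y, K (x.1 - y.1) x.2 y.2 * src A e p V y ∂vol σ) (x : ℝ × S) :
    U (sh T x) = ∫⁻ y, K (x.1 - y.1) x.2 y.2 *
      src (A * Real.exp (e * T)) e p (fun x => V (sh T x)) y ∂vol σ := by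
  rw [h, ← (measurePreserving_sh T).lintegral_comp_emb (ph_emb_sh T)]
  refine lintegral_congr fun y => ?_
  rw [ph_src_shift]
  simp only [sh, add_sub_add_right_eq_sub]

theorem Sys.shift (hS : Sys σ K k p q A₁ e₁ A₂ e₂ U V) (T : ℝ) :
    Sys σ K k p q (A₁ * Real.exp (e₁ * T)) e₁ (A₂ * Real.exp (e₂ * T)) e₂
      (fun x => U (sh T x)) (fun x => V (sh T x)) where
  p_pos := hS.p_pos
  q_pos := hS.q_pos
  A₁_pos := mul_pos hS.A₁_pos (Real.exp_pos _)
  A₂_pos := mul_pos hS.A₂_pos (Real.exp_pos _)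
  e₁_gt := hS.e₁_gt
  e₂_gt := hS.e₂_gt
  measU := hS.measU.comp (measurable_sh T)
  measV := hS.measV.comp (measurable_sh T)
  contU a := (hS.contU a).comp (continuous_id.add continuous_const)
  contV a := (hS.contV a).comp (continuous_id.add continuous_const)
  eqU := ph_eq_shift T hS.eqU
  eqV := ph_eq_shift T hS.eqV
  bdd T' := by
    obtain ⟨D, hD, h⟩ := hS.bdd (T' + T)
    refine ⟨D * Real.exp (k * T), by positivity, fun x hx => ?_⟩
    rw [ph_wt_shift]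
    exact h (sh T x) (add_le_add hx le_rfl)
  posU x := hS.posU _
  posV x := hS.posV _

theorem blowup {M : ℝ → ℝ} (hM : Monotone M) (hM0 : 0 < M 0) {c D N γ : ℝ} (hc : 0 < c)
    (hD : 0 < D) (hN : 0 < N) (hγ : 0 < γ)
    (h : ∀ T τ : ℝ, 0 < τ → τ ≤ 1 →
      c * M T ≤ D * (M T - M (T - τ)) + D * τ ^ (-N) * Real.exp (-γ * T)) : False := by
  obtain ⟨c', hc', hcc, hcD⟩ : ∃ c', 0 < c' ∧ c' ≤ c ∧ c' ≤ D :=
    ⟨min c D, lt_min hc hD, min_le_left _ _, min_le_right _ _⟩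
  obtain ⟨ρ, hρ0, hρ1, hρ⟩ : ∃ ρ : ℝ, 0 < ρ ∧ ρ < 1 ∧ D * ρ = D - c' / 2 := by
    refine ⟨(D - c' / 2) / D, div_pos (by linarith) hD, (div_lt_one hD).2 (by linarith),
      mul_div_cancel₀ _ hD.ne'⟩
  obtain ⟨θ, hθ0, hθ1, hθ⟩ : ∃ θ : ℝ, 0 < θ ∧ θ < 1 ∧ θ ^ N = ρ :=
    ⟨ρ ^ N⁻¹, by positivity, Real.rpow_lt_one hρ0.le hρ1 (inv_pos.2 hN),
      Real.rpow_inv_rpow hρ0.le hN.ne'⟩
  obtain ⟨T₀, hT₀, hT⟩ : ∃ T₀ : ℝ, 0 ≤ T₀ ∧ D * Real.exp (-γ * T₀) ≤ c' / 2 * M 0 := by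
    have h1 : Tendsto (fun T : ℝ => D * Real.exp (-γ * T)) atTop (𝓝 (D * 0)) :=
      (Real.tendsto_exp_atBot.comp (tendsto_id.const_mul_atTop_of_neg (by linarith))).const_mul D
    rw [mul_zero] at h1
    obtain ⟨T₀, h2, h3⟩ := ((eventually_ge_atTop 0).and
      (h1.eventually_le_const (show 0 < c' / 2 * M 0 by positivity))).exists
    exact ⟨T₀, h2, h3⟩
  let s : ℕ → ℝ := fun j => T₀ + ∑ i ∈ Finset.range j, θ ^ i
  have hs0 : ∀ j, T₀ ≤ s j := fun j =>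
    le_add_of_nonneg_right (Finset.sum_nonneg fun i _ => by positivity)
  have hs1 : ∀ j, s j ≤ T₀ + (1 - θ)⁻¹ := fun j => add_le_add le_rfl
    (sum_le_hasSum _ (fun i _ => by positivity) (hasSum_geometric_of_lt_one hθ0.le hθ1))
  have key : ∀ j, M 0 ≤ ρ ^ j * M (s j) := by
    intro j
    induction j with
    | zero => simpa [s] using hM hT₀
    | succ j ih =>
      have hj : 0 < ρ ^ j := by positivity
      have e1 : s (j + 1) - θ ^ j = s j := by simp only [s, Finset.sum_range_succ]; ring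
      have e2 : (θ ^ j) ^ (-N) = (ρ ^ j)⁻¹ := by
        rw [Real.rpow_neg (by positivity), ← Real.rpow_pow_comm hθ0.le, hθ]
      have h1 := h (s (j + 1)) (θ ^ j) (by positivity) (pow_le_one₀ hθ0.le hθ1.le)
      rw [e1, e2] at h1
      have h2 : M (s j) ≤ M (s (j + 1)) := hM (by rw [← e1]; exact sub_le_self _ (by positivity))
      have h3 : 0 ≤ M (s (j + 1)) := hM0.le.trans (hM (hT₀.trans (hs0 _)))
      have h4 : D * Real.exp (-γ * s (j + 1)) ≤ c' / 2 * (ρ ^ j * M (s (j + 1))) := by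
        refine le_trans (mul_le_mul_of_nonneg_left (Real.exp_le_exp.2 ?_) hD.le) (hT.trans
          (mul_le_mul_of_nonneg_left (ih.trans (mul_le_mul_of_nonneg_left h2 hj.le))
            (by positivity)))
        nlinarith [hs0 (j + 1)]
      have h5 : D * (ρ ^ j)⁻¹ * Real.exp (-γ * s (j + 1)) ≤ c' / 2 * M (s (j + 1)) := by
        rw [mul_right_comm, ← div_eq_mul_inv, div_le_iff₀ hj]
        linarith
      have h6 := mul_le_mul_of_nonneg_right hcc h3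
      have h7 : D * M (s j) ≤ D * (ρ * M (s (j + 1))) := by
        rw [← mul_assoc, hρ]; linarith
      refine ih.trans ?_
      rw [pow_succ, mul_assoc]
      exact mul_le_mul_of_nonneg_left (le_of_mul_le_mul_left h7 hD) hj.le
  have hlim : Tendsto (fun j : ℕ => ρ ^ j * M (T₀ + (1 - θ)⁻¹)) atTop
      (𝓝 (0 * M (T₀ + (1 - θ)⁻¹))) :=
    (tendsto_pow_atTop_nhds_zero_of_lt_one hρ0.le hρ1).mul_const _
  rw [zero_mul] at hlim
  exact absurd (ge_of_tendsto' hlim fun j => (key j).trans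
    (mul_le_mul_of_nonneg_left (hM (hs1 j)) (by positivity))) (not_le.2 hM0)

end Crest.Agent.R77
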