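import Crest.Agent.R77.Minimal
import Crest.Agent.R77.Force
import Crest.Agent.R77.HatEnergy
import Crest.Agent.R77.Phi

/-! Row 77: the integral system has no solution. -/

set_option autoImplicit false
set_option linter.unusedSectionVars false
open MeasureTheory Set Filter Topology
open scoped ENNReal

namespace Crest.Agent.R77

variable {S : Type} [MeasurableSpace S] {σ : Measure S} [IsFiniteMeasure σ]
  {K : ℝ → S → S → ℝ≥0∞} {k C N p q A₁ e₁ A₂ e₂ : ℝ} {U V a b : ℝ × S → ℝ≥0∞}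

theorem fin_en_mono {A e : ℝ} {I J : Set ℝ} (h : I ⊆ J) : en σ A e q U I ≤ en σ A e q U J :=
  lintegral_mono_set fun _ hx => h hx

theorem fin_arith {μ ν x y P α β : ℝ≥0∞} {c₁ c₂ Λ₁ Λ₂ ε F G c D D' : ℝ} (hμ : μ ≠ ⊤) (hν : ν ≠ ⊤)
    (hx : x ≠ ⊤) (hy : y ≠ ⊤) (hP : P ≠ ⊤) (hΛ₁ : 0 ≤ Λ₁) (hΛ₂ : 0 ≤ Λ₂) (hε : 0 ≤ ε)
    (hF : 0 ≤ F) (hG : 0 ≤ G) (hc : 0 ≤ c)
    (h1 : α + β ≤ (x + y) + ENNReal.ofReal ε * (μ + ν) + ENNReal.ofReal F * P)
    (h2 : μ ≤ ν + x + ENNReal.ofReal G * P) (h3 : ν ≤ μ + y + ENNReal.ofReal G * P)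
    (h4 : c₁ * μ.toReal + c₂ * ν.toReal ≤ Λ₁ * α.toReal + Λ₂ * β.toReal)
    (h5 : c + (Λ₁ + Λ₂) * ε ≤ (c₁ + c₂) / 2) (h6 : Λ₁ + Λ₂ + |c₁ - c₂| / 2 ≤ D)
    (h7 : (Λ₁ + Λ₂) * F + |c₁ - c₂| / 2 * G ≤ D') :
    ENNReal.ofReal c * (μ + ν) ≤ ENNReal.ofReal D * (x + y) + ENNReal.ofReal D' * P := by
  have hw : 0 ≤ |c₁ - c₂| / 2 := by positivity
  have hD : 0 ≤ D := le_trans (by positivity) h6
  have hD' : 0 ≤ D' := le_trans (by positivity) h7
  have hαβ : α + β ≠ ⊤ := ne_top_of_le_ne_top (by finiteness) h1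
  obtain ⟨hα, hβ⟩ := ENNReal.add_ne_top.1 hαβ
  have g1 := ENNReal.toReal_mono (by finiteness) h1
  have g2 := ENNReal.toReal_mono (by finiteness) h2
  have g3 := ENNReal.toReal_mono (by finiteness) h3
  rw [← ENNReal.toReal_le_toReal (by finiteness) (by finiteness)]
  simp (disch := first | assumption | finiteness) only [ENNReal.toReal_add, ENNReal.toReal_mul,
    ENNReal.toReal_ofReal] at g1 g2 g3 ⊢
  have p1 := ENNReal.toReal_nonneg (a := μ)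
  have p2 := ENNReal.toReal_nonneg (a := ν)
  have p3 := ENNReal.toReal_nonneg (a := x)
  have p4 := ENNReal.toReal_nonneg (a := y)
  have p5 := ENNReal.toReal_nonneg (a := P)
  have p6 := ENNReal.toReal_nonneg (a := α)
  have p7 := ENNReal.toReal_nonneg (a := β)
  generalize μ.toReal = m at *
  generalize ν.toReal = n at *
  generalize x.toReal = u at *
  generalize y.toReal = v at *
  generalize P.toReal = r at *
  generalize α.toReal = s at *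
  generalize β.toReal = t at *
  have k1 : |m - n| ≤ u + v + G * r := by rw [abs_le]; constructor <;> linarith
  have k2 : -(|c₁ - c₂| / 2 * (u + v + G * r)) ≤ (c₁ - c₂) / 2 * (m - n) := by
    have e : |(c₁ - c₂) / 2 * (m - n)| = |c₁ - c₂| / 2 * |m - n| := by
      rw [abs_mul, abs_div, abs_two]
    have := neg_abs_le ((c₁ - c₂) / 2 * (m - n))
    have := mul_le_mul_of_nonneg_left k1 hw
    linarith
  have k3 := mul_le_mul_of_nonneg_left g1 (add_nonneg hΛ₁ hΛ₂)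
  have k4 := mul_le_mul_of_nonneg_right h5 (add_nonneg p1 p2)
  have k5 := mul_le_mul_of_nonneg_right h6 (add_nonneg p3 p4)
  have k6 := mul_le_mul_of_nonneg_right h7 p5
  have k7 := mul_nonneg hΛ₁ p7
  have k8 := mul_nonneg hΛ₂ p6
  linarith

theorem cut (hK : Ker σ k C N K) (hp : 0 < p) (hq : 0 < q) (hpq : 1 < p * q)
    (hsub : 0 < e₂ / (q + 1) + e₁ / (p + 1)) :
    ∃ c D : ℝ, 0 < c ∧ 0 < D ∧ ∀ (A₁ A₂ : ℝ) (U V : ℝ × S → ℝ≥0∞),
      Sys σ K k p q A₁ e₁ A₂ e₂ U V → ∀ τ : ℝ, 0 < τ → τ ≤ 1 →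
      ENNReal.ofReal c * (en σ A₂ e₂ q U (Iio 0) + en σ A₁ e₁ p V (Iio 0)) ≤
        ENNReal.ofReal D * (en σ A₂ e₂ q U (Ico (-τ) 0) + en σ A₁ e₁ p V (Ico (-τ) 0)) +
        ENNReal.ofReal (D * τ ^ (-N)) *
          (Phi σ k (src A₁ e₁ p V) 0 * Phi σ k (src A₂ e₂ q U) 0) := by
  obtain ⟨D₀, hD₀, hhat⟩ := hat_energy hK hp hq hpq e₁ e₂
  have hk := hK.k_pos
  have hC := hK.C_pos
  have hΛ₁ : 0 < (|e₂| + k) / (q + 1) := by positivity
  have hΛ₂ : 0 < (|e₁| + k) / (p + 1) := by positivity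
  set Λ₁ := (|e₂| + k) / (q + 1) with hΛ₁def
  set Λ₂ := (|e₁| + k) / (p + 1) with hΛ₂def
  set c₁ := e₂ / (q + 1) with hc₁def
  set c₂ := e₁ / (p + 1) with hc₂def
  obtain ⟨δ, hδ0, hδ1, hδ⟩ : ∃ δ : ℝ, 0 < δ ∧ δ ≤ 1 ∧ (Λ₁ + Λ₂) * (D₀ * δ ^ 2) ≤ (c₁ + c₂) / 4 := by
    refine ⟨min 1 ((c₁ + c₂) / 4 / ((Λ₁ + Λ₂) * D₀)), by positivity, min_le_left _ _, ?_⟩
    have h0 : 0 < min 1 ((c₁ + c₂) / 4 / ((Λ₁ + Λ₂) * D₀)) := by positivity
    have h1 : min 1 ((c₁ + c₂) / 4 / ((Λ₁ + Λ₂) * D₀)) ^ 2 ≤ (c₁ + c₂) / 4 / ((Λ₁ + Λ₂) * D₀) := by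
      rw [sq]
      exact (mul_le_of_le_one_left h0.le (min_le_left _ _)).trans (min_le_right _ _)
    rw [le_div_iff₀ (by positivity)] at h1
    linarith
  have hw : 0 ≤ |c₁ - c₂| / 2 := by positivity
  have hX : 0 ≤ (Λ₁ + Λ₂) * (D₀ * δ ^ (-N)) + |c₁ - c₂| / 2 * C := by positivity
  refine ⟨(c₁ + c₂) / 4, (Λ₁ + Λ₂ + |c₁ - c₂| / 2) +
    ((Λ₁ + Λ₂) * (D₀ * δ ^ (-N)) + |c₁ - c₂| / 2 * C), by positivity, by positivity,
    fun A₁ A₂ U V hS τ hτ hτ1 => ?_⟩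
  have hτN : 0 < τ ^ (-N) := by positivity
  by_cases hP : Phi σ k (src A₁ e₁ p V) 0 * Phi σ k (src A₂ e₂ q U) 0 = ⊤
  · rw [hP, ENNReal.mul_top (ENNReal.ofReal_pos.2 (by positivity)).ne', add_top]
    exact le_top
  obtain ⟨a, b, hH⟩ := exists_hat hK hS
  have hμ := hS.en_ne_top hk 0
  have hν := hS.symm.en_ne_top hk 0
  have h3 := hS.symm.en_le_en hK hτ hτ1
  rw [mul_comm (Phi σ k (src A₂ e₂ q U) 0)] at h3
  refine fin_arith hμ hν (ne_top_of_le_ne_top hμ (fin_en_mono Ico_subset_Iio_self))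
    (ne_top_of_le_ne_top hν (fin_en_mono Ico_subset_Iio_self)) hP hΛ₁.le hΛ₂.le (by positivity)
    (by positivity) (by positivity) (by positivity) (hhat A₁ A₂ U V a b hS hH δ τ hδ0 hδ1 hτ hτ1)
    (hS.en_le_en hK hτ hτ1) h3 (force hK hS hH) (by linarith) (le_add_of_nonneg_right hX) ?_
  rw [Real.mul_rpow hδ0.le hτ.le]
  have := mul_nonneg (show 0 ≤ Λ₁ + Λ₂ + |c₁ - c₂| / 2 by positivity) hτN.le
  linarith

theorem fin_en_shift {A e : ℝ} (hU : Measurable U) (T : ℝ) {J : Set ℝ} (hJ : MeasurableSet J) :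
    en σ (A * Real.exp (e * T)) e q (fun x => U (sh T x)) ((fun t => t + T) ⁻¹' J) =
      en σ A e q U J := by
  rw [en, en, ← setLIntegral_sh T hJ (F := fun x => src A e q U x * U x) (by fun_prop)]
  simp only [ph_src_shift]

theorem fin_phi_shift {A e : ℝ} (T : ℝ) :
    Phi σ k (src (A * Real.exp (e * T)) e q (fun x => U (sh T x))) 0 = Phi σ k (src A e q U) T := by
  rw [Phi, Phi, ← (measurePreserving_sh T).lintegral_comp_emb (ph_emb_sh T)
    (fun y => wt 1 (-k) |T - y.1| * src A e q U y)]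
  refine lintegral_congr fun y => ?_
  rw [ph_src_shift]
  simp [sh]

theorem fin_en_split {A e : ℝ} {s T : ℝ} (h : s ≤ T) :
    en σ A e q U (Iio T) = en σ A e q U (Iio s) + en σ A e q U (Ico s T) := by
  have hd : Disjoint (st S (Iio s)) (st S (Ico s T)) :=
    ((Iio_disjoint_Ici le_rfl).mono_right Ico_subset_Ici_self).preimage _
  have hu : st S (Iio T) = st S (Iio s) ∪ st S (Ico s T) := by
    rw [← Iio_union_Ico_eq_Iio h]; rfl
  rw [en, en, en, ← lintegral_union (measurableSet_st measurableSet_Ico) hd, hu]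

theorem Sys.false (hK : Ker σ k C N K) (hσ : σ ≠ 0) (hS : Sys σ K k p q A₁ e₁ A₂ e₂ U V)
    (hsub : 0 < e₂ / (q + 1) + e₁ / (p + 1)) : False := by
  have hk := hK.k_pos
  obtain ⟨c, D, hc, hD, hcut⟩ := cut hK hS.p_pos hS.q_pos (hS.one_lt_mul hK hσ) hsub
  obtain ⟨D', γ, hD', hγ, hphi⟩ := hS.phi_mul_le hK hσ hsub
  have hU := hS.measU
  have hV := hS.measV
  have hfin : ∀ T, en σ A₂ e₂ q U (Iio T) + en σ A₁ e₁ p V (Iio T) ≠ ⊤ := fun T =>
    ENNReal.add_ne_top.2 ⟨hS.en_ne_top hk T, hS.symm.en_ne_top hk T⟩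
  let M : ℝ → ℝ := fun T => (en σ A₂ e₂ q U (Iio T) + en σ A₁ e₁ p V (Iio T)).toReal
  have hM : Monotone M := fun s t hst => ENNReal.toReal_mono (hfin t)
    (add_le_add (fin_en_mono (Iio_subset_Iio hst)) (fin_en_mono (Iio_subset_Iio hst)))
  have hM0 : 0 < M 0 := by
    refine ENNReal.toReal_pos (fun h => ?_) (hfin 0)
    exact ph_lintegral_ne_zero hσ (F := fun x => src A₂ e₂ q U x * U x) (by fun_prop)
      (fun x => mul_ne_zero (ph_src_ne_zero hS.A₂_pos hS.q_pos _ (hS.posU x)) (hS.posU x))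
      (I := Iio 0) (by simp) (add_eq_zero.1 h).1
  refine blowup hM hM0 hc (D := D + D * D') (by positivity) hK.N_pos hγ fun T τ hτ hτ1 => ?_
  have h1 := hcut _ _ _ _ (hS.shift T) τ hτ hτ1
  have e1 : Iio (0 : ℝ) = (fun t => t + T) ⁻¹' Iio T := by ext t; simp
  have e2 : Ico (-τ) (0 : ℝ) = (fun t => t + T) ⁻¹' Ico (T - τ) T := by
    ext t
    simp only [mem_Ico, mem_preimage]
    constructor <;> rintro ⟨h2, h3⟩ <;> constructor <;> linarith
  rw [e2, e1, fin_en_shift hU T measurableSet_Iio, fin_en_shift hV T measurableSet_Iio,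
    fin_en_shift hU T measurableSet_Ico, fin_en_shift hV T measurableSet_Ico, fin_phi_shift,
    fin_phi_shift] at h1
  have hxy : en σ A₂ e₂ q U (Ico (T - τ) T) + en σ A₁ e₁ p V (Ico (T - τ) T) ≠ ⊤ :=
    ne_top_of_le_ne_top (hfin T)
      (add_le_add (fin_en_mono Ico_subset_Iio_self) (fin_en_mono Ico_subset_Iio_self))
  have hsplit : M T = M (T - τ) +
      (en σ A₂ e₂ q U (Ico (T - τ) T) + en σ A₁ e₁ p V (Ico (T - τ) T)).toReal := by
    simp only [M]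
    rw [← ENNReal.toReal_add (hfin _) hxy, fin_en_split (U := U) (sub_le_self T hτ.le),
      fin_en_split (U := V) (sub_le_self T hτ.le), add_add_add_comm]
  have hτN : 0 < τ ^ (-N) := by positivity
  have h2 := ENNReal.toReal_mono (ENNReal.add_ne_top.2 ⟨ENNReal.mul_ne_top ENNReal.ofReal_ne_top hxy,
    ENNReal.mul_ne_top ENNReal.ofReal_ne_top (wt_ne_top _ _ _)⟩)
    (h1.trans (add_le_add le_rfl (mul_le_mul_right (hphi T) _)))
  rw [ENNReal.toReal_add (ENNReal.mul_ne_top ENNReal.ofReal_ne_top hxy)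
    (ENNReal.mul_ne_top ENNReal.ofReal_ne_top (wt_ne_top _ _ _)), ENNReal.toReal_mul,
    ENNReal.toReal_mul, ENNReal.toReal_mul, ENNReal.toReal_ofReal hc.le, ENNReal.toReal_ofReal hD.le,
    ENNReal.toReal_ofReal (by positivity), ph_toReal_wt hD'.le] at h2
  have h3 : 0 ≤ D * D' *
      (en σ A₂ e₂ q U (Ico (T - τ) T) + en σ A₁ e₁ p V (Ico (T - τ) T)).toReal := by positivity
  have h4 : 0 ≤ D * τ ^ (-N) * Real.exp (-γ * T) := by positivity
  rw [show M T - M (T - τ) = _ from sub_eq_iff_eq_add'.2 hsplit]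
  change c * M T ≤ _ at h2
  linarith

end Crest.Agent.R77
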