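import Crest.Agent.R77.Basic

/-! Row 77: force balance for a half-cylinder solution under a finite shift. -/

set_option autoImplicit false
open MeasureTheory Set Filter Topology
open scoped ENNReal

namespace Crest.Agent.R77.ForceAux

variable {S : Type} [MeasurableSpace S] {σ : Measure S} [IsFiniteMeasure σ]
  {K : ℝ → S → S → ℝ≥0∞} {k C N p q A₁ l₁ A₂ l₂ : ℝ} {a b F G : ℝ × S → ℝ≥0∞}

theorem conv_left {φ : ℝ → ℝ≥0∞} (hφ : Measurable φ) {L : ℝ × S × S → ℝ≥0∞}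
    (hL : Measurable L) :
    ∫⁻ x, ∫⁻ y, φ x.1 * L (x.1 - y.1, x.2, y.2) ∂vol σ ∂vol σ =
      (∫⁻ t, φ t) * ∫⁻ z, L z ∂((volume : Measure ℝ).prod (σ.prod σ)) := by
  have h1 : ∀ x : ℝ × S, ∫⁻ y, φ x.1 * L (x.1 - y.1, x.2, y.2) ∂vol σ =
      φ x.1 * ∫⁻ τ, ∫⁻ c, L (τ, x.2, c) ∂σ := by
    intro x
    rw [lintegral_const_mul _ (by fun_prop), vol, lintegral_prod _ (by fun_prop)]
    congr 1
    exact lintegral_sub_left_eq_self (fun τ => ∫⁻ c, L (τ, x.2, c) ∂σ) x.1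
  simp only [h1]
  have hm : Measurable fun c : S => ∫⁻ τ, ∫⁻ d, L (τ, c, d) ∂σ := by
    refine Measurable.lintegral_prod_right' (f := fun z : S × ℝ => ∫⁻ d, L (z.2, z.1, d) ∂σ) ?_
    exact Measurable.lintegral_prod_right'
      (f := fun z : (S × ℝ) × S => L (z.1.2, z.1.1, z.2)) (by fun_prop)
  rw [vol, lintegral_prod_mul hφ.aemeasurable hm.aemeasurable]
  congr 1
  rw [lintegral_prod _ hL.aemeasurable, lintegral_lintegral_swap]
  · refine lintegral_congr fun τ => ?_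
    rw [lintegral_prod _ (by fun_prop)]
  · exact (Measurable.lintegral_prod_right'
      (f := fun z : (S × ℝ) × S => L (z.1.2, z.1.1, z.2)) (by fun_prop)).aemeasurable

theorem conv_right {φ : ℝ → ℝ≥0∞} (hφ : Measurable φ) {L : ℝ × S × S → ℝ≥0∞}
    (hL : Measurable L) :
    ∫⁻ x, ∫⁻ y, φ y.1 * L (x.1 - y.1, x.2, y.2) ∂vol σ ∂vol σ =
      (∫⁻ t, φ t) * ∫⁻ z, L z ∂((volume : Measure ℝ).prod (σ.prod σ)) := by
  rw [lintegral_lintegral_swap (by fun_prop)]
  have := conv_left (σ := σ) hφ (L := fun z => L (-z.1, z.2.2, z.2.1)) (by fun_prop)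
  simp only [neg_sub] at this
  rw [this]
  congr 1
  have hmp : MeasurePreserving (fun z : ℝ × S × S => (-z.1, z.2.2, z.2.1))
      ((volume : Measure ℝ).prod (σ.prod σ)) ((volume : Measure ℝ).prod (σ.prod σ)) :=
    (Measure.measurePreserving_neg (volume : Measure ℝ)).prod Measure.measurePreserving_swap
  exact hmp.lintegral_comp hL

theorem young (hq : 0 < q) (x y : ℝ≥0∞) :
    x ^ q * y ≤ (ENNReal.ofReal (q + 1))⁻¹ * (y ^ q * y) +
      ENNReal.ofReal q * (ENNReal.ofReal (q + 1))⁻¹ * (x ^ q * x) := by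
  have hc : Real.HolderConjugate ((q + 1) / q) (q + 1) := by
    rw [Real.holderConjugate_iff]
    refine ⟨by rw [lt_div_iff₀ hq]; linarith, ?_⟩
    field_simp
  have h := ENNReal.young_inequality (x ^ q) y hc
  have e1 : ∀ z : ℝ≥0∞, z ^ (q + 1) = z ^ q * z := fun z => by
    rw [ENNReal.rpow_add_of_nonneg _ _ hq.le zero_le_one, ENNReal.rpow_one]
  rw [← ENNReal.rpow_mul, mul_div_cancel₀ _ hq.ne', e1, e1] at h
  refine h.trans (le_of_eq ?_)
  rw [add_comm, ENNReal.div_eq_inv_mul, ENNReal.div_eq_inv_mul, ENNReal.ofReal_div_of_pos hq,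
    ENNReal.inv_div (Or.inl ENNReal.ofReal_ne_top) (Or.inl (by simpa using hq)), div_eq_mul_inv]

theorem coef_add (hq : 0 < q) :
    (ENNReal.ofReal (q + 1))⁻¹ + ENNReal.ofReal q * (ENNReal.ofReal (q + 1))⁻¹ = 1 := by
  rw [← one_add_mul, ← ENNReal.ofReal_one, ← ENNReal.ofReal_add zero_le_one hq.le, add_comm,
    ENNReal.mul_inv_cancel (by simp; linarith) ENNReal.ofReal_ne_top, ENNReal.ofReal_one]

theorem young_shift (hq : 0 < q) (ha : Measurable a) (η r : ℝ) :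
    ∫⁻ x in st S (Ioi r), src A₂ l₂ q a x * a (sh η x) ∂vol σ ≤
      (ENNReal.ofReal (q + 1))⁻¹ * (wt 1 (-l₂) η * en σ A₂ l₂ q a (Ioi (r + η))) +
        ENNReal.ofReal q * (ENNReal.ofReal (q + 1))⁻¹ * en σ A₂ l₂ q a (Ioi r) := by
  have h1 : en σ A₂ l₂ q a (Ioi (r + η)) =
      ∫⁻ x in st S (Ioi r), src A₂ l₂ q a (sh η x) * a (sh η x) ∂vol σ := by
    rw [en, ← setLIntegral_sh η measurableSet_Ioi (by fun_prop)]
    congr 3
    ext t; simp
  rw [h1, en, ← lintegral_const_mul _ (by fun_prop), ← lintegral_const_mul _ (by fun_prop),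
    ← lintegral_const_mul _ (by fun_prop), ← lintegral_add_left (by fun_prop)]
  refine lintegral_mono fun x => ?_
  have hw : wt 1 (-l₂) η * wt A₂ l₂ (x.1 + η) = wt A₂ l₂ x.1 := by
    rw [wt_mul zero_le_one, one_mul]; exact wt_congr (by ring)
  have := mul_le_mul_right (young hq (a x) (a (sh η x))) (wt A₂ l₂ x.1)
  simp only [src, sh] at this ⊢
  rw [← hw] at this ⊢
  refine le_trans (le_of_eq (by ring)) (this.trans (le_of_eq ?_))
  ring

/-- A solution on the half cylinder with external sources `F`, `G` placed at the mirror points. -/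
structure Half (σ : Measure S) (K : ℝ → S → S → ℝ≥0∞) (p q A₁ l₁ A₂ l₂ : ℝ)
    (a b F G : ℝ × S → ℝ≥0∞) : Prop where
  p_pos : 0 < p
  q_pos : 0 < q
  A₁_nonneg : 0 ≤ A₁
  A₂_nonneg : 0 ≤ A₂
  measa : Measurable a
  measb : Measurable b
  measF : Measurable F
  measG : Measurable G
  eqa : ∀ x, 0 < x.1 → a x =
    (∫⁻ y in st S (Ioi 0), K (x.1 - y.1) x.2 y.2 * src A₁ l₁ p b y ∂vol σ) +
      ∫⁻ y in st S (Ioi 0), K (x.1 + y.1) x.2 y.2 * F y ∂vol σ
  eqb : ∀ x, 0 < x.1 → b x =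
    (∫⁻ y in st S (Ioi 0), K (x.1 - y.1) x.2 y.2 * src A₂ l₂ q a y ∂vol σ) +
      ∫⁻ y in st S (Ioi 0), K (x.1 + y.1) x.2 y.2 * G y ∂vol σ
  bdd : ∃ D β : ℝ, 0 < D ∧ 0 < β ∧ ∀ x, 0 < x.1 →
    src A₁ l₁ p b x ≤ wt D (-β) x.1 ∧ src A₂ l₂ q a x ≤ wt D (-β) x.1
  fina : en σ A₂ l₂ q a (Ioi 0) ≠ ⊤
  finb : en σ A₁ l₁ p b (Ioi 0) ≠ ⊤

omit [IsFiniteMeasure σ] in
theorem Half.symm (h : Half σ K p q A₁ l₁ A₂ l₂ a b F G) : Half σ K q p A₂ l₂ A₁ l₁ b a G F :=
  ⟨h.q_pos, h.p_pos, h.A₂_nonneg, h.A₁_nonneg, h.measb, h.measa, h.measG, h.measF, h.eqb, h.eqa,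
    by obtain ⟨D, β, h1, h2, h3⟩ := h.bdd; exact ⟨D, β, h1, h2, fun x hx => (h3 x hx).symm⟩,
    h.finb, h.fina⟩

/-- Self interaction of the part `t > r`, shifted by `η`. -/
noncomputable def selfI (σ : Measure S) (K : ℝ → S → S → ℝ≥0∞) (g f : ℝ × S → ℝ≥0∞) (r η : ℝ) :
    ℝ≥0∞ :=
  ∫⁻ x in st S (Ioi r), ∫⁻ y in st S (Ioi 0), g x * (K (x.1 + η - y.1) x.2 y.2 * f y) ∂vol σ ∂vol σ

/-- Interaction with the mirror sources of the part `t > r`, shifted by `η`. -/
noncomputable def crossI (σ : Measure S) (K : ℝ → S → S → ℝ≥0∞) (g F : ℝ × S → ℝ≥0∞) (r η : ℝ) :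
    ℝ≥0∞ :=
  ∫⁻ x in st S (Ioi r), ∫⁻ y in st S (Ioi 0), g x * (K (x.1 + η + y.1) x.2 y.2 * F y) ∂vol σ ∂vol σ

theorem Half.expand (hK : Ker σ k C N K) (h : Half σ K p q A₁ l₁ A₂ l₂ a b F G) {r η : ℝ}
    (hr : 0 ≤ r + η) :
    ∫⁻ x in st S (Ioi r), src A₂ l₂ q a x * a (sh η x) ∂vol σ =
      selfI σ K (src A₂ l₂ q a) (src A₁ l₁ p b) r η + crossI σ K (src A₂ l₂ q a) F r η := by
  have ha := h.measa
  have hb := h.measb
  have hF := h.measF
  rw [selfI, crossI, ← lintegral_add_left]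
  · refine setLIntegral_congr_fun (measurableSet_st measurableSet_Ioi) fun x hx => ?_
    have hx' : 0 < (sh η x).1 := by
      simp only [mem_st, mem_Ioi] at hx
      simp only [sh]; linarith
    rw [h.eqa _ hx', mul_add, lintegral_const_mul, lintegral_const_mul]
    · rfl
    · exact (hK.measurable (by fun_prop) (by fun_prop) (by fun_prop)).mul hF
    · exact (hK.measurable (by fun_prop) (by fun_prop) (by fun_prop)).mul (by fun_prop)
  · refine Measurable.lintegral_prod_right' (f := fun z : (ℝ × S) × ℝ × S =>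
      src A₂ l₂ q a z.1 * (K (z.1.1 + η - z.2.1) z.1.2 z.2.2 * src A₁ l₁ p b z.2)) ?_
    exact (by fun_prop : Measurable fun z : (ℝ × S) × ℝ × S => src A₂ l₂ q a z.1).mul
      ((hK.measurable (by fun_prop) (by fun_prop) (by fun_prop)).mul (by fun_prop))

omit [IsFiniteMeasure σ] in
theorem en_mono {A e : ℝ} {I J : Set ℝ} (h : I ⊆ J) : en σ A e q a I ≤ en σ A e q a J :=
  lintegral_mono_set fun _ hx => h hx

theorem Half.one_sided (hK : Ker σ k C N K) (h : Half σ K p q A₁ l₁ A₂ l₂ a b F G) {r η : ℝ}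
    (hr0 : 0 ≤ r) (hr : 0 ≤ r + η) :
    (ENNReal.ofReal (q + 1))⁻¹ * en σ A₂ l₂ q a (Ioi r) +
        (selfI σ K (src A₂ l₂ q a) (src A₁ l₁ p b) r η + crossI σ K (src A₂ l₂ q a) F r η) ≤
      (ENNReal.ofReal (q + 1))⁻¹ * (wt 1 (-l₂) η * en σ A₂ l₂ q a (Ioi (r + η))) +
        (selfI σ K (src A₂ l₂ q a) (src A₁ l₁ p b) r 0 + crossI σ K (src A₂ l₂ q a) F r 0) := by
  rw [← h.expand hK hr, ← h.expand hK (by simpa using hr0)]
  have e0 : ∫⁻ x in st S (Ioi r), src A₂ l₂ q a x * a (sh 0 x) ∂vol σ = en σ A₂ l₂ q a (Ioi r) := by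
    simp [en, sh]
  rw [e0]
  refine (add_le_add_right (young_shift h.q_pos h.measa η r) _).trans (le_of_eq ?_)
  rw [add_left_comm, ← add_mul, coef_add h.q_pos, one_mul]

theorem Half.selfI_ne_top (hK : Ker σ k C N K) (h : Half σ K p q A₁ l₁ A₂ l₂ a b F G) {r η : ℝ}
    (hr0 : 0 ≤ r) (hr : 0 ≤ r + η) :
    selfI σ K (src A₂ l₂ q a) (src A₁ l₁ p b) r η + crossI σ K (src A₂ l₂ q a) F r η ≠ ⊤ := by
  rw [← h.expand hK hr]
  refine ne_top_of_le_ne_top ?_ (young_shift h.q_pos h.measa η r)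
  have h1 : (ENNReal.ofReal (q + 1))⁻¹ ≠ ⊤ := by
    simp only [ne_eq, ENNReal.inv_eq_top, ENNReal.ofReal_eq_zero, not_le]; linarith [h.q_pos]
  refine ENNReal.add_ne_top.2 ⟨ENNReal.mul_ne_top h1 (ENNReal.mul_ne_top (wt_ne_top _ _ _) ?_),
    ENNReal.mul_ne_top (ENNReal.mul_ne_top ENNReal.ofReal_ne_top h1) ?_⟩
  · exact ne_top_of_le_ne_top h.fina (en_mono (Ioi_subset_Ioi hr))
  · exact ne_top_of_le_ne_top h.fina (en_mono (Ioi_subset_Ioi hr0))

theorem setLIntegral₂ {I J : Set ℝ} (hI : MeasurableSet I) (hJ : MeasurableSet J)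
    {Φ : (ℝ × S) × ℝ × S → ℝ≥0∞} (hΦ : Measurable Φ) :
    ∫⁻ x in st S I, ∫⁻ y in st S J, Φ (x, y) ∂vol σ ∂vol σ =
      ∫⁻ z, (st S I ×ˢ st S J).indicator Φ z ∂(vol σ).prod (vol σ) := by
  rw [lintegral_indicator ((measurableSet_st hI).prod (measurableSet_st hJ)),
    ← Measure.prod_restrict, lintegral_prod _ hΦ.aemeasurable]

theorem lintegral_wt_Ioi_ne_top (D : ℝ) {β : ℝ} (hβ : 0 < β) :
    ∫⁻ t, (Ioi (0 : ℝ)).indicator (wt D (-β)) t ≠ ⊤ := by
  rw [lintegral_indicator measurableSet_Ioi]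
  have : IntegrableOn (fun t => D * Real.exp (-β * t)) (Ioi 0) :=
    (integrableOn_exp_mul_Ioi (by linarith) 0).const_mul D
  exact this.lintegral_lt_top.ne

theorem self_le (hK : Ker σ k C N K) {f g : ℝ × S → ℝ≥0∞} (hf : Measurable f) (hg : Measurable g)
    {D β : ℝ} (hD : 0 < D) (hβ : 0 < β)
    (hb : ∀ x, 0 < x.1 → f x ≤ wt D (-β) x.1 ∧ g x ≤ wt D (-β) x.1) {r : ℝ} (hr : 0 ≤ r) (η : ℝ) :
    selfI σ K g f r 0 + selfI σ K f g r 0 ≤ selfI σ K g f r η + selfI σ K f g r η +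
      ((∫⁻ t, (Ioi (0 : ℝ)).indicator (wt D (-β)) t) * ENNReal.ofReal D *
        (∫⁻ z : ℝ × S × S, (2 * K z.1 z.2.1 z.2.2 - (K (z.1 + η) z.2.1 z.2.2 +
          K (z.1 - η) z.2.1 z.2.2)) ∂((volume : Measure ℝ).prod (σ.prod σ))) +
        ENNReal.ofReal (2 * (D * D * r * (C * |η|)))) := by
  have mK : ∀ η : ℝ, Measurable fun z : (ℝ × S) × ℝ × S =>
      g z.1 * (K (z.1.1 - z.2.1 + η) z.1.2 z.2.2 * f z.2) := fun η =>
    (hg.comp measurable_fst).mul ((hK.measurable (by fun_prop) (by fun_prop) (by fun_prop)).mul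
      (hf.comp measurable_snd))
  have e1 : ∀ η : ℝ, selfI σ K g f r η = ∫⁻ z, (st S (Ioi r) ×ˢ st S (Ioi 0)).indicator
      (fun z : (ℝ × S) × ℝ × S => g z.1 * (K (z.1.1 - z.2.1 + η) z.1.2 z.2.2 * f z.2)) z
      ∂(vol σ).prod (vol σ) := fun η => by
    rw [← setLIntegral₂ measurableSet_Ioi measurableSet_Ioi (mK η), selfI]
    simp only [add_sub_right_comm]
  have e2 : ∀ η : ℝ, selfI σ K f g r η = ∫⁻ z, (st S (Ioi 0) ×ˢ st S (Ioi r)).indicator
      (fun z : (ℝ × S) × ℝ × S => g z.1 * (K (z.1.1 - z.2.1 + -η) z.1.2 z.2.2 * f z.2)) z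
      ∂(vol σ).prod (vol σ) := fun η => by
    rw [← setLIntegral₂ measurableSet_Ioi measurableSet_Ioi (mK (-η)), selfI,
      lintegral_lintegral_swap]
    · refine lintegral_congr fun x => lintegral_congr fun y => ?_
      rw [hK.symm, ← hK.even, show -(y.1 + η - x.1) = x.1 - y.1 + -η by ring]
      ring
    · exact ((hf.comp measurable_fst).mul
        ((hK.measurable (by fun_prop) (by fun_prop) (by fun_prop)).mul
          (hg.comp measurable_snd))).aemeasurable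
  set L2 : ℝ × S × S → ℝ≥0∞ := fun z => 2 * K z.1 z.2.1 z.2.2 - (K (z.1 + η) z.2.1 z.2.2 +
    K (z.1 - η) z.2.1 z.2.2) with hL2
  set L1 : ℝ → ℝ × S × S → ℝ≥0∞ := fun η z => K z.1 z.2.1 z.2.2 - K (z.1 + η) z.2.1 z.2.2
    with hL1
  have mL2 : Measurable L2 := (hK.meas.const_mul 2).sub
    ((hK.measurable (by fun_prop) (by fun_prop) (by fun_prop)).add
      (hK.measurable (by fun_prop) (by fun_prop) (by fun_prop)))
  have mL1 : ∀ η, Measurable (L1 η) := fun η => hK.meas.sub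
    (hK.measurable (by fun_prop) (by fun_prop) (by fun_prop))
  set φ1 : ℝ → ℝ≥0∞ := fun t => (Ioi (0 : ℝ)).indicator (wt D (-β)) t * ENNReal.ofReal D
  set φ2 : ℝ → ℝ≥0∞ := (Ioc 0 r).indicator fun _ => ENNReal.ofReal (D * D)
  have mφ1 : Measurable φ1 :=
    ((continuous_wt _ _).measurable.indicator measurableSet_Ioi).mul_const _
  have mφ2 : Measurable φ2 := measurable_const.indicator measurableSet_Ioc
  have iφ2 : ∫⁻ t, φ2 t = ENNReal.ofReal (D * D * r) := by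
    rw [lintegral_indicator measurableSet_Ioc, setLIntegral_const, Real.volume_Ioc, sub_zero,
      ← ENNReal.ofReal_mul (by positivity)]
  have b2 : ∀ η' : ℝ, |η'| = |η| → (∫⁻ t, φ2 t) * ∫⁻ z, L1 η' z
      ∂((volume : Measure ℝ).prod (σ.prod σ)) ≤ ENNReal.ofReal (D * D * r * (C * |η|)) := by
    intro η' h'
    rw [iφ2, ENNReal.ofReal_mul (p := D * D * r) (by positivity), ← h']
    exact mul_le_mul_right (hK.first η') _
  have hmeasI : ∀ (I J : Set ℝ), MeasurableSet I → MeasurableSet J →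
      MeasurableSet (st S I ×ˢ st S J) := fun I J hI hJ =>
    (measurableSet_st hI).prod (measurableSet_st hJ)
  calc selfI σ K g f r 0 + selfI σ K f g r 0
      ≤ selfI σ K g f r η + selfI σ K f g r η +
        ((∫⁻ z : (ℝ × S) × ℝ × S, φ1 z.1.1 * L2 (z.1.1 - z.2.1, z.1.2, z.2.2)
          ∂(vol σ).prod (vol σ)) +
        ((∫⁻ z : (ℝ × S) × ℝ × S, φ2 z.2.1 * L1 η (z.1.1 - z.2.1, z.1.2, z.2.2)
          ∂(vol σ).prod (vol σ)) +
        ∫⁻ z : (ℝ × S) × ℝ × S, φ2 z.1.1 * L1 (-η) (z.1.1 - z.2.1, z.1.2, z.2.2)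
          ∂(vol σ).prod (vol σ))) := by
        rw [e1, e1, e2, e2,
          ← lintegral_add_left ((mK _).indicator (hmeasI _ _ measurableSet_Ioi measurableSet_Ioi)),
          ← lintegral_add_left ((mK _).indicator (hmeasI _ _ measurableSet_Ioi measurableSet_Ioi)),
          ← lintegral_add_left (by fun_prop), ← lintegral_add_left (by fun_prop),
          ← lintegral_add_right _ (by fun_prop)]
        refine lintegral_mono fun z => ?_
        obtain ⟨x, y⟩ := z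
        have hwD : ∀ t : ℝ, 0 < t → wt D (-β) t ≤ ENNReal.ofReal D := fun t ht => by
          refine ENNReal.ofReal_le_ofReal (mul_le_of_le_one_right hD.le ?_)
          rw [Real.exp_le_one_iff]; nlinarith
        have hDD : 0 < x.1 → 0 < y.1 → g x * f y ≤ ENNReal.ofReal (D * D) := fun hx hy => by
          rw [ENNReal.ofReal_mul hD.le]
          exact mul_le_mul' ((hb x hx).2.trans (hwD _ hx)) ((hb y hy).1.trans (hwD _ hy))
        simp only [indicator, mem_prod, mem_st, mem_Ioi, add_zero, neg_zero, φ1, φ2, mem_Ioc,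
          L1, L2]
        generalize K (x.1 - y.1) x.2 y.2 = K0
        rw [← sub_eq_add_neg]
        generalize K (x.1 - y.1 + η) x.2 y.2 = Kp
        generalize K (x.1 - y.1 - η) x.2 y.2 = Km
        by_cases hx : r < x.1 <;> by_cases hy : r < y.1
        · have hx0 : 0 < x.1 := hr.trans_lt hx
          have hy0 : 0 < y.1 := hr.trans_lt hy
          simp only [hx, hy, hx0, hy0, and_self, if_true]
          have h1 : g x * f y ≤ wt D (-β) x.1 * ENNReal.ofReal D :=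
            mul_le_mul' (hb x hx0).2 ((hb y hy0).1.trans (hwD _ hy0))
          calc g x * (K0 * f y) + g x * (K0 * f y) = g x * f y * (2 * K0) := by ring
            _ ≤ g x * f y * (Kp + Km + (2 * K0 - (Kp + Km))) := mul_le_mul_right le_add_tsub _
            _ = g x * (Kp * f y) + g x * (Km * f y) + g x * f y * (2 * K0 - (Kp + Km)) := by ring
            _ ≤ _ := add_le_add_right ((mul_le_mul_left h1 _).trans le_self_add) _
        · have hx0 : 0 < x.1 := hr.trans_lt hx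
          by_cases hy0 : 0 < y.1
          · simp only [hx, hy, hx0, hy0, and_self, if_true, and_false, if_false, add_zero,
              not_lt.1 hy]
            calc g x * (K0 * f y) = g x * f y * K0 := by ring
              _ ≤ g x * f y * (Kp + (K0 - Kp)) := mul_le_mul_right le_add_tsub _
              _ = g x * (Kp * f y) + g x * f y * (K0 - Kp) := by ring
              _ ≤ _ := add_le_add_right ((mul_le_mul_left (hDD hx0 hy0) _).trans
                (le_add_left le_self_add)) _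
          · simp [hy, hy0]
        · have hy0 : 0 < y.1 := hr.trans_lt hy
          by_cases hx0 : 0 < x.1
          · simp only [hx, hy, hx0, hy0, and_self, if_true, false_and, if_false, zero_add,
              not_lt.1 hx]
            calc g x * (K0 * f y) = g x * f y * K0 := by ring
              _ ≤ g x * f y * (Km + (K0 - Km)) := mul_le_mul_right le_add_tsub _
              _ = g x * (Km * f y) + g x * f y * (K0 - Km) := by ring
              _ ≤ _ := add_le_add_right ((mul_le_mul_left (hDD hx0 hy0) _).trans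
                (le_add_left le_add_self)) _
          · simp [hx, hx0]
        · simp [hx, hy]
    _ ≤ _ := by
        refine add_le_add_right (add_le_add (le_of_eq ?_) ?_) _
        · rw [lintegral_prod _ (by fun_prop), conv_left mφ1 mL2,
            lintegral_mul_const _ ((continuous_wt _ _).measurable.indicator measurableSet_Ioi)]
        · have i1 : ∫⁻ z : (ℝ × S) × ℝ × S, φ2 z.2.1 * L1 η (z.1.1 - z.2.1, z.1.2, z.2.2)
              ∂(vol σ).prod (vol σ) = _ :=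
            (lintegral_prod _ (by have := mL1 η; fun_prop)).trans (conv_right mφ2 (mL1 _))
          have i2 : ∫⁻ z : (ℝ × S) × ℝ × S, φ2 z.1.1 * L1 (-η) (z.1.1 - z.2.1, z.1.2, z.2.2)
              ∂(vol σ).prod (vol σ) = _ :=
            (lintegral_prod _ (by have := mL1 (-η); fun_prop)).trans (conv_left mφ2 (mL1 _))
          rw [i1, i2, two_mul,
            ENNReal.ofReal_add (by have := hK.C_pos; positivity) (by have := hK.C_pos; positivity)]
          exact add_le_add (b2 _ rfl) (b2 _ (abs_neg _))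

/-- Force balance under a shift by `± h`. -/
theorem Half.balance (hK : Ker σ k C N K) (h : Half σ K p q A₁ l₁ A₂ l₂ a b F G) {ε : ℝ}
    (hε : 0 < ε) : ∀ᶠ t in 𝓝[>] (0 : ℝ), ∀ η r : ℝ, |η| = t → 0 ≤ r → r ≤ t → 0 ≤ r + η →
    (ENNReal.ofReal (q + 1))⁻¹ * en σ A₂ l₂ q a (Ioi r) +
      (ENNReal.ofReal (p + 1))⁻¹ * en σ A₁ l₁ p b (Ioi r) +
      (crossI σ K (src A₂ l₂ q a) F r η + crossI σ K (src A₁ l₁ p b) G r η) ≤
    (ENNReal.ofReal (q + 1))⁻¹ * (wt 1 (-l₂) η * en σ A₂ l₂ q a (Ioi (r + η))) +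
      (ENNReal.ofReal (p + 1))⁻¹ * (wt 1 (-l₁) η * en σ A₁ l₁ p b (Ioi (r + η))) +
      (crossI σ K (src A₂ l₂ q a) F r 0 + crossI σ K (src A₁ l₁ p b) G r 0) +
      ENNReal.ofReal (ε * t) := by
  obtain ⟨D, β, hD, hβ, hb⟩ := h.bdd
  have hC := hK.C_pos
  obtain ⟨c, hc0, hc⟩ : ∃ c : ℝ, 0 < c ∧
      (∫⁻ t, (Ioi (0 : ℝ)).indicator (wt D (-β)) t) * ENNReal.ofReal D ≤ ENNReal.ofReal c := by
    have := ENNReal.mul_ne_top (lintegral_wt_Ioi_ne_top D hβ) (ENNReal.ofReal_ne_top (r := D))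
    refine ⟨((∫⁻ t, (Ioi (0 : ℝ)).indicator (wt D (-β)) t) * ENNReal.ofReal D).toReal + 1,
      by positivity, ?_⟩
    exact (ENNReal.ofReal_toReal this).ge.trans (ENNReal.ofReal_le_ofReal (le_add_of_nonneg_right
      zero_le_one))
  have hsm : ∀ᶠ t in 𝓝[>] (0 : ℝ), t < ε / 2 / (2 * (D * D * C)) :=
    nhdsWithin_le_nhds (gt_mem_nhds (by positivity))
  filter_upwards [hK.second (ε / 2 / c) (by positivity), hsm, self_mem_nhdsWithin]
    with t ht2 ht1 ht0 η r hη hr0 hrt hr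
  have ht0 : 0 < t := ht0
  have h1 := h.one_sided hK hr0 hr
  have h2 := h.symm.one_sided hK hr0 hr
  have h3 := self_le hK (measurable_src A₁ l₁ p h.measb) (measurable_src A₂ l₂ q h.measa) hD hβ hb
    hr0 η
  have hL : (∫⁻ z : ℝ × S × S, (2 * K z.1 z.2.1 z.2.2 - (K (z.1 + η) z.2.1 z.2.2 +
      K (z.1 - η) z.2.1 z.2.2)) ∂((volume : Measure ℝ).prod (σ.prod σ))) ≤
      ENNReal.ofReal (ε / 2 / c * t) := by
    rcases (abs_eq ht0.le).1 hη with rfl | rfl
    · exact ht2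
    · simpa only [sub_neg_eq_add, ← sub_eq_add_neg, add_comm] using ht2
  have h4 : (∫⁻ t, (Ioi (0 : ℝ)).indicator (wt D (-β)) t) * ENNReal.ofReal D *
        (∫⁻ z : ℝ × S × S, (2 * K z.1 z.2.1 z.2.2 - (K (z.1 + η) z.2.1 z.2.2 +
          K (z.1 - η) z.2.1 z.2.2)) ∂((volume : Measure ℝ).prod (σ.prod σ))) +
        ENNReal.ofReal (2 * (D * D * r * (C * |η|))) ≤ ENNReal.ofReal (ε * t) := by
    refine (add_le_add_left (mul_le_mul' hc hL) _).trans ?_
    rw [← ENNReal.ofReal_mul hc0.le, ← ENNReal.ofReal_add (by positivity) (by positivity), hη]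
    refine ENNReal.ofReal_le_ofReal ?_
    rw [lt_div_iff₀ (by positivity)] at ht1
    have : c * (ε / 2 / c * t) = ε / 2 * t := by field_simp
    rw [this]
    have : D * D * r * (C * t) ≤ D * D * t * (C * t) := by gcongr
    nlinarith
  have hf1 := (ENNReal.add_ne_top.1 (h.selfI_ne_top hK hr0 hr)).1
  have hf2 := (ENNReal.add_ne_top.1 (h.symm.selfI_ne_top hK hr0 hr)).1
  rw [← ENNReal.add_le_add_iff_right (ENNReal.add_ne_top.2 ⟨hf1, hf2⟩)]
  have h5 := add_le_add h1 h2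
  refine le_trans (le_of_eq (by ring)) (h5.trans ?_)
  have h6 := h3.trans (add_le_add_right h4 _)
  calc _ = (ENNReal.ofReal (q + 1))⁻¹ * (wt 1 (-l₂) η * en σ A₂ l₂ q a (Ioi (r + η))) +
      (ENNReal.ofReal (p + 1))⁻¹ * (wt 1 (-l₁) η * en σ A₁ l₁ p b (Ioi (r + η))) +
      (crossI σ K (src A₂ l₂ q a) F r 0 + crossI σ K (src A₁ l₁ p b) G r 0) +
      (selfI σ K (src A₂ l₂ q a) (src A₁ l₁ p b) r 0 +
        selfI σ K (src A₁ l₁ p b) (src A₂ l₂ q a) r 0) := by ring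
    _ ≤ _ := add_le_add_right h6 _
    _ = _ := by ring

end Crest.Agent.R77.ForceAux
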