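import Crest.Agent.R77.Force1

/-! Row 77: tension and pressure comparison. -/

set_option autoImplicit false
open MeasureTheory Set Filter Topology
open scoped ENNReal

namespace Crest.Agent.R77.ForceAux

variable {S : Type} [MeasurableSpace S] {σ : Measure S} [IsFiniteMeasure σ]
  {K : ℝ → S → S → ℝ≥0∞} {k C N : ℝ} {f g F G : ℝ × S → ℝ≥0∞}

/-- The tension across the cut. -/
noncomputable def tensI (σ : Measure S) (K : ℝ → S → S → ℝ≥0∞) (g F : ℝ × S → ℝ≥0∞) (h : ℝ) :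
    ℝ≥0∞ :=
  ∫⁻ x in st S (Ioi 0), ∫⁻ y in st S (Ioi 0),
    g x * ((K (x.1 + y.1) x.2 y.2 - K (x.1 + y.1 + h) x.2 y.2) * F y) ∂vol σ ∂vol σ

theorem tensI_eq (hK : Ker σ k C N K) (hg : Measurable g) (hF : Measurable F) (h : ℝ) :
    tensI σ K g F h = ∫⁻ z, g z.1 * ((K (z.1.1 + z.2.1) z.1.2 z.2.2 -
      K (z.1.1 + z.2.1 + h) z.1.2 z.2.2) * F z.2)
      ∂((vol σ).restrict (st S (Ioi 0))).prod ((vol σ).restrict (st S (Ioi 0))) := by
  have := hK.meas
  rw [lintegral_prod _ (by fun_prop), tensI]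

theorem crossI_eq (hK : Ker σ k C N K) (hg : Measurable g) (hF : Measurable F) (η : ℝ) :
    crossI σ K g F 0 η = ∫⁻ z, g z.1 * (K (z.1.1 + z.2.1 + η) z.1.2 z.2.2 * F z.2)
      ∂((vol σ).restrict (st S (Ioi 0))).prod ((vol σ).restrict (st S (Ioi 0))) := by
  have := hK.meas
  rw [lintegral_prod _ (by fun_prop), crossI]
  simp only [add_right_comm]

theorem ae_pos : ∀ᵐ z ∂((vol σ).restrict (st S (Ioi 0))).prod ((vol σ).restrict (st S (Ioi 0))),
    0 < z.1.1 ∧ 0 < z.2.1 := by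
  rw [Measure.prod_restrict]
  exact ae_restrict_of_forall_mem
    ((measurableSet_st measurableSet_Ioi).prod (measurableSet_st measurableSet_Ioi))
    fun z hz => hz

theorem crossI_zero (hK : Ker σ k C N K) (hg : Measurable g) (hF : Measurable F) {h : ℝ}
    (hh : 0 ≤ h) : crossI σ K g F 0 0 = crossI σ K g F 0 h + tensI σ K g F h := by
  have := hK.meas
  rw [crossI_eq hK hg hF, crossI_eq hK hg hF, tensI_eq hK hg hF,
    ← lintegral_add_right _ (by fun_prop)]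
  refine lintegral_congr_ae ?_
  filter_upwards [ae_pos] with z hz
  rw [← mul_add, ← add_mul, add_zero, add_tsub_cancel_of_le]
  refine hK.anti _ _ _ _ ?_
  rw [abs_of_pos (by linarith [hz.1, hz.2]), abs_of_pos (by linarith [hz.1, hz.2])]
  linarith

theorem crossI_shift (hK : Ker σ k C N K) (hg : Measurable g) (hF : Measurable F) (r η : ℝ) :
    crossI σ K g F r η = crossI σ K (fun x => g (sh r x)) F 0 (r + η) := by
  have hm : Measurable fun x : ℝ × S => ∫⁻ y in st S (Ioi 0),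
      g x * (K (x.1 + η + y.1) x.2 y.2 * F y) ∂vol σ := by
    refine Measurable.lintegral_prod_right' (f := fun z : (ℝ × S) × ℝ × S =>
      g z.1 * (K (z.1.1 + η + z.2.1) z.1.2 z.2.2 * F z.2)) ?_
    exact (hg.comp measurable_fst).mul
      ((hK.measurable (by fun_prop) (by fun_prop) (by fun_prop)).mul (hF.comp measurable_snd))
  rw [crossI, ← setLIntegral_sh r measurableSet_Ioi hm, crossI]
  have : (fun t : ℝ => t + r) ⁻¹' Ioi r = Ioi 0 := by ext t; simp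
  rw [this]
  simp only [sh, add_assoc]

theorem tensI_symm (hK : Ker σ k C N K) (hg : Measurable g) (hF : Measurable F) (h : ℝ) :
    tensI σ K g F h = tensI σ K F g h := by
  have := hK.meas
  rw [tensI, lintegral_lintegral_swap (by fun_prop), tensI]
  refine lintegral_congr fun x => lintegral_congr fun y => ?_
  rw [hK.symm _ y.2, hK.symm _ y.2, add_comm y.1]
  ring

theorem four_le {gh fh gp gm fp fm : ℝ≥0∞} (hg : gh ≠ ⊤) (hf : fh ≠ ⊤) (h1 : gh ≤ gp)
    (h2 : gh ≤ gm) (h3 : fh ≤ fp) (h4 : fh ≤ fm) (d : ℝ≥0∞) :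
    gh * (d * (fp + fm - fh)) + (gp + gm - gh) * (d * fh) ≤ gm * (d * fp) + gp * (d * fm) := by
  obtain ⟨a1, rfl⟩ := le_iff_exists_add.1 h1
  obtain ⟨a2, rfl⟩ := le_iff_exists_add.1 h2
  obtain ⟨a3, rfl⟩ := le_iff_exists_add.1 h3
  obtain ⟨a4, rfl⟩ := le_iff_exists_add.1 h4
  rw [add_assoc fh, ENNReal.add_sub_cancel_left hf, add_assoc gh, ENNReal.add_sub_cancel_left hg]
  calc _ ≤ gh * (d * (a3 + (fh + a4))) + (a1 + (gh + a2)) * (d * fh) +
        (a2 * (d * a3) + a1 * (d * a4)) := le_self_add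
    _ = _ := by ring

theorem tensI_hat_le (hK : Ker σ k C N K) {gh fh gp gm fp fm : ℝ × S → ℝ≥0∞}
    (mgh : Measurable gh) (mfh : Measurable fh) (mgp : Measurable gp) (mgm : Measurable gm)
    (mfp : Measurable fp) (mfm : Measurable fm)
    (hg : ∀ x, 0 < x.1 → gh x ≠ ⊤ ∧ gh x ≤ gp x ∧ gh x ≤ gm x)
    (hf : ∀ x, 0 < x.1 → fh x ≠ ⊤ ∧ fh x ≤ fp x ∧ fh x ≤ fm x) (h : ℝ) :
    tensI σ K gh (fun y => fp y + fm y - fh y) h + tensI σ K fh (fun y => gp y + gm y - gh y) h ≤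
      tensI σ K gm fp h + tensI σ K fm gp h := by
  have := hK.meas
  rw [tensI_symm hK mfh (by fun_prop), tensI_symm hK mfm mgp, tensI_eq hK mgh (by fun_prop),
    tensI_eq hK (by fun_prop) mfh, tensI_eq hK mgm mfp, tensI_eq hK mgp mfm,
    ← lintegral_add_right _ (by fun_prop), ← lintegral_add_right _ (by fun_prop)]
  refine lintegral_mono_ae ?_
  filter_upwards [ae_pos] with z hz
  exact four_le (hg _ hz.1).1 (hf _ hz.2).1 (hg _ hz.1).2.1 (hg _ hz.1).2.2 (hf _ hz.2).2.1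
    (hf _ hz.2).2.2 _

theorem lintegral_phi_ne_top :
    ∫⁻ t, (Ioo (0 : ℝ) 1).indicator (fun t => ENNReal.ofReal (t ^ (-(1 / 2) : ℝ))) t ≠ ⊤ := by
  rw [lintegral_indicator measurableSet_Ioo]
  have : IntegrableOn (fun t : ℝ => t ^ (-(1 / 2) : ℝ)) (Ioo 0 1) :=
    (intervalIntegral.integrableOn_Ioo_rpow_iff one_pos).2 (by norm_num)
  exact this.lintegral_lt_top.ne

theorem inv_add_le {t s : ℝ} (ht : 0 < t) (hs : 0 < s) :
    (t + s)⁻¹ ≤ t ^ (-(1 / 2) : ℝ) * s ^ (-(1 / 2) : ℝ) := by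
  rw [Real.rpow_neg ht.le, Real.rpow_neg hs.le, ← mul_inv, ← Real.sqrt_eq_rpow,
    ← Real.sqrt_eq_rpow]
  refine inv_anti₀ (by positivity) ?_
  nlinarith [Real.sq_sqrt ht.le, Real.sq_sqrt hs.le, sq_nonneg (√t - √s), Real.sqrt_nonneg t,
    Real.sqrt_nonneg s, mul_nonneg (Real.sqrt_nonneg t) (Real.sqrt_nonneg s)]

theorem weight_ne_top (hK : Ker σ k C N K) (hg : Measurable g) (hF : Measurable F) {D : ℝ≥0∞}
    (hD : D ≠ ⊤) (hb : ∀ x, 0 < x.1 → x.1 < 1 → g x ≤ D ∧ F x ≤ D)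
    (hfin : crossI σ K g F 0 0 ≠ ⊤) :
    ∫⁻ z, g z.1 * (ENNReal.ofReal (C * (1 + (z.1.1 + z.2.1)⁻¹)) *
      K (z.1.1 + z.2.1) z.1.2 z.2.2 * F z.2)
      ∂((vol σ).restrict (st S (Ioi 0))).prod ((vol σ).restrict (st S (Ioi 0))) ≠ ⊤ := by
  have hC := hK.C_pos
  set φ : ℝ → ℝ≥0∞ := (Ioo (0 : ℝ) 1).indicator fun t => ENNReal.ofReal (t ^ (-(1 / 2) : ℝ))
    with hφ
  have mφ : Measurable φ := Measurable.indicator (by fun_prop) measurableSet_Ioo
  have mK0 : Measurable fun z : S × S => K 0 z.1 z.2 :=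
    hK.measurable (by fun_prop) (by fun_prop) (by fun_prop)
  have mK := hK.meas
  have h2 : ∫⁻ z : (ℝ × S) × ℝ × S, φ z.1.1 * (φ z.2.1 * K 0 z.1.2 z.2.2)
      ∂(vol σ).prod (vol σ) ≠ ⊤ := by
    rw [lintegral_prod _ (by fun_prop)]
    have e : ∀ x : ℝ × S, ∫⁻ y : ℝ × S, φ x.1 * (φ y.1 * K 0 x.2 y.2) ∂vol σ =
        φ x.1 * ((∫⁻ t, φ t) * ∫⁻ b, K 0 x.2 b ∂σ) := fun x => by
      have : Measurable fun b => K 0 x.2 b :=
        hK.measurable (by fun_prop) (by fun_prop) (by fun_prop)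
      rw [lintegral_const_mul _ (by fun_prop), vol,
        lintegral_prod_mul mφ.aemeasurable this.aemeasurable]
    simp only [e]
    have m2 : Measurable fun a => ∫⁻ b, K 0 a b ∂σ := mK0.lintegral_prod_right'
    rw [vol, lintegral_prod_mul mφ.aemeasurable (m2.const_mul _).aemeasurable,
      lintegral_const_mul _ m2]
    exact ENNReal.mul_ne_top lintegral_phi_ne_top
      (ENNReal.mul_ne_top lintegral_phi_ne_top hK.slice)
  have h3 : ∫⁻ z : (ℝ × S) × ℝ × S, φ z.1.1 * (φ z.2.1 * K 0 z.1.2 z.2.2)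
      ∂((vol σ).restrict (st S (Ioi 0))).prod ((vol σ).restrict (st S (Ioi 0))) ≠ ⊤ := by
    rw [Measure.prod_restrict]
    exact ne_top_of_le_ne_top h2 (setLIntegral_le_lintegral _ _)
  rw [crossI_eq hK hg hF] at hfin
  refine ne_top_of_le_ne_top (ENNReal.add_ne_top.2
    ⟨ENNReal.mul_ne_top (ENNReal.ofReal_ne_top (r := C * 2)) hfin,
      ENNReal.mul_ne_top (ENNReal.mul_ne_top (ENNReal.ofReal_ne_top (r := C))
        (ENNReal.mul_ne_top hD hD)) h3⟩) ?_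
  rw [← lintegral_const_mul _ (by fun_prop), ← lintegral_const_mul _ (by fun_prop),
    ← lintegral_add_right _ (by fun_prop)]
  refine lintegral_mono_ae ?_
  filter_upwards [ae_pos] with z hz
  obtain ⟨x, y⟩ := z
  obtain ⟨hx, hy⟩ := hz
  simp only [add_zero] at hx hy ⊢
  by_cases h1 : 1 ≤ x.1 + y.1
  · refine le_trans ?_ le_self_add
    have : ENNReal.ofReal (C * (1 + (x.1 + y.1)⁻¹)) ≤ ENNReal.ofReal (C * 2) := by
      refine ENNReal.ofReal_le_ofReal (mul_le_mul_of_nonneg_left ?_ hC.le)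
      linarith [inv_le_one_of_one_le₀ h1]
    calc _ ≤ g x * (ENNReal.ofReal (C * 2) * K (x.1 + y.1) x.2 y.2 * F y) := by gcongr
      _ = _ := by ring
  · have hx1 : x.1 < 1 := by linarith
    have hy1 : y.1 < 1 := by linarith
    have e1 : ENNReal.ofReal (C * (1 + (x.1 + y.1)⁻¹)) ≤
        ENNReal.ofReal (C * 2) + ENNReal.ofReal C * (φ x.1 * φ y.1) := by
      simp only [hφ, indicator, mem_Ioo, hx, hx1, hy, hy1, and_self, if_true]
      rw [← ENNReal.ofReal_mul (by positivity), ← ENNReal.ofReal_mul (by positivity),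
        ← ENNReal.ofReal_add (by positivity) (by positivity)]
      refine ENNReal.ofReal_le_ofReal ?_
      nlinarith [inv_add_le hx hy]
    have e2 : K (x.1 + y.1) x.2 y.2 ≤ K 0 x.2 y.2 := hK.anti _ _ _ _ (by simp)
    calc _ ≤ g x * ((ENNReal.ofReal (C * 2) + ENNReal.ofReal C * (φ x.1 * φ y.1)) *
          K (x.1 + y.1) x.2 y.2 * F y) := by gcongr
      _ = ENNReal.ofReal (C * 2) * (g x * (K (x.1 + y.1) x.2 y.2 * F y)) +
          ENNReal.ofReal C * (g x * F y) * (φ x.1 * (φ y.1 * K (x.1 + y.1) x.2 y.2)) := by ring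
      _ ≤ _ := by
        have := (hb x hx hx1).1
        have := (hb y hy hy1).2
        gcongr

theorem tensI_shift (hK : Ker σ k C N K) (hg : Measurable g) (hF : Measurable F) {D : ℝ≥0∞}
    (hD : D ≠ ⊤) (hb : ∀ x, 0 < x.1 → x.1 < 1 → g x ≤ D ∧ F x ≤ D)
    (hfin : crossI σ K g F 0 0 ≠ ⊤) (hc : ∀ a, Continuous fun t => g (t, a))
    (hg' : ∀ x, g x ≠ ⊤) (hF' : ∀ x, F x ≠ ⊤) {ε : ℝ} (hε : 0 < ε) :
    ∀ᶠ h in 𝓝[>] (0 : ℝ),
      tensI σ K g F h ≤ tensI σ K (fun x => g (sh h x)) F h + ENNReal.ofReal (ε * h) := by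
  have hC := hK.C_pos
  have mK := hK.meas
  set W : (ℝ × S) × ℝ × S → ℝ≥0∞ := fun z => ENNReal.ofReal (C * (1 + (z.1.1 + z.2.1)⁻¹)) *
      K (z.1.1 + z.2.1) z.1.2 z.2.2 * F z.2 with hW
  have mW : Measurable W := by rw [hW]; fun_prop
  have hlim : Tendsto (fun h : ℝ => ∫⁻ z, (g z.1 - g (sh h z.1)) * W z
      ∂((vol σ).restrict (st S (Ioi 0))).prod ((vol σ).restrict (st S (Ioi 0)))) (𝓝[>] 0)
      (𝓝 (∫⁻ _, 0 ∂((vol σ).restrict (st S (Ioi 0))).prod
        ((vol σ).restrict (st S (Ioi 0))))) := by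
    refine tendsto_lintegral_filter_of_dominated_convergence (fun z => g z.1 * W z)
      (Eventually.of_forall fun h => by fun_prop)
      (Eventually.of_forall fun h => ae_of_all _ fun z => mul_le_mul_left tsub_le_self _)
      (weight_ne_top hK hg hF hD hb hfin) ?_
    filter_upwards [ae_pos] with z hz
    have hWz : W z ≠ ⊤ := ENNReal.mul_ne_top (ENNReal.mul_ne_top ENNReal.ofReal_ne_top
      (hK.ne_top (add_pos hz.1 hz.2).ne' _ _)) (hF' _)
    have h1 : Tendsto (fun h : ℝ => g (sh h z.1)) (𝓝[>] 0) (𝓝 (g z.1)) := by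
      have : Continuous fun h : ℝ => g (sh h z.1) := (hc z.1.2).comp (by fun_prop)
      simpa [sh] using (this.tendsto 0).mono_left nhdsWithin_le_nhds
    have h2 := ENNReal.Tendsto.mul_const
      (ENNReal.Tendsto.sub (tendsto_const_nhds (x := g z.1)) h1 (Or.inl (hg' _))) (Or.inr hWz)
    simpa using h2
  rw [lintegral_zero] at hlim
  filter_upwards [hlim.eventually (gt_mem_nhds (ENNReal.ofReal_pos.2 hε)), self_mem_nhdsWithin]
    with h hh h0
  have h0 : 0 < h := h0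
  have := hK.meas
  rw [tensI_eq hK hg hF, tensI_eq hK (by fun_prop) hF, mul_comm ε, ENNReal.ofReal_mul h0.le]
  refine le_trans ?_ (add_le_add_right (mul_le_mul_right hh.le _) _)
  rw [← lintegral_const_mul _ (by fun_prop), ← lintegral_add_right _ (by fun_prop)]
  refine lintegral_mono_ae ?_
  filter_upwards [ae_pos] with z hz
  have e : K (z.1.1 + z.2.1) z.1.2 z.2.2 - K (z.1.1 + z.2.1 + h) z.1.2 z.2.2 ≤
      ENNReal.ofReal h * (ENNReal.ofReal (C * (1 + (z.1.1 + z.2.1)⁻¹)) *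
        K (z.1.1 + z.2.1) z.1.2 z.2.2) := by
    rw [tsub_le_iff_left, ← mul_assoc, ← ENNReal.ofReal_mul h0.le]
    exact hK.lip _ _ _ _ (add_pos hz.1 hz.2) h0.le
  calc _ ≤ (g (sh h z.1) + (g z.1 - g (sh h z.1))) * ((K (z.1.1 + z.2.1) z.1.2 z.2.2 -
        K (z.1.1 + z.2.1 + h) z.1.2 z.2.2) * F z.2) := mul_le_mul_left le_add_tsub _
    _ ≤ _ := by
      rw [add_mul]
      refine add_le_add_right ?_ _
      refine (mul_le_mul_right (mul_le_mul_left e _) _).trans (le_of_eq ?_)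
      simp only [hW]; ring

theorem pressure {P Q : ℝ × S → ℝ≥0∞} (hP : Measurable P) (hQ : Measurable Q) {D : ℝ≥0∞}
    (hD : D ≠ ⊤) (hb : ∀ x, 0 < x.1 → P x ≤ D)
    (hl : ∀ a, Tendsto (fun t => P (t, a) - Q (t, a)) (𝓝[>] 0) (𝓝 0)) {ε : ℝ} (hε : 0 < ε) :
    ∀ᶠ h in 𝓝[>] (0 : ℝ), ∫⁻ x in st S (Ioc 0 h), P x ∂vol σ ≤
      (∫⁻ x in st S (Ioc 0 h), Q x ∂vol σ) + ENNReal.ofReal (ε * h) := by
  have hlim : Tendsto (fun t : ℝ => ∫⁻ a, P (t, a) - Q (t, a) ∂σ) (𝓝[>] 0)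
      (𝓝 (∫⁻ _, 0 ∂σ)) := by
    refine tendsto_lintegral_filter_of_dominated_convergence (fun _ => D)
      (Eventually.of_forall fun h => by fun_prop) ?_ ?_ (ae_of_all _ hl)
    · filter_upwards [self_mem_nhdsWithin] with t ht
      exact ae_of_all _ fun a => tsub_le_self.trans (hb _ ht)
    · rw [lintegral_const]; exact ENNReal.mul_ne_top hD (measure_ne_top _ _)
  rw [lintegral_zero] at hlim
  obtain ⟨δ, hδ, hs⟩ := (nhdsGT_basis (0 : ℝ)).eventually_iff.1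
    (hlim.eventually (gt_mem_nhds (ENNReal.ofReal_pos.2 hε)))
  filter_upwards [Ioo_mem_nhdsGT hδ] with h hh
  calc _ ≤ ∫⁻ x in st S (Ioc 0 h), Q x + (P x - Q x) ∂vol σ := lintegral_mono fun x => le_add_tsub
    _ ≤ _ := by
      rw [lintegral_add_left hQ]
      refine add_le_add_right ?_ _
      rw [vol_restrict_st, lintegral_prod _ (by fun_prop)]
      calc _ ≤ ∫⁻ _ in Ioc 0 h, ENNReal.ofReal ε :=
            setLIntegral_mono' measurableSet_Ioc fun t ht => (hs ⟨ht.1, ht.2.trans_lt hh.2⟩).le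
        _ = _ := by
          rw [setLIntegral_const, Real.volume_Ioc, sub_zero, ← ENNReal.ofReal_mul hε.le]

end Crest.Agent.R77.ForceAux
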