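import Crest.Agent.R77.Defs

/-! Row 77: Green's identity across the origin. -/

set_option autoImplicit false
open MeasureTheory Set Filter Topology
open scoped ENNReal

namespace Crest.Agent.R77

open Laplacian InnerProductSpace

namespace GreenAux

open Metric

variable {n : ℕ}

local notation "E" => EuclideanSpace ℝ (Fin n)

/-- Directional derivative. -/
noncomputable def D (v : E) (g : E → ℝ) : E → ℝ := fun x => fderiv ℝ g x v

theorem contDiff_D {g : E → ℝ} (hg : ContDiff ℝ 2 g) (v : E) : ContDiff ℝ 1 (D v g) :=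
  (hg.fderiv_right (m := 1) le_rfl).clm_apply contDiff_const

theorem continuous_D {g : E → ℝ} (hg : ContDiff ℝ 1 g) (v : E) : Continuous (D v g) :=
  (hg.continuous_fderiv one_ne_zero).clm_apply continuous_const

theorem hcs_D {g : E → ℝ} (hg : HasCompactSupport g) (v : E) : HasCompactSupport (D v g) :=
  hg.fderiv_apply (𝕜 := ℝ) v

theorem lap_eq {g : E → ℝ} (hg : ContDiff ℝ 2 g) (x : E) :
    (Δ g) x = ∑ i, D (EuclideanSpace.basisFun (Fin n) ℝ i)
      (D (EuclideanSpace.basisFun (Fin n) ℝ i) g) x := by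
  rw [laplacian_eq_iteratedFDeriv_orthonormalBasis g (EuclideanSpace.basisFun (Fin n) ℝ)]
  refine Finset.sum_congr rfl fun i _ => ?_
  rw [iteratedFDeriv_two_apply]
  have h1 : DifferentiableAt ℝ (fderiv ℝ g) x :=
    ((hg.fderiv_right (m := 1) le_rfl).differentiable one_ne_zero) x
  unfold D
  rw [fderiv_clm_apply h1 (differentiableAt_const _)]
  simp

theorem continuous_lap {g : E → ℝ} (hg : ContDiff ℝ 2 g) : Continuous (Δ g) := by
  rw [funext (lap_eq hg)]
  exact continuous_finsetSum _ fun i _ => continuous_D (contDiff_D hg _) _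

theorem lap_zero {g : E → ℝ} {x : E} (h : g =ᶠ[𝓝 x] fun _ => 0) : (Δ g) x = 0 := by
  rw [(laplacian_congr_nhds h).eq_of_nhds]; simp

theorem lap_notMem {g : E → ℝ} {x : E} (h : x ∉ tsupport g) : (Δ g) x = 0 :=
  lap_zero (notMem_tsupport_iff_eventuallyEq.mp h)

theorem hcs_lap {g : E → ℝ} (hg : HasCompactSupport g) : HasCompactSupport (Δ g) :=
  HasCompactSupport.intro hg fun _ hx => lap_notMem hx

theorem green_dir {u ψ : E → ℝ} (hu : ContDiff ℝ 2 u) (hψ : ContDiff ℝ 2 ψ)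
    (hc : HasCompactSupport ψ) (v : E) :
    ∫ x, u x * D v (D v ψ) x = ∫ x, D v (D v u) x * ψ x := by
  have hu1 := contDiff_D hu v
  have hψ1 := contDiff_D hψ v
  have c1 := continuous_D hu1 v
  have c2 := continuous_D hψ1 v
  have s1 := hcs_D hc v
  have s2 := hcs_D s1 v
  have i1 : Integrable (fun x => D v u x * D v ψ x) :=
    (hu1.continuous.mul hψ1.continuous).integrable_of_hasCompactSupport s1.mul_left
  have h1 := integral_mul_fderiv_eq_neg_fderiv_mul_of_integrable (μ := volume) (f := u)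
    (g := D v ψ) (v := v) i1 ((hu.continuous.mul c2).integrable_of_hasCompactSupport s2.mul_left)
    ((hu.continuous.mul hψ1.continuous).integrable_of_hasCompactSupport s1.mul_left)
    (fun x _ => hu.differentiable two_ne_zero x) (fun x _ => hψ1.differentiable one_ne_zero x)
  have h2 := integral_mul_fderiv_eq_neg_fderiv_mul_of_integrable (μ := volume) (f := D v u)
    (g := ψ) (v := v) ((c1.mul hψ.continuous).integrable_of_hasCompactSupport hc.mul_left) i1
    ((hu1.continuous.mul hψ.continuous).integrable_of_hasCompactSupport hc.mul_left)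
    (fun x _ => hu1.differentiable one_ne_zero x) (fun x _ => hψ.differentiable two_ne_zero x)
  change ∫ x, u x * D v (D v ψ) x = -∫ x, D v u x * D v ψ x at h1
  change ∫ x, D v u x * D v ψ x = -∫ x, D v (D v u) x * ψ x at h2
  rw [h1, h2, neg_neg]

theorem green0 {u ψ : E → ℝ} (hu : ContDiff ℝ 2 u) (hψ : ContDiff ℝ 2 ψ)
    (hc : HasCompactSupport ψ) : ∫ x, u x * (Δ ψ) x = ∫ x, (Δ u) x * ψ x := by
  simp only [lap_eq hu, lap_eq hψ, Finset.mul_sum, Finset.sum_mul]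
  rw [integral_finsetSum, integral_finsetSum]
  · exact Finset.sum_congr rfl fun i _ => green_dir hu hψ hc _
  · exact fun i _ => ((continuous_D (contDiff_D hu _) _).mul
      hψ.continuous).integrable_of_hasCompactSupport hc.mul_left
  · exact fun i _ => (hu.continuous.mul
      (continuous_D (contDiff_D hψ _) _)).integrable_of_hasCompactSupport
        (hcs_D (hcs_D hc _) _).mul_left

theorem integrable_lap {u ψ : E → ℝ} (hu : Continuous u) (hψ : ContDiff ℝ 2 ψ)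
    (hc : HasCompactSupport ψ) : Integrable (fun x => u x * (Δ ψ) x) :=
  (hu.mul (continuous_lap hψ)).integrable_of_hasCompactSupport (hcs_lap hc).mul_left

/-- The fixed bump. -/
noncomputable def χ₀ : ContDiffBump (0 : E) := ⟨1, 2, one_pos, one_lt_two⟩

/-- The rescaled bump. -/
noncomputable def χ (ε : ℝ) (x : E) : ℝ := χ₀ (ε⁻¹ • x)

theorem contDiff_χ (ε : ℝ) : ContDiff ℝ 2 (χ ε : E → ℝ) :=
  (χ₀ (n := n)).contDiff.comp (contDiff_id.const_smul _)

theorem χ_one {ε : ℝ} (hε : 0 < ε) {x : E} (hx : ‖x‖ ≤ ε) : χ ε x = 1 := by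
  refine (χ₀ (n := n)).one_of_mem_closedBall ?_
  rw [mem_closedBall_zero_iff, norm_smul, norm_inv, Real.norm_of_nonneg hε.le]
  show _ ≤ (1 : ℝ)
  rw [inv_mul_le_iff₀ hε]; linarith

theorem χ_zero {ε : ℝ} (hε : 0 < ε) {x : E} (hx : 2 * ε ≤ ‖x‖) : χ ε x = 0 := by
  refine (χ₀ (n := n)).zero_of_le_dist ?_
  rw [dist_zero_right, norm_smul, norm_inv, Real.norm_of_nonneg hε.le]
  show (2 : ℝ) ≤ _
  rw [le_inv_mul_iff₀ hε]; linarith

theorem χ_one_nhds {ε : ℝ} (hε : 0 < ε) : (χ ε : E → ℝ) =ᶠ[𝓝 0] fun _ => 1 := by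
  filter_upwards [closedBall_mem_nhds (0 : E) hε] with x hx
  exact χ_one hε (mem_closedBall_zero_iff.mp hx)

theorem χ_zero_nhds {ε : ℝ} (hε : 0 < ε) {x : E} (hx : 2 * ε < ‖x‖) :
    (χ ε : E → ℝ) =ᶠ[𝓝 x] fun _ => 0 := by
  filter_upwards [(isOpen_lt continuous_const continuous_norm).mem_nhds hx] with y hy
  exact χ_zero hε (le_of_lt hy)

theorem green1 {u ψ : E → ℝ} (hu2 : ContDiffOn ℝ 2 u {0}ᶜ) (hψ : ContDiff ℝ 2 ψ)
    (hc : HasCompactSupport ψ) (h0 : ψ =ᶠ[𝓝 0] fun _ => 0) :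
    Integrable (fun x => (Δ u) x * ψ x) ∧ ∫ x, u x * (Δ ψ) x = ∫ x, (Δ u) x * ψ x := by
  have h1 : (tsupport ψ)ᶜ ∈ 𝓝 (0 : E) :=
    (isClosed_tsupport ψ).isOpen_compl.mem_nhds (notMem_tsupport_iff_eventuallyEq.mpr h0)
  obtain ⟨δ, hδ, hb⟩ := nhds_basis_closedBall.mem_iff.mp h1
  have hε : 0 < δ / 2 := half_pos hδ
  let w : E → ℝ := fun x => u x * (1 - χ (δ / 2) x)
  have hw : ContDiff ℝ 2 w := by
    refine contDiff_iff_contDiffAt.mpr fun x => ?_
    by_cases hx : x = 0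
    · subst hx
      refine (contDiffAt_const (c := (0 : ℝ))).congr_of_eventuallyEq ?_
      filter_upwards [χ_one_nhds (n := n) hε] with y hy
      simp only [w, hy, sub_self, mul_zero]
    · exact (hu2.contDiffAt (isOpen_compl_singleton.mem_nhds hx)).mul
        (contDiffAt_const.sub (contDiff_χ _).contDiffAt)
  have hwu : ∀ x ∈ tsupport ψ, w =ᶠ[𝓝 x] u := by
    intro x hx
    have h2 : 2 * (δ / 2) < ‖x‖ := by
      by_contra h3
      exact hb (mem_closedBall_zero_iff.mpr (by linarith)) hx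
    filter_upwards [χ_zero_nhds hε h2] with y hy
    simp only [w, hy, sub_zero, mul_one]
  have e1 : (fun x => (Δ u) x * ψ x) = fun x => (Δ w) x * ψ x := by
    ext x
    by_cases hx : x ∈ tsupport ψ
    · rw [(laplacian_congr_nhds (hwu x hx)).eq_of_nhds]
    · rw [image_eq_zero_of_notMem_tsupport hx, mul_zero, mul_zero]
  have e2 : (fun x => u x * (Δ ψ) x) = fun x => w x * (Δ ψ) x := by
    ext x
    by_cases hx : x ∈ tsupport ψ
    · rw [(hwu x hx).eq_of_nhds]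
    · rw [lap_notMem hx, mul_zero, mul_zero]
  rw [e1, e2]
  exact ⟨((continuous_lap hw).mul hψ.continuous).integrable_of_hasCompactSupport hc.mul_left,
    green0 hw hψ hc⟩

theorem D_mul {a b : E → ℝ} (ha : ContDiff ℝ 1 a) (hb : ContDiff ℝ 1 b) (v : E) :
    D v (fun x => a x * b x) = fun x => a x * D v b x + D v a x * b x := by
  ext x
  unfold D
  rw [fderiv_fun_mul (ha.differentiable one_ne_zero x) (hb.differentiable one_ne_zero x)]
  simp only [add_apply, smul_apply, smul_eq_mul]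
  ring

theorem D_add {a b : E → ℝ} (ha : ContDiff ℝ 1 a) (hb : ContDiff ℝ 1 b) (v : E) :
    D v (fun x => a x + b x) = fun x => D v a x + D v b x := by
  ext x
  unfold D
  rw [fderiv_fun_add (ha.differentiable one_ne_zero x) (hb.differentiable one_ne_zero x)]
  rfl

theorem DD_mul {a b : E → ℝ} (ha : ContDiff ℝ 2 a) (hb : ContDiff ℝ 2 b) (v x : E) :
    D v (D v (fun x => a x * b x)) x =
      a x * D v (D v b) x + 2 * (D v a x * D v b x) + D v (D v a) x * b x := by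
  have ha1 : ContDiff ℝ 1 a := ha.of_le one_le_two
  have hb1 : ContDiff ℝ 1 b := hb.of_le one_le_two
  rw [D_mul ha1 hb1, D_add (ha1.mul (contDiff_D hb v)) ((contDiff_D ha v).mul hb1),
    D_mul ha1 (contDiff_D hb v), D_mul (contDiff_D ha v) hb1]
  ring

theorem D_scale {g : E → ℝ} (hg : ContDiff ℝ 1 g) (c k : ℝ) (v : E) :
    D v (fun x => k * g (c • x)) = fun x => k * c * D v g (c • x) := by
  ext x
  have h1 : HasFDerivAt (fun x : E => k * g (c • x))
      (k • (fderiv ℝ g (c • x)).comp (c • ContinuousLinearMap.id ℝ E)) x :=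
    ((hg.differentiable one_ne_zero _).hasFDerivAt.comp x
      ((hasFDerivAt_id x).const_smul c)).const_mul k
  unfold D
  rw [h1.fderiv]
  simp [mul_assoc]

theorem exists_bound {g : E → ℝ} (hg : ContDiff ℝ 2 g) (hc : HasCompactSupport g) (v : E) :
    ∃ C : ℝ, 0 ≤ C ∧ ∀ x, |g x| ≤ C ∧ |D v g x| ≤ C ∧ |D v (D v g) x| ≤ C := by
  obtain ⟨C₀, h₀⟩ := hg.continuous.bounded_above_of_compact_support hc
  obtain ⟨C₁, h₁⟩ := (contDiff_D hg v).continuous.bounded_above_of_compact_support (hcs_D hc v)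
  obtain ⟨C₂, h₂⟩ := (continuous_D (contDiff_D hg v) v).bounded_above_of_compact_support
    (hcs_D (hcs_D hc v) v)
  refine ⟨max C₀ (max C₁ C₂), ((norm_nonneg _).trans (h₀ 0)).trans (le_max_left _ _), fun x =>
    ⟨(h₀ x).trans (le_max_left _ _), (h₁ x).trans ((le_max_left _ _).trans (le_max_right _ _)),
      (h₂ x).trans ((le_max_right _ _).trans (le_max_right _ _))⟩⟩

theorem DD_bound {φ : E → ℝ} (hφ : ContDiff ℝ 2 φ) (hc : HasCompactSupport φ) (v : E) :
    ∃ C : ℝ, ∀ ε : ℝ, 0 < ε → ε ≤ 1 → ∀ x,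
      |D v (D v (fun x => φ x * χ ε x)) x| ≤ C * ε⁻¹ ^ 2 := by
  have hχ : ContDiff ℝ 2 (χ₀ (n := n) : E → ℝ) := (χ₀ (n := n)).contDiff
  obtain ⟨A, hA0, hA⟩ := exists_bound hφ hc v
  obtain ⟨B, hB0, hB⟩ := exists_bound hχ (χ₀ (n := n)).hasCompactSupport v
  refine ⟨4 * (A * B), fun ε hε hε1 x => ?_⟩
  have hc1 : 1 ≤ ε⁻¹ := one_le_inv_iff₀.mpr ⟨hε, hε1⟩
  have e0 : (χ ε : E → ℝ) = fun x => 1 * χ₀ (ε⁻¹ • x) := by ext x; rw [one_mul]; rfl
  have e1 : D v (χ ε : E → ℝ) = fun x => 1 * ε⁻¹ * D v (χ₀ (n := n) : E → ℝ) (ε⁻¹ • x) := by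
    rw [e0]; exact D_scale (hχ.of_le one_le_two) _ _ v
  have e2 : D v (D v (χ ε : E → ℝ)) =
      fun x => 1 * ε⁻¹ * ε⁻¹ * D v (D v (χ₀ (n := n) : E → ℝ)) (ε⁻¹ • x) := by
    rw [e1]; exact D_scale (contDiff_D hχ v) _ _ v
  rw [DD_mul hφ (contDiff_χ ε), e2, e1]
  obtain ⟨a0, a1, a2⟩ := hA x
  obtain ⟨b0, b1, b2⟩ := hB (ε⁻¹ • x)
  set c := ε⁻¹
  have hc0 : 0 ≤ c := by linarith
  have t1 : |φ x * (1 * c * c * D v (D v (χ₀ (n := n) : E → ℝ)) (c • x))| ≤ A * (c * c * B) := by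
    rw [abs_mul, one_mul, abs_mul, abs_of_nonneg (mul_nonneg hc0 hc0)]
    gcongr
  have t2 : |2 * (D v φ x * (1 * c * D v (χ₀ (n := n) : E → ℝ) (c • x)))| ≤ 2 * (A * (c * B)) := by
    rw [abs_mul, abs_mul, one_mul, abs_mul, abs_of_nonneg hc0, abs_two]
    gcongr
  have t3 : |D v (D v φ) x * χ ε x| ≤ A * B := by
    rw [abs_mul]
    exact mul_le_mul a2 b0 (abs_nonneg _) hA0
  have hAB := mul_nonneg hA0 hB0
  have h1 : c ≤ c ^ 2 := by nlinarith
  have h2 := mul_le_mul_of_nonneg_left h1 hAB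
  have h3 := mul_le_mul_of_nonneg_left (hc1.trans h1) hAB
  refine (abs_add_three _ _ _).trans ?_
  nlinarith

theorem lap_bound {φ : E → ℝ} (hφ : ContDiff ℝ 2 φ) (hc : HasCompactSupport φ) :
    ∃ C : ℝ, 0 ≤ C ∧ ∀ ε : ℝ, 0 < ε → ε ≤ 1 → ∀ x,
      |(Δ (fun x => φ x * χ ε x)) x| ≤ C * ε⁻¹ ^ 2 := by
  choose C hC using fun i => DD_bound hφ hc (EuclideanSpace.basisFun (Fin n) ℝ i)
  refine ⟨∑ i, |C i|, Finset.sum_nonneg fun _ _ => abs_nonneg _, fun ε hε hε1 x => ?_⟩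
  rw [lap_eq (hφ.mul (contDiff_χ ε)), Finset.sum_mul]
  refine (Finset.abs_sum_le_sum_abs _ _).trans (Finset.sum_le_sum fun i _ => ?_)
  exact (hC i ε hε hε1 x).trans (mul_le_mul_of_nonneg_right (le_abs_self _) (sq_nonneg _))

theorem tendsto_core (hn : 2 ≤ n) {u : E → ℝ} (hu : Continuous u) {φ : E → ℝ}
    (hφ : ContDiff ℝ 2 φ) (hc : HasCompactSupport φ) :
    Tendsto (fun ε : ℝ => ∫ x, u x * (Δ (fun x => φ x * χ ε x)) x) (𝓝[>] 0) (𝓝 0) := by
  obtain ⟨C, hC0, hC⟩ := lap_bound hφ hc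
  set K : ℝ := C * (2 ^ n * (volume : Measure E).real (closedBall 0 1)) with hK
  have hK0 : 0 ≤ K := by positivity
  rw [Metric.tendsto_nhds]
  intro η hη
  have hη' : 0 < η / (K + 1) := by positivity
  obtain ⟨δ, hδ, hu'⟩ := Metric.continuousAt_iff.mp (hu.continuousAt (x := 0)) _ hη'
  filter_upwards [Ioo_mem_nhdsGT (show (0 : ℝ) < min 1 (δ / 3) by positivity)] with ε hε
  obtain ⟨hε0, hε1⟩ := hε
  have hε2 := hε1.le.trans (min_le_left _ _)
  have hε3 := hε1.le.trans (min_le_right _ _)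
  have hψ : ContDiff ℝ 2 (fun x => φ x * χ ε x) := hφ.mul (contDiff_χ ε)
  have hcψ : HasCompactSupport (fun x => φ x * χ ε x) := hc.mul_right
  have h1 : ∫ x, u 0 * (Δ (fun x => φ x * χ ε x)) x = 0 := by
    have := green0 (u := fun _ => u 0) contDiff_const hψ hcψ
    simpa using this
  have h2 : ∫ x, u x * (Δ (fun x => φ x * χ ε x)) x =
      ∫ x in closedBall (0 : E) (2 * ε), (u x - u 0) * (Δ (fun x => φ x * χ ε x)) x := by
    rw [setIntegral_eq_integral_of_forall_compl_eq_zero]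
    · simp only [sub_mul]
      rw [integral_sub (integrable_lap hu hψ hcψ)
        (integrable_lap (u := fun _ => u 0) continuous_const hψ hcψ), h1, sub_zero]
    · intro x hx
      rw [mem_closedBall_zero_iff, not_le] at hx
      rw [lap_zero, mul_zero]
      filter_upwards [χ_zero_nhds hε0 hx] with y hy
      rw [hy, mul_zero]
  have h3 := norm_setIntegral_le_of_norm_le_const (μ := (volume : Measure E))
    (s := closedBall (0 : E) (2 * ε)) (f := fun x => (u x - u 0) * (Δ (fun x => φ x * χ ε x)) x)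
    (C := η / (K + 1) * (C * ε⁻¹ ^ 2)) measure_closedBall_lt_top fun x hx => by
      rw [norm_mul]
      refine mul_le_mul ?_ (hC ε hε0 hε2 x) (norm_nonneg _) hη'.le
      have : dist x 0 < δ := lt_of_le_of_lt (mem_closedBall.mp hx) (by linarith)
      exact (hu' this).le
  rw [dist_zero_right, h2]
  refine h3.trans_lt ?_
  rw [Measure.addHaar_real_closedBall' _ _ (by positivity), finrank_euclideanSpace_fin]
  have h4 : ε⁻¹ ^ 2 * ε ^ n ≤ 1 := by
    have := pow_le_pow_of_le_one hε0.le hε2 hn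
    calc ε⁻¹ ^ 2 * ε ^ n ≤ ε⁻¹ ^ 2 * ε ^ 2 := by gcongr
      _ = 1 := by field_simp
  calc η / (K + 1) * (C * ε⁻¹ ^ 2) * ((2 * ε) ^ n * (volume : Measure E).real (closedBall 0 1))
      = η / (K + 1) * K * (ε⁻¹ ^ 2 * ε ^ n) := by rw [hK, mul_pow]; ring
    _ ≤ η / (K + 1) * K * 1 := by gcongr
    _ < η := by
        rw [mul_one, div_mul_eq_mul_div, div_lt_iff₀ (by positivity)]
        nlinarith

end GreenAux

open GreenAux in
/-- Green's identity for a function that is continuous, and `C²` and superharmonic off the origin. -/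
theorem green {n : ℕ} (hn : 2 ≤ n) {u : EuclideanSpace ℝ (Fin n) → ℝ} (hu : Continuous u)
    (hu2 : ContDiffOn ℝ 2 u {0}ᶜ) {f : EuclideanSpace ℝ (Fin n) → ℝ} (hf : Measurable f)
    (hf0 : ∀ x, 0 ≤ f x) (heq : ∀ x, x ≠ 0 → -(Δ u) x = f x)
    {φ : EuclideanSpace ℝ (Fin n) → ℝ} (hφ : ContDiff ℝ 2 φ) (hc : HasCompactSupport φ)
    (h0 : ∀ x, 0 ≤ φ x) :
    0 ≤ -∫ x, u x * (Δ φ) x ∧
      ∫⁻ x, ENNReal.ofReal (f x * φ x) = ENNReal.ofReal (-∫ x, u x * (Δ φ) x) := by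
  have hχ0 : ∀ (ε : ℝ) (x : EuclideanSpace ℝ (Fin n)), 0 ≤ χ ε x := fun ε x => χ₀.nonneg
  have hχ1 : ∀ (ε : ℝ) (x : EuclideanSpace ℝ (Fin n)), χ ε x ≤ 1 := fun ε x => χ₀.le_one
  let ψ : ℝ → EuclideanSpace ℝ (Fin n) → ℝ := fun ε x => φ x - φ x * χ ε x
  have hψ : ∀ ε, ContDiff ℝ 2 (ψ ε) := fun ε => hφ.sub (hφ.mul (contDiff_χ ε))
  have hψ0 : ∀ ε x, 0 ≤ ψ ε x := fun ε x => by
    have := mul_le_mul_of_nonneg_left (hχ1 ε x) (h0 x)
    simp only [ψ]; linarith
  have hψ1 : ∀ ε x, ψ ε x ≤ φ x := fun ε x => by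
    have := mul_nonneg (h0 x) (hχ0 ε x)
    simp only [ψ]; linarith
  have key : ∀ ε : ℝ, 0 < ε → Integrable (fun x => f x * ψ ε x) ∧
      ∫ x, f x * ψ ε x = -(∫ x, u x * (Δ φ) x) + ∫ x, u x * (Δ (fun x => φ x * χ ε x)) x := by
    intro ε hε
    have hcψ : HasCompactSupport (ψ ε) := hc.sub hc.mul_right
    have hz : ψ ε =ᶠ[𝓝 0] fun _ => 0 := by
      filter_upwards [χ_one_nhds (n := n) hε] with y hy
      simp only [ψ, hy, mul_one, sub_self]
    obtain ⟨h1, h2⟩ := green1 hu2 (hψ ε) hcψ hz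
    have e1 : (fun x => f x * ψ ε x) = fun x => -((Δ u) x * ψ ε x) := by
      ext x
      by_cases hx : x = 0
      · rw [hx, hz.eq_of_nhds]; simp
      · rw [← heq x hx]; ring
    have hm := hφ.mul (contDiff_χ (n := n) ε)
    have e2 : (fun x => u x * (Δ (ψ ε)) x) =
        fun x => u x * (Δ φ) x - u x * (Δ (fun x => φ x * χ ε x)) x := by
      ext x
      rw [← mul_sub]
      congr 1
      exact hφ.contDiffAt.laplacian_sub hm.contDiffAt
    rw [e1]
    refine ⟨h1.neg, ?_⟩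
    rw [integral_neg, ← h2, e2, integral_sub (integrable_lap hu hφ hc)
      (integrable_lap hu hm hc.mul_right)]
    ring
  have hlim : Tendsto (fun ε : ℝ => ∫ x, f x * ψ ε x) (𝓝[>] 0) (𝓝 (-∫ x, u x * (Δ φ) x)) := by
    have := (tendsto_const_nhds (x := -∫ x, u x * (Δ φ) x)).add (tendsto_core hn hu hφ hc)
    rw [add_zero] at this
    refine this.congr' ?_
    filter_upwards [self_mem_nhdsWithin] with ε hε using (key ε hε).2.symm
  have hlim' : Tendsto (fun ε : ℝ => ∫⁻ x, ENNReal.ofReal (f x * ψ ε x)) (𝓝[>] 0)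
      (𝓝 (ENNReal.ofReal (-∫ x, u x * (Δ φ) x))) := by
    refine (ENNReal.tendsto_ofReal hlim).congr' ?_
    filter_upwards [self_mem_nhdsWithin] with ε hε
    exact ofReal_integral_eq_lintegral_ofReal (key ε hε).1
      (Eventually.of_forall fun x => mul_nonneg (hf0 x) (hψ0 ε x))
  refine ⟨ge_of_tendsto' hlim fun ε => integral_nonneg fun x => mul_nonneg (hf0 x) (hψ0 ε x),
    le_antisymm ?_ (le_of_tendsto' hlim' fun ε => lintegral_mono fun x =>
      ENNReal.ofReal_le_ofReal (mul_le_mul_of_nonneg_left (hψ1 ε x) (hf0 x)))⟩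
  rw [← hlim'.liminf_eq]
  refine le_trans (le_of_eq (lintegral_congr_ae ?_)) (lintegral_liminf_le
    fun ε => (hf.mul (hψ ε).continuous.measurable).ennreal_ofReal)
  have : Nontrivial (EuclideanSpace ℝ (Fin n)) := by
    have : Nonempty (Fin n) := ⟨⟨0, by omega⟩⟩
    infer_instance
  filter_upwards [(Set.finite_singleton (0 : EuclideanSpace ℝ (Fin n))).countable.ae_notMem volume]
    with x hx
  have hx0 : 0 < ‖x‖ := norm_pos_iff.mpr hx
  refine (Tendsto.liminf_eq (tendsto_const_nhds.congr' ?_)).symm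
  filter_upwards [Ioo_mem_nhdsGT (half_pos hx0)] with ε hε
  simp only [ψ, χ_zero hε.1 (show 2 * ε ≤ ‖x‖ by linarith [hε.2]), mul_zero, sub_zero]

end Crest.Agent.R77
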