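import Crest.Agent.R77.KernelAux

/-! Row 77: the Newtonian kernel on the cylinder. -/

set_option autoImplicit false
open MeasureTheory Set Filter Topology
open scoped ENNReal RealInnerProductSpace

namespace Crest.Agent.R77

namespace KerAux

section General
variable {S : Type} [MeasurableSpace S] {σ : Measure S} [SFinite σ] {K : ℝ → S → S → ℝ≥0∞}

theorem first_gen (hm : Measurable fun z : ℝ × S × S => K z.1 z.2.1 z.2.2) {h : ℝ}
    (H : ∀ a b, ∫⁻ t, (K t a b - K (t + h) a b) ≤ ENNReal.ofReal |h| * K 0 a b) :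
    ∫⁻ z : ℝ × S × S, (K z.1 z.2.1 z.2.2 - K (z.1 + h) z.2.1 z.2.2)
      ∂((volume : Measure ℝ).prod (σ.prod σ)) ≤
      ENNReal.ofReal |h| * ∫⁻ a, ∫⁻ b, K 0 a b ∂σ ∂σ := by
  have h1 : ∀ g : ℝ → ℝ, Measurable g →
      Measurable fun z : ℝ × S × S => K (g z.1) z.2.1 z.2.2 := fun g hg =>
    hm.comp ((hg.comp measurable_fst).prodMk measurable_snd)
  have h0 : Measurable fun z : S × S => K 0 z.1 z.2 := hm.comp measurable_prodMk_left
  have hG : Measurable fun z : ℝ × S × S => K z.1 z.2.1 z.2.2 - K (z.1 + h) z.2.1 z.2.2 :=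
    hm.sub (h1 _ (measurable_add_const h))
  rw [lintegral_prod_symm' _ hG, ← lintegral_prod _ h0.aemeasurable, ← lintegral_const_mul _ h0]
  exact lintegral_mono fun z => H _ _

theorem second_gen (hm : Measurable fun z : ℝ × S × S => K z.1 z.2.1 z.2.2)
    (hs : ∫⁻ a, ∫⁻ b, K 0 a b ∂σ ∂σ ≠ ⊤)
    (H1 : ∀ a b h, 0 < h → (ENNReal.ofReal h)⁻¹ *
      ∫⁻ t, (2 * K t a b - (K (t + h) a b + K (t - h) a b)) ≤ 2 * K 0 a b)
    (H2 : ∀ a b, K 0 a b < ⊤ → Tendsto (fun h => (ENNReal.ofReal h)⁻¹ *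
      ∫⁻ t, (2 * K t a b - (K (t + h) a b + K (t - h) a b))) (𝓝[>] 0) (𝓝 0))
    {ε : ℝ} (hε : 0 < ε) :
    ∀ᶠ h in 𝓝[>] (0 : ℝ), ∫⁻ z : ℝ × S × S, (2 * K z.1 z.2.1 z.2.2 -
      (K (z.1 + h) z.2.1 z.2.2 + K (z.1 - h) z.2.1 z.2.2))
      ∂((volume : Measure ℝ).prod (σ.prod σ)) ≤ ENNReal.ofReal (ε * h) := by
  have h1 : ∀ g : ℝ → ℝ, Measurable g →
      Measurable fun z : ℝ × S × S => K (g z.1) z.2.1 z.2.2 := fun g hg =>
    hm.comp ((hg.comp measurable_fst).prodMk measurable_snd)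
  have h0 : Measurable fun z : S × S => K 0 z.1 z.2 := hm.comp measurable_prodMk_left
  have hG : ∀ h : ℝ, Measurable fun z : ℝ × S × S => 2 * K z.1 z.2.1 z.2.2 -
      (K (z.1 + h) z.2.1 z.2.2 + K (z.1 - h) z.2.1 z.2.2) := fun h =>
    (hm.const_mul 2).sub
      ((h1 _ (measurable_add_const h)).add (h1 _ (measurable_sub_const h)))
  have hG' : ∀ h : ℝ, Measurable fun z : S × S =>
      ∫⁻ t, (2 * K t z.1 z.2 - (K (t + h) z.1 z.2 + K (t - h) z.1 z.2)) := fun h =>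
    (hG h).lintegral_prod_left'
  rw [← lintegral_prod _ h0.aemeasurable] at hs
  have key := tendsto_lintegral_filter_of_dominated_convergence (μ := σ.prod σ)
    (l := 𝓝[>] (0 : ℝ))
    (F := fun h z => (ENNReal.ofReal h)⁻¹ *
      ∫⁻ t, (2 * K t z.1 z.2 - (K (t + h) z.1 z.2 + K (t - h) z.1 z.2)))
    (f := fun _ => 0) (fun z => 2 * K 0 z.1 z.2)
    (Eventually.of_forall fun h => (hG' h).const_mul _)
    (by
      filter_upwards [self_mem_nhdsWithin] with h hh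
      exact ae_of_all _ fun z => H1 _ _ h hh)
    (by
      rw [lintegral_const_mul _ h0]
      exact ENNReal.mul_ne_top ENNReal.ofNat_ne_top hs)
    (by
      filter_upwards [ae_lt_top h0 hs] with z hz
      exact H2 _ _ hz)
  rw [lintegral_zero] at key
  filter_upwards [key.eventually (ge_mem_nhds (ENNReal.ofReal_pos.2 hε)), self_mem_nhdsWithin]
    with h h2 hh
  have hh : 0 < h := hh
  rw [lintegral_const_mul _ (hG' h)] at h2
  rw [lintegral_prod_symm' _ (hG h), mul_comm ε h, ENNReal.ofReal_mul hh.le]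
  refine le_trans (le_of_eq ?_) (mul_le_mul_right h2 (ENNReal.ofReal h))
  rw [← mul_assoc, ENNReal.mul_inv_cancel (by simpa using hh) ENNReal.ofReal_ne_top, one_mul]

end General

section Sphere
variable {n : ℕ}

local notation "𝔼" => EuclideanSpace ℝ (Fin n)

theorem toSphere_singleton (hn : 2 ≤ n) (a : Metric.sphere (0 : 𝔼) 1) :
    (volume : Measure 𝔼).toSphere {a} = 0 := by
  rw [Measure.toSphere_apply' _ (measurableSet_singleton a)]
  refine mul_eq_zero_of_right _ (measure_mono_null (t := (Submodule.span ℝ {(a : 𝔼)} : Set 𝔼)) ?_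
    (Measure.addHaar_submodule _ _ fun h => ?_))
  · rintro _ ⟨r, -, _, ⟨x, rfl, rfl⟩, rfl⟩
    exact Submodule.smul_mem _ _ (Submodule.mem_span_singleton_self _)
  · have h1 := finrank_span_le_card (R := ℝ) ({(a : 𝔼)} : Set 𝔼)
    rw [h, finrank_top, finrank_euclideanSpace, Fintype.card_fin] at h1
    simp at h1
    omega

/-- The truncated singular weight `|x|^(1 - n)`. -/
noncomputable def G (n : ℕ) (x : EuclideanSpace ℝ (Fin n)) : ℝ≥0∞ :=
  (Metric.ball (0 : EuclideanSpace ℝ (Fin n)) 3).indicator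
    (fun x => ENNReal.ofReal (‖x‖ ^ (-((n : ℝ) - 1)))) x

theorem measurable_G : Measurable (G n) := by
  unfold G
  exact Measurable.indicator (by fun_prop) measurableSet_ball

theorem lintegral_G_ne_top (hn : 1 ≤ n) : ∫⁻ x, G n x ≠ ⊤ := by
  unfold G
  rw [lintegral_indicator measurableSet_ball]
  have h := integrableOn_ball_of_norm_le_rpow (E := 𝔼) (μ := volume)
    (f := fun x : 𝔼 => ‖x‖ ^ (-((n : ℝ) - 1))) (C := 1) (α := (n : ℝ) - 1) (r := 3)
    (by simpa using hn) (by simp)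
    (ae_of_all _ fun x => by
      rw [one_mul, Real.norm_of_nonneg (by positivity)])
    (Measurable.aestronglyMeasurable (by fun_prop))
  exact h.lintegral_lt_top.ne

theorem w_zero (a b : Metric.sphere (0 : 𝔼) 1) : w ⟪(a : 𝔼), b⟫ 0 = ‖(b : 𝔼) - a‖ ^ 2 := by
  rw [norm_sub_sq_real, norm_eq_of_mem_sphere a, norm_eq_of_mem_sphere b, w, Real.cosh_zero,
    real_inner_comm]
  ring

theorem inner_lower (hn : 3 ≤ n) (a b : Metric.sphere (0 : 𝔼) 1) (hab : b ≠ a) :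
    ENNReal.ofReal (Real.exp (-(n : ℝ)) * 2 ^ (-((n : ℝ) - 1)) / 4) *
        ph (((n : ℝ) - 2) / 2) ⟪(a : 𝔼), b⟫ 0 ≤
      ∫⁻ t, wt 1 n t * G n (Real.exp t • (b : 𝔼) - (a : 𝔼)) := by
  set d := ‖(b : 𝔼) - a‖ with hd
  have hd0 : 0 < d := norm_pos_iff.2 (sub_ne_zero.2 fun h => hab (Subtype.ext h))
  have ha : ‖(a : 𝔼)‖ = 1 := norm_eq_of_mem_sphere a
  have hb : ‖(b : 𝔼)‖ = 1 := norm_eq_of_mem_sphere b
  have hd2 : d ≤ 2 := (norm_sub_le _ _).trans (by rw [ha, hb]; norm_num)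
  have hn' : (3 : ℝ) ≤ n := by exact_mod_cast hn
  have hw : 0 < w ⟪(a : 𝔼), b⟫ 0 := by rw [w_zero]; positivity
  have hlow : ∀ t ∈ Icc (-(d / 4)) 0,
      ENNReal.ofReal (Real.exp (-(n : ℝ)) * (2 * d) ^ (-((n : ℝ) - 1))) ≤
        wt 1 n t * G n (Real.exp t • (b : 𝔼) - (a : 𝔼)) := by
    intro t ht
    have h1 : 1 - d / 4 ≤ Real.exp t := by linarith [Real.add_one_le_exp t, ht.1]
    have h2 : Real.exp t ≤ 1 := Real.exp_le_one_iff.2 ht.2
    have h3 : ‖(Real.exp t • (b : 𝔼) - (a : 𝔼)) - ((b : 𝔼) - a)‖ ≤ d / 4 := by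
      have : (Real.exp t • (b : 𝔼) - (a : 𝔼)) - ((b : 𝔼) - a) = (Real.exp t - 1) • (b : 𝔼) := by
        rw [sub_smul, one_smul]; abel
      rw [this, norm_smul, hb, mul_one, Real.norm_eq_abs, abs_le]
      constructor <;> linarith
    have h4 := abs_le.1 ((abs_norm_sub_norm_le _ _).trans h3)
    rw [← hd] at h4
    have h5 : Real.exp t • (b : 𝔼) - (a : 𝔼) ∈ Metric.ball (0 : 𝔼) 3 := by
      rw [mem_ball_zero_iff]; linarith [h4.2]
    rw [G, indicator_of_mem h5, wt, ← ENNReal.ofReal_mul (by positivity), one_mul]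
    refine ENNReal.ofReal_le_ofReal (mul_le_mul (Real.exp_le_exp.2 ?_) ?_ (by positivity)
      (by positivity))
    · nlinarith [ht.1]
    · exact Real.rpow_le_rpow_of_nonpos (by linarith [h4.1]) (by linarith [h4.2]) (by linarith)
  calc _ = ENNReal.ofReal (Real.exp (-(n : ℝ)) * (2 * d) ^ (-((n : ℝ) - 1))) *
        ENNReal.ofReal (d / 4) := by
        rw [ph_eq hw, w_zero, ← hd, ← ENNReal.ofReal_mul (by positivity),
          ← ENNReal.ofReal_mul (by positivity), Real.mul_rpow (by norm_num) hd0.le,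
          ← Real.rpow_natCast, ← Real.rpow_mul hd0.le]
        have e : d ^ (((2 : ℕ) : ℝ) * -(((n : ℝ) - 2) / 2)) = d ^ (-((n : ℝ) - 1)) * d := by
          rw [← Real.rpow_add_one hd0.ne']; congr 1; push_cast; ring
        rw [e]; congr 1; ring
    _ = ∫⁻ _ in Icc (-(d / 4)) 0,
          ENNReal.ofReal (Real.exp (-(n : ℝ)) * (2 * d) ^ (-((n : ℝ) - 1))) := by
        rw [setLIntegral_const, Real.volume_Icc]; congr 2; ring
    _ ≤ ∫⁻ t in Icc (-(d / 4)) 0, wt 1 n t * G n (Real.exp t • (b : 𝔼) - (a : 𝔼)) :=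
        setLIntegral_mono' measurableSet_Icc hlow
    _ ≤ _ := setLIntegral_le_lintegral _ _

theorem slice (hn : 3 ≤ n) :
    ∫⁻ a, ∫⁻ b, ph (((n : ℝ) - 2) / 2) ⟪((a : Metric.sphere (0 : 𝔼) 1) : 𝔼),
      ((b : Metric.sphere (0 : 𝔼) 1) : 𝔼)⟫ 0
      ∂(volume : Measure 𝔼).toSphere ∂(volume : Measure 𝔼).toSphere ≠ ⊤ := by
  set κ := ENNReal.ofReal (Real.exp (-(n : ℝ)) * 2 ^ (-((n : ℝ) - 1)) / 4) with hκ
  have hκ0 : κ ≠ 0 := (ENNReal.ofReal_pos.2 (by positivity)).ne'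
  have h1 : ∀ a : Metric.sphere (0 : 𝔼) 1,
      ∫⁻ b : Metric.sphere (0 : 𝔼) 1, ph (((n : ℝ) - 2) / 2) ⟪(a : 𝔼), (b : 𝔼)⟫ 0
        ∂(volume : Measure 𝔼).toSphere ≤ κ⁻¹ * ∫⁻ x, G n x := by
    intro a
    have hF : Measurable fun x : 𝔼 => G n (x - a) := measurable_G.comp (measurable_sub_const _)
    have hm : Measurable fun y : ℝ × Metric.sphere (0 : 𝔼) 1 =>
        wt 1 n y.1 * G n (Real.exp y.1 • (y.2 : 𝔼) - (a : 𝔼)) :=
      (measurable_wt _ _ measurable_fst).mul (hF.comp (by fun_prop))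
    have hm0 : Measurable fun b : Metric.sphere (0 : 𝔼) 1 =>
        ph (((n : ℝ) - 2) / 2) ⟪(a : 𝔼), (b : 𝔼)⟫ 0 := by unfold ph w; fun_prop
    rw [← lintegral_sub_right_eq_self (G n) (a : 𝔼), lintegral_polar (by omega) hF, vol,
      lintegral_prod_symm' _ hm, ← ENNReal.mul_le_iff_le_inv hκ0 ENNReal.ofReal_ne_top,
      ← lintegral_const_mul _ hm0]
    refine lintegral_mono_ae ?_
    have : ∀ᵐ b ∂(volume : Measure 𝔼).toSphere, b ≠ a := by
      rw [ae_iff]; simpa using toSphere_singleton (by omega) a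
    filter_upwards [this] with b hb
    exact inner_lower hn a b hb
  refine ne_top_of_le_ne_top ?_ (lintegral_mono h1)
  rw [lintegral_const]
  exact ENNReal.mul_ne_top (ENNReal.mul_ne_top (ENNReal.inv_ne_top.2 hκ0)
    (lintegral_G_ne_top (by omega))) (measure_ne_top _ _)

end Sphere

end KerAux

open KerAux in
theorem ker_sph {n : ℕ} (hn : 3 ≤ n) : ∃ C : ℝ,
    Ker (volume : Measure (EuclideanSpace ℝ (Fin n))).toSphere (((n : ℝ) - 2) / 2) C
      ((n : ℝ) - 2) (Ksph n) := by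
  have hn' : (3 : ℝ) ≤ n := by exact_mod_cast hn
  have hs := slice hn
  set k : ℝ := ((n : ℝ) - 2) / 2 with hk'
  have hk : 0 < k := by rw [hk']; linarith
  have hK : ∀ τ a b, Ksph n τ a b = ph k ⟪(a : EuclideanSpace ℝ (Fin n)), b⟫ τ := fun _ _ _ => rfl
  have hc : ∀ a b : Metric.sphere (0 : EuclideanSpace ℝ (Fin n)) 1,
      |⟪(a : EuclideanSpace ℝ (Fin n)), b⟫| ≤ 1 := fun a b => by
    have := abs_real_inner_le_norm (a : EuclideanSpace ℝ (Fin n)) b
    rwa [norm_eq_of_mem_sphere a, norm_eq_of_mem_sphere b, one_mul] at this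
  have hc1 := fun a b => (abs_le.1 (hc a b)).1
  have hc2 := fun a b => (abs_le.1 (hc a b)).2
  have hm : Measurable fun z : ℝ × Metric.sphere (0 : EuclideanSpace ℝ (Fin n)) 1 ×
      Metric.sphere (0 : EuclideanSpace ℝ (Fin n)) 1 => Ksph n z.1 z.2.1 z.2.2 := by
    unfold Ksph; fun_prop
  simp only [← hK] at hs
  obtain ⟨s, hs0, hs'⟩ : ∃ s : ℝ, 0 ≤ s ∧ _ = ENNReal.ofReal s :=
    ⟨_, ENNReal.toReal_nonneg, (ENNReal.ofReal_toReal hs).symm⟩
  have h4 : (0 : ℝ) < 4 ^ k := by positivity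
  refine ⟨4 ^ k + 2 * k + s, hk, by positivity, by linarith, hm, ?_, ?_, ?_, ?_, ?_, hs, ?_, ?_⟩
  · intro τ a b; rw [hK, hK, real_inner_comm]
  · intro τ τ' a b h; rw [hK, hK]; exact ph_anti hk.le h
  · intro τ a b
    rw [hK]
    refine le_trans (wt_le_wt ?_ (by positivity) le_rfl) (ph_lower hk.le (hc1 a b))
    exact inv_anti₀ h4 (by linarith)
  · intro δ τ a b h0 h1 hδ
    rw [hK]
    refine (ph_upper hk.le (hc2 a b) h0 h1 hδ).trans (wt_le_wt ?_ (by positivity) le_rfl)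
    rw [show (n : ℝ) - 2 = 2 * k by rw [hk']; ring]
    exact mul_le_mul_of_nonneg_right (by linarith) (by positivity)
  · intro τ h a b hτ hh
    rw [hK, hK]
    refine (ph_lip hk.le (hc2 a b) hτ hh).trans (add_le_add_right (mul_le_mul_left
      (ENNReal.ofReal_le_ofReal ?_) _) _)
    gcongr
    linarith
  · intro h
    refine (first_gen hm fun a b => ?_).trans ?_
    · simp only [hK]; exact ph_first hk (hc2 a b) h
    rw [hs', ← ENNReal.ofReal_mul (abs_nonneg h)]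
    refine ENNReal.ofReal_le_ofReal ?_
    nlinarith [abs_nonneg h]
  · intro ε hε
    refine second_gen hm hs (fun a b h hh => ?_) (fun a b hab => ?_) hε
    · simp only [hK]; exact ph_second_le hk (hc2 a b) hh
    · simp only [hK] at hab ⊢
      refine ph_second hk ((hc2 a b).lt_of_ne fun h => ?_)
      rw [h] at hab
      simp [ph, w, hk] at hab

end Crest.Agent.R77
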