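import Crest.Agent.R77.Polar

/-! Row 77: one-dimensional facts on the profile `(2 cosh t - 2 c) ^ (-k)`. -/

set_option autoImplicit false
open MeasureTheory Set Filter Topology
open scoped ENNReal

namespace Crest.Agent.R77.KerAux

/-- The base `2 cosh t - 2 c`. -/
noncomputable def w (c t : ℝ) : ℝ := 2 * Real.cosh t - 2 * c

/-- The profile. -/
noncomputable def ph (k c t : ℝ) : ℝ≥0∞ := ENNReal.ofReal (w c t) ^ (-k)

variable {k c t s : ℝ}

theorem rpow_neg_anti {x y : ℝ≥0∞} (hk : 0 ≤ k) (h : x ≤ y) : y ^ (-k) ≤ x ^ (-k) := by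
  rw [ENNReal.rpow_neg, ENNReal.rpow_neg]
  exact ENNReal.inv_le_inv.2 (ENNReal.rpow_le_rpow h hk)

theorem ph_anti (hk : 0 ≤ k) (h : |t| ≤ |s|) : ph k c s ≤ ph k c t :=
  rpow_neg_anti hk (ENNReal.ofReal_le_ofReal (by
    unfold w; have := Real.cosh_le_cosh.2 h; linarith))

theorem ph_eq (hw : 0 < w c t) : ph k c t = ENNReal.ofReal (w c t ^ (-k)) :=
  ENNReal.ofReal_rpow_of_pos hw

theorem measurable_ph (k : ℝ) : Measurable fun z : ℝ × ℝ => ph k z.1 z.2 := by
  unfold ph w
  fun_prop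

theorem two_cosh (t : ℝ) : 2 * Real.cosh t = Real.exp |t| + Real.exp (-|t|) := by
  rw [← Real.cosh_abs, Real.cosh_eq]; ring

theorem wt_eq {A : ℝ} (hA : 0 < A) (k t : ℝ) :
    ENNReal.ofReal (A * Real.exp t) ^ (-k) = wt (A ^ (-k)) (-k) t := by
  rw [ENNReal.ofReal_rpow_of_pos (by positivity), wt, Real.mul_rpow hA.le (Real.exp_pos _).le,
    ← Real.exp_mul, mul_comm t]

theorem ph_lower (hk : 0 ≤ k) (hc : -1 ≤ c) : wt ((4 : ℝ) ^ k)⁻¹ (-k) |t| ≤ ph k c t := by
  rw [← Real.rpow_neg (by norm_num), ← wt_eq (by norm_num)]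
  refine rpow_neg_anti hk (ENNReal.ofReal_le_ofReal ?_)
  have h1 : Real.exp (-|t|) ≤ Real.exp |t| := Real.exp_le_exp.2 (by linarith [abs_nonneg t])
  have h2 : 1 ≤ Real.exp |t| := Real.one_le_exp (abs_nonneg t)
  unfold w; rw [two_cosh]; linarith

theorem ph_upper {δ : ℝ} (hk : 0 ≤ k) (hc : c ≤ 1) (h0 : 0 < δ) (h1 : δ ≤ 1) (hδ : δ ≤ |t|) :
    ph k c t ≤ wt ((4 : ℝ) ^ k * δ ^ (-(2 * k))) (-k) |t| := by
  have e1 : (4 : ℝ) ^ k * δ ^ (-(2 * k)) = (δ ^ 2 / 4) ^ (-k) := by
    rw [Real.div_rpow (by positivity) (by norm_num), Real.rpow_neg (by norm_num : (0 : ℝ) ≤ 4),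
      div_inv_eq_mul, mul_comm, ← Real.rpow_natCast, ← Real.rpow_mul h0.le]
    congr 2; push_cast; ring
  rw [e1, ← wt_eq (by positivity)]
  refine rpow_neg_anti hk (ENNReal.ofReal_le_ofReal ?_)
  have h2 : Real.exp (-|t|) ≤ Real.exp (-δ) := Real.exp_le_exp.2 (by linarith)
  have h3 : Real.exp (-δ) ≤ 1 - δ / 2 := by
    have h4 : 1 + δ ≤ Real.exp δ := by linarith [Real.add_one_le_exp δ]
    rw [Real.exp_neg, inv_le_comm₀ (Real.exp_pos _) (by linarith)]
    refine le_trans ?_ h4
    rw [inv_le_comm₀ (by linarith) (by linarith), inv_eq_one_div, div_le_iff₀ (by linarith)]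
    nlinarith
  have h5 : Real.exp |t| * Real.exp (-|t|) = 1 := by rw [← Real.exp_add]; simp
  have h6 : δ / 2 ≤ 1 - Real.exp (-|t|) := by linarith
  have h7 : (δ / 2) ^ 2 ≤ (1 - Real.exp (-|t|)) ^ 2 := by gcongr
  have h8 : 0 < Real.exp |t| := Real.exp_pos _
  unfold w; rw [two_cosh]
  nlinarith [mul_le_mul_of_nonneg_left h7 h8.le]

/-- From a bound on `log w` to a bound on `w ^ (-k)`. -/
theorem rpow_le_of_log {x y z : ℝ} (hk : 0 ≤ k) (hx : 0 < x) (hy : 0 < y)
    (h : Real.log y - Real.log x ≤ z) : x ^ (-k) ≤ y ^ (-k) + k * z * x ^ (-k) := by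
  rw [Real.rpow_def_of_pos hx, Real.rpow_def_of_pos hy]
  have h1 : Real.exp (Real.log x * -k) * Real.exp (-(k * z)) ≤ Real.exp (Real.log y * -k) := by
    rw [← Real.exp_add]; refine Real.exp_le_exp.2 ?_; nlinarith
  have h2 : 1 - k * z ≤ Real.exp (-(k * z)) := by linarith [Real.add_one_le_exp (-(k * z))]
  have h3 := Real.exp_pos (Real.log x * -k)
  nlinarith [mul_le_mul_of_nonneg_left h2 h3.le]

theorem hasDerivAt_w (c t : ℝ) : HasDerivAt (w c) (2 * Real.sinh t) t := by
  have := ((Real.hasDerivAt_cosh t).const_mul 2).sub_const (2 * c)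
  exact this

theorem hasDerivAt_logw (hw : 0 < w c t) :
    HasDerivAt (fun t => Real.log (w c t)) (2 * Real.sinh t / w c t) t :=
  (hasDerivAt_w c t).log hw.ne'

theorem w_pos_of_ne (hc : c ≤ 1) (ht : t ≠ 0) : 0 < w c t := by
  have := Real.one_lt_cosh.2 ht
  unfold w; linarith

theorem w_pos_of_lt (hc : c < 1) (t : ℝ) : 0 < w c t := by
  have := Real.one_le_cosh t
  unfold w; linarith

theorem logderiv_le (hc : c ≤ 1) (ht : 0 < t) : 2 * Real.sinh t / w c t ≤ 1 + 2 * t⁻¹ := by
  rw [div_le_iff₀ (w_pos_of_ne hc ht.ne')]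
  have h1 : t * (2 * Real.sinh t) ≤ (t + 2) * (2 * Real.cosh t - 2) := by
    rw [Real.sinh_eq, Real.cosh_eq]
    have hu : t + 1 ≤ Real.exp t := Real.add_one_le_exp t
    have huv : Real.exp t * Real.exp (-t) = 1 := by rw [← Real.exp_add]; simp
    have hv : 0 < Real.exp (-t) := Real.exp_pos _
    set u := Real.exp t
    set v := Real.exp (-t)
    have key : 0 ≤ v * ((u - 1) * (u - 1 - t)) :=
      mul_nonneg hv.le (mul_nonneg (by linarith) (by linarith))
    have : (t + 2) * (2 * ((u + v) / 2) - 2) - t * (2 * ((u - v) / 2)) =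
        2 * (v * ((u - 1) * (u - 1 - t))) := by
      have e : v * ((u - 1) * (u - 1 - t)) = (u * v) * (u - 2 - t) + v * (1 + t) := by ring
      rw [e, huv]; ring
    linarith
  have h2 : 2 * Real.cosh t - 2 ≤ w c t := by unfold w; linarith
  have h3 : (1 + 2 * t⁻¹) = (t + 2) / t := by field_simp
  rw [h3, div_mul_eq_mul_div, le_div_iff₀ ht]
  nlinarith [mul_le_mul_of_nonneg_left h2 (by linarith : 0 ≤ t + 2)]

theorem ph_lip {τ h : ℝ} (hk : 0 ≤ k) (hc : c ≤ 1) (hτ : 0 < τ) (hh : 0 ≤ h) :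
    ph k c τ ≤ ph k c (τ + h) + ENNReal.ofReal (h * (2 * k * (1 + τ⁻¹))) * ph k c τ := by
  have hw : ∀ x ∈ Ici τ, 0 < w c x := fun x hx => w_pos_of_ne hc (hτ.trans_le hx).ne'
  have hlog := (convex_Ici τ).image_sub_le_mul_sub_of_deriv_le (f := fun t => Real.log (w c t))
    (fun x hx => (hasDerivAt_logw (hw x hx)).continuousAt.continuousWithinAt)
    (fun x hx => (hasDerivAt_logw (hw x (interior_subset hx))).differentiableAt
      |>.differentiableWithinAt) (C := 1 + 2 * τ⁻¹)
    (fun x hx => by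
      have hx' : τ ≤ x := interior_subset hx
      rw [(hasDerivAt_logw (hw x hx')).deriv]
      refine (logderiv_le hc (hτ.trans_le hx')).trans ?_
      gcongr) τ self_mem_Ici (τ + h) (by simp [hh]) (by linarith)
  have h1 := hw τ self_mem_Ici
  have h2 := hw (τ + h) (by simp [hh])
  have h3 := rpow_le_of_log hk h1 h2 hlog
  have h4 : 0 ≤ w c τ ^ (-k) := by positivity
  have h5 : 0 < τ⁻¹ := by positivity
  rw [ph_eq h1, ph_eq h2, ← ENNReal.ofReal_mul (by positivity),
    ← ENNReal.ofReal_add (by positivity) (by positivity)]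
  refine ENNReal.ofReal_le_ofReal (h3.trans ?_)
  refine add_le_add_right (mul_le_mul_of_nonneg_right ?_ h4) _
  nlinarith [mul_nonneg hk hh]

/-! ### The case `c < 1` -/

theorem w_ge (c t : ℝ) : 2 * (1 - max c 0) * Real.cosh t ≤ w c t := by
  have h1 := Real.one_le_cosh t
  have h2 : c ≤ max c 0 := le_max_left _ _
  have h3 : 0 ≤ max c 0 := le_max_right _ _
  unfold w; nlinarith

theorem one_sub_max_pos (hc : c < 1) : 0 < 1 - max c 0 := by
  have := max_lt hc one_pos; linarith

theorem abs_logderiv_le (hc : c < 1) (t : ℝ) :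
    |2 * Real.sinh t / w c t| ≤ (1 - max c 0)⁻¹ := by
  have h0 := one_sub_max_pos hc
  have hw := w_pos_of_lt hc t
  have h1 : |Real.sinh t| ≤ Real.cosh t := by
    rw [Real.abs_sinh, ← Real.cosh_abs]; exact (Real.sinh_lt_cosh _).le
  rw [abs_div, abs_of_pos hw, div_le_iff₀ hw, abs_mul, abs_two, inv_mul_eq_div, le_div_iff₀ h0]
  nlinarith [w_ge c t]

theorem real_lip (hk : 0 ≤ k) (hc : c < 1) (t s : ℝ) :
    w c t ^ (-k) ≤ w c s ^ (-k) + k * ((1 - max c 0)⁻¹ * |s - t|) * w c t ^ (-k) := by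
  refine rpow_le_of_log hk (w_pos_of_lt hc t) (w_pos_of_lt hc s) ((le_abs_self _).trans ?_)
  have := Convex.norm_image_sub_le_of_norm_deriv_le (f := fun t => Real.log (w c t))
    (s := univ) (C := (1 - max c 0)⁻¹)
    (fun x _ => (hasDerivAt_logw (w_pos_of_lt hc x)).differentiableAt)
    (fun x _ => by
      rw [(hasDerivAt_logw (w_pos_of_lt hc x)).deriv]; exact abs_logderiv_le hc x)
    convex_univ (mem_univ t) (mem_univ s)
  simpa only [Real.norm_eq_abs] using this

theorem integrable_exp_neg_abs (hk : 0 < k) : Integrable fun t : ℝ => Real.exp (-k * |t|) := by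
  rw [← integrableOn_univ, ← Iic_union_Ioi (a := 0)]
  refine IntegrableOn.union ?_ ?_
  · refine (integrableOn_exp_mul_Iic hk 0).congr_fun (fun x hx => ?_) measurableSet_Iic
    have : x ≤ 0 := hx
    simp only [abs_of_nonpos this]; congr 1; ring
  · refine (integrableOn_exp_mul_Ioi (a := -k) (by linarith) 0).congr_fun (fun x hx => ?_)
      measurableSet_Ioi
    have : 0 < x := hx
    simp only [abs_of_pos this]

theorem lintegral_ph_ne_top (hk : 0 < k) (hc : c < 1) : ∫⁻ t, ph k c t ≠ ⊤ := by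
  have h0 := one_sub_max_pos hc
  have h1 : ∀ t, ph k c t ≤ ENNReal.ofReal ((1 - max c 0) ^ (-k) * Real.exp (-k * |t|)) := by
    intro t
    have := wt_eq h0 k |t|
    rw [wt] at this
    rw [← this]
    refine rpow_neg_anti hk.le (ENNReal.ofReal_le_ofReal (le_trans ?_ (w_ge c t)))
    have h2 := two_cosh t
    have h3 := Real.exp_pos (-|t|)
    nlinarith
  refine ne_top_of_le_ne_top ?_ (lintegral_mono h1)
  exact ((integrable_exp_neg_abs hk).const_mul _).lintegral_lt_top.ne

/-! ### First differences of even unimodal functions -/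

theorem first_pos {φ : ℝ → ℝ≥0∞} (hφ : Measurable φ) (hanti : ∀ t s, |t| ≤ |s| → φ s ≤ φ t)
    (hfin : ∫⁻ t, φ t ≠ ⊤) {h : ℝ} (hh : 0 ≤ h) :
    ∫⁻ t, (φ t - φ (t + h)) ≤ ENNReal.ofReal h * φ 0 := by
  have hm : Measurable fun t => φ (t + h) := hφ.comp (measurable_add_const h)
  have e1 : ∫⁻ t, (φ t - φ (t + h)) = ∫⁻ t in Ioi (-h / 2), (φ t - φ (t + h)) := by
    rw [← lintegral_indicator measurableSet_Ioi]
    refine lintegral_congr fun t => ?_
    by_cases ht : t ∈ Ioi (-h / 2)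
    · rw [indicator_of_mem ht]
    · rw [indicator_of_notMem ht, tsub_eq_zero_iff_le]
      have : t ≤ -h / 2 := not_lt.1 ht
      refine hanti _ _ ?_
      rw [abs_of_nonpos (by linarith : t ≤ 0), abs_le]; constructor <;> linarith
  have e2 : ∫⁻ t in Ioi (-h / 2), φ (t + h) = ∫⁻ t in Ioi (h / 2), φ t := by
    have := (measurePreserving_add_right (volume : Measure ℝ) h).setLIntegral_comp_preimage
      (s := Ioi (h / 2)) measurableSet_Ioi hφ
    rw [← this]
    congr 2
    ext t; simp only [mem_Ioi, mem_preimage]; constructor <;> intro _ <;> linarith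
  have hf2 : ∫⁻ t in Ioi (h / 2), φ t ≠ ⊤ := ne_top_of_le_ne_top hfin (setLIntegral_le_lintegral _ _)
  have e3 : ∫⁻ t in Ioi (-h / 2), φ t =
      (∫⁻ t in Ioc (-h / 2) (h / 2), φ t) + ∫⁻ t in Ioi (h / 2), φ t := by
    rw [← lintegral_union measurableSet_Ioi Ioc_disjoint_Ioi_same,
      Ioc_union_Ioi_eq_Ioi (by linarith)]
  rw [e1, lintegral_sub hm (by rw [e2]; exact hf2), e2, e3, ENNReal.add_sub_cancel_right hf2]
  · calc ∫⁻ t in Ioc (-h / 2) (h / 2), φ t ≤ ∫⁻ _ in Ioc (-h / 2) (h / 2), φ 0 :=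
          lintegral_mono fun t => hanti _ _ (by simp)
      _ = ENNReal.ofReal h * φ 0 := by
          rw [setLIntegral_const, Real.volume_Ioc, mul_comm]; congr 2; ring
  · refine (ae_restrict_iff' measurableSet_Ioi).2 (ae_of_all _ fun t ht => hanti _ _ ?_)
    have : -h / 2 < t := ht
    rw [abs_of_nonneg (by linarith : 0 ≤ t + h), abs_le]; constructor <;> linarith

theorem first_abs {φ : ℝ → ℝ≥0∞} (hφ : Measurable φ) (hanti : ∀ t s, |t| ≤ |s| → φ s ≤ φ t)
    (hfin : ∫⁻ t, φ t ≠ ⊤) (h : ℝ) :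
    ∫⁻ t, (φ t - φ (t + h)) ≤ ENNReal.ofReal |h| * φ 0 := by
  rcases le_total 0 h with hh | hh
  · rw [abs_of_nonneg hh]; exact first_pos hφ hanti hfin hh
  · have heven : ∀ t, φ (-t) = φ t := fun t =>
      le_antisymm (hanti _ _ (by simp)) (hanti _ _ (by simp))
    rw [abs_of_nonpos hh, ← lintegral_neg_eq_self]
    refine le_trans (le_of_eq (lintegral_congr fun t => ?_)) (first_pos hφ hanti hfin (by linarith))
    rw [heven, ← heven (-t + h)]; congr 2; ring

theorem measurable_ph' (k c : ℝ) : Measurable (ph k c) := by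
  unfold ph w
  fun_prop

theorem ph_first (hk : 0 < k) (hc : c ≤ 1) (h : ℝ) :
    ∫⁻ t, (ph k c t - ph k c (t + h)) ≤ ENNReal.ofReal |h| * ph k c 0 := by
  rcases hc.lt_or_eq with hc | rfl
  · exact first_abs (measurable_ph' k c) (fun _ _ => ph_anti hk.le) (lintegral_ph_ne_top hk hc) h
  · by_cases hh : h = 0
    · simp [hh]
    · have : ph k 1 0 = ⊤ := by
        simp [ph, w, hk]
      rw [this, ENNReal.mul_top (by simpa using hh)]
      exact le_top

theorem ph_second_le (hk : 0 < k) (hc : c ≤ 1) {h : ℝ} (hh : 0 < h) :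
    (ENNReal.ofReal h)⁻¹ * ∫⁻ t, (2 * ph k c t - (ph k c (t + h) + ph k c (t - h))) ≤
      2 * ph k c 0 := by
  have hm := measurable_ph' k c
  have h1 : ∫⁻ t, (2 * ph k c t - (ph k c (t + h) + ph k c (t - h))) ≤
      ENNReal.ofReal h * (2 * ph k c 0) := by
    calc _ ≤ ∫⁻ t, ((ph k c t - ph k c (t + h)) + (ph k c t - ph k c (t + -h))) :=
          lintegral_mono fun t => by
            rw [two_mul, sub_eq_add_neg t h]; exact add_tsub_add_le_tsub_add_tsub
      _ = _ := lintegral_add_left (hm.sub (hm.comp (measurable_add_const h))) _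
      _ ≤ ENNReal.ofReal |h| * ph k c 0 + ENNReal.ofReal |-h| * ph k c 0 :=
          add_le_add (ph_first hk hc h) (ph_first hk hc (-h))
      _ = _ := by rw [abs_neg, abs_of_pos hh]; ring
  refine (mul_le_mul_right h1 _).trans ?_
  rw [← mul_assoc, ENNReal.inv_mul_cancel (by simpa using hh) ENNReal.ofReal_ne_top, one_mul]

theorem ph_second (hk : 0 < k) (hc : c < 1) :
    Tendsto (fun h => (ENNReal.ofReal h)⁻¹ *
      ∫⁻ t, (2 * ph k c t - (ph k c (t + h) + ph k c (t - h)))) (𝓝[>] 0) (𝓝 0) := by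
  have hm := measurable_ph' k c
  have hw := w_pos_of_lt hc
  have h0 := one_sub_max_pos hc
  set M := (1 - max c 0)⁻¹ with hM
  have hMpos : 0 < M := inv_pos.2 h0
  let f : ℝ → ℝ := fun t => w c t ^ (-k)
  have hf0 : ∀ t, 0 ≤ f t := fun t => Real.rpow_nonneg (hw t).le _
  have hG : ∀ h : ℝ, 0 < h → ∀ t,
      (ENNReal.ofReal h)⁻¹ * (2 * ph k c t - (ph k c (t + h) + ph k c (t - h))) =
        ENNReal.ofReal (h⁻¹ * (2 * f t - (f (t + h) + f (t - h)))) := by
    intro h hh t
    rw [ph_eq (hw _), ph_eq (hw _), ph_eq (hw _), ENNReal.ofReal_mul (by positivity),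
      ENNReal.ofReal_inv_of_pos hh, ENNReal.ofReal_sub _ (add_nonneg (hf0 _) (hf0 _)),
      ENNReal.ofReal_add (hf0 _) (hf0 _), ENNReal.ofReal_mul (by norm_num), ENNReal.ofReal_ofNat]
  have hmeas : ∀ h : ℝ, Measurable fun t => 2 * ph k c t - (ph k c (t + h) + ph k c (t - h)) :=
    fun h => (hm.const_mul 2).sub ((hm.comp (measurable_add_const h)).add
      (hm.comp (measurable_sub_const h)))
  have key := tendsto_lintegral_filter_of_dominated_convergence (μ := (volume : Measure ℝ))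
    (l := 𝓝[>] (0 : ℝ))
    (F := fun h t => (ENNReal.ofReal h)⁻¹ * (2 * ph k c t - (ph k c (t + h) + ph k c (t - h))))
    (f := fun _ => 0) (fun t => ENNReal.ofReal (2 * k * M) * ph k c t)
    (Eventually.of_forall fun h => (hmeas h).const_mul _)
    (by
      filter_upwards [self_mem_nhdsWithin] with h hh
      have hh : 0 < h := hh
      refine ae_of_all _ fun t => ?_
      rw [hG h hh, ph_eq (hw _), ← ENNReal.ofReal_mul (by positivity)]
      refine ENNReal.ofReal_le_ofReal ?_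
      have h1 := real_lip hk.le hc t (t + h)
      have h2 := real_lip hk.le hc t (t - h)
      rw [add_sub_cancel_left, abs_of_pos hh] at h1
      rw [sub_sub_cancel_left, abs_neg, abs_of_pos hh] at h2
      rw [inv_mul_le_iff₀ hh]
      change 2 * w c t ^ (-k) - (w c (t + h) ^ (-k) + w c (t - h) ^ (-k)) ≤ _
      nlinarith)
    (by
      rw [lintegral_const_mul _ hm]
      exact ENNReal.mul_ne_top ENNReal.ofReal_ne_top (lintegral_ph_ne_top hk hc))
    (ae_of_all _ fun t => by
      have hd : DifferentiableAt ℝ f t :=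
        (hasDerivAt_w c t).differentiableAt.rpow_const (Or.inl (hw t).ne')
      have hd1 : HasDerivAt (fun h => f (t + h)) (deriv f t) 0 := by
        have := HasDerivAt.comp_const_add t 0 (f := f) (f' := deriv f t)
          (by simpa using hd.hasDerivAt)
        exact this
      have hd2 : HasDerivAt (fun h => f (t - h)) (-deriv f t) 0 := by
        have := HasDerivAt.comp_const_sub t 0 (f := f) (f' := deriv f t)
          (by simpa using hd.hasDerivAt)
        exact this
      have hd3 : HasDerivAt (fun h => 2 * f t - (f (t + h) + f (t - h))) 0 0 := by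
        have := (hd1.add hd2).const_sub (2 * f t)
        simpa using this
      have h4 := hd3.tendsto_slope_zero_right
      have h5 := (ENNReal.continuous_ofReal.tendsto 0).comp h4
      rw [ENNReal.ofReal_zero] at h5
      refine h5.congr' ?_
      filter_upwards [self_mem_nhdsWithin] with h hh
      rw [hG h hh]
      simp only [Function.comp, zero_add, add_zero, sub_zero, smul_eq_mul]
      congr 2; ring)
  rw [lintegral_zero] at key
  refine key.congr fun h => ?_
  exact lintegral_const_mul _ (hmeas h)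

end Crest.Agent.R77.KerAux
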