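import Crest.Agent.R77.Basic

/-! Row 77: minimal solutions are stable. -/

set_option autoImplicit false
open MeasureTheory Set Filter Topology
open scoped ENNReal

namespace Crest.Agent.R77

namespace MinAux

theorem iSup_rpow {u : ℕ → ℝ≥0∞} (hu : Monotone u) {p : ℝ} (hp : 0 < p) :
    (⨆ j, u j) ^ p = ⨆ j, u j ^ p :=
  tendsto_nhds_unique
    ((ENNReal.continuous_rpow_const.tendsto _).comp (tendsto_atTop_iSup hu))
    (tendsto_atTop_iSup fun _ _ h => ENNReal.rpow_le_rpow (hu h) hp.le)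

theorem point_ineq {a c l A η : ℝ≥0∞} (ha : a ≠ ⊤) (hc : c ≤ a) (hl : l ≠ ⊤) (hA : A ≤ η)
    (hη : η ≤ 1) :
    2 * l * (A * c) + a * min η (l * c / a) ^ 2 ≤ 2 * l * (min η (l * c / a) * c) + a * A ^ 2 := by
  rcases eq_or_ne a 0 with rfl | h0
  · rw [nonpos_iff_eq_zero.1 hc]
    simp
  lift a to NNReal using ha
  lift c to NNReal using ne_top_of_le_ne_top ENNReal.coe_ne_top hc
  lift l to NNReal using hl
  lift η to NNReal using ne_top_of_le_ne_top ENNReal.one_ne_top hη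
  lift A to NNReal using ne_top_of_le_ne_top ENNReal.coe_ne_top hA
  have h0' : a ≠ 0 := by simpa using h0
  rw [← ENNReal.coe_mul l c, ← ENNReal.coe_div h0', ← ENNReal.coe_min]
  norm_cast at hA ⊢
  set s : NNReal := l * c / a with hs
  have e : (l : ℝ) * c = s * a := by
    rw [hs]
    push_cast
    field_simp
  have hA' : (A : ℝ) ≤ η := hA
  have ha0 : (0 : ℝ) ≤ a := a.2
  rw [← NNReal.coe_le_coe]
  rcases le_total η s with h | h
  · rw [min_eq_left h]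
    have h' : (η : ℝ) ≤ s := h
    push_cast
    have h1 : (0 : ℝ) ≤ a * ((η - A) * (2 * s - A - η)) :=
      mul_nonneg ha0 (mul_nonneg (by linarith) (by linarith))
    have e1 : (2 : ℝ) * l * (A * c) = 2 * A * (s * a) := by rw [← e]; ring
    have e2 : (2 : ℝ) * l * (η * c) = 2 * η * (s * a) := by rw [← e]; ring
    rw [e1, e2]
    nlinarith
  · rw [min_eq_right h]
    push_cast
    have h1 : (0 : ℝ) ≤ a * (A - s) ^ 2 := mul_nonneg ha0 (sq_nonneg _)
    have e1 : (2 : ℝ) * l * (A * c) = 2 * A * (s * a) := by rw [← e]; ring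
    have e2 : (2 : ℝ) * l * (s * c) = 2 * s * (s * a) := by rw [← e]; ring
    rw [e1, e2]
    nlinarith

theorem exists_eps {p p' : ℝ} (hp' : 0 < p') (hpp : p' < p) :
    ∃ ε : ℝ, 0 < ε ∧ ∀ τ : ℝ, 0 ≤ τ → τ ≤ ε → ∀ B : ℝ≥0∞, B ≤ 1 →
      (1 - ENNReal.ofReal τ * B) ^ p + ENNReal.ofReal (p' * τ) * B ≤ 1 := by
  have hp : 0 < p := hp'.trans hpp
  refine ⟨min 1 ((p - p') / p ^ 2), lt_min one_pos (div_pos (by linarith) (by positivity)),
    fun τ h0 hτ B hB => ?_⟩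
  obtain ⟨y, hy0, rfl⟩ : ∃ y : ℝ, 0 ≤ y ∧ B = ENNReal.ofReal y :=
    ⟨B.toReal, ENNReal.toReal_nonneg,
      (ENNReal.ofReal_toReal (ne_top_of_le_ne_top ENNReal.one_ne_top hB)).symm⟩
  have hy1 : y ≤ 1 := ENNReal.ofReal_le_one.1 hB
  have hz0 : 0 ≤ τ * y := mul_nonneg h0 hy0
  have hzτ : τ * y ≤ τ := mul_le_of_le_one_right h0 hy1
  have hz1 : τ * y ≤ 1 := hzτ.trans (hτ.trans (min_le_left _ _))
  have hz2 : τ * y * p ^ 2 ≤ p - p' :=
    (le_div_iff₀ (by positivity)).1 (hzτ.trans (hτ.trans (min_le_right _ _)))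
  rw [← ENNReal.ofReal_mul h0, ← ENNReal.ofReal_mul (by positivity), ← ENNReal.ofReal_one,
    ← ENNReal.ofReal_sub _ hz0, ENNReal.ofReal_rpow_of_nonneg (by linarith) hp.le,
    ← ENNReal.ofReal_add (Real.rpow_nonneg (by linarith) _) (by positivity)]
  refine ENNReal.ofReal_le_ofReal ?_
  rw [mul_assoc]
  set z := τ * y
  have h1 : (1 - z) ^ p ≤ Real.exp (-z) ^ p :=
    Real.rpow_le_rpow (by linarith) (by linarith [Real.add_one_le_exp (-z)]) hp.le
  rw [← Real.exp_mul] at h1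
  have h2 : z * p ≤ 1 := by
    have : z * p * p ≤ 1 * p := by nlinarith
    exact le_of_mul_le_mul_right this hp
  have h3 := Real.abs_exp_sub_one_sub_id_le (x := -z * p) (by
    rw [abs_le]; constructor <;> nlinarith [mul_nonneg hz0 hp.le])
  have h4 := (abs_le.1 h3).2
  nlinarith [mul_le_mul_of_nonneg_left hz2 hz0]

variable {X : Type} [MeasurableSpace X] (m : Measure X) [SFinite m] {G : X → X → ℝ≥0∞}

omit [SFinite m] in
theorem tendsto_wt {W : X → ℝ≥0∞} (hW : Measurable W) (hfin : ∫⁻ x, W x ∂m ≠ ⊤)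
    {B : ℕ → X → ℝ≥0∞} (hB : ∀ j, Measurable (B j)) (h1 : ∀ j x, B j x ≤ 1) {B' : X → ℝ≥0∞}
    (hlim : ∀ x, Tendsto (fun j => B j x) atTop (𝓝 (B' x))) :
    Tendsto (fun j => ∫⁻ x, W x * B j x ∂m) atTop (𝓝 (∫⁻ x, W x * B' x ∂m)) := by
  refine tendsto_lintegral_of_dominated_convergence W (fun j => hW.mul (hB j))
    (fun j => Eventually.of_forall fun x => mul_le_of_le_one_right' (h1 j x)) hfin ?_
  filter_upwards [ae_lt_top hW hfin] with x hx
  exact ENNReal.Tendsto.const_mul (hlim x) (Or.inr hx.ne)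

/-- the potential of `f B` -/
noncomputable def T (G : X → X → ℝ≥0∞) (f B : X → ℝ≥0∞) (x : X) : ℝ≥0∞ :=
  ∫⁻ y, G x y * (f y * B y) ∂m

theorem measurable_pot (hG : Measurable fun z : X × X => G z.1 z.2) {f : X → ℝ≥0∞}
    (hf : Measurable f) : Measurable fun x => ∫⁻ y, G x y * f y ∂m :=
  Measurable.lintegral_prod_right' (f := fun z : X × X => G z.1 z.2 * f z.2)
    (hG.mul (hf.comp measurable_snd))

theorem measurable_T (hG : Measurable fun z : X × X => G z.1 z.2) {f B : X → ℝ≥0∞}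
    (hf : Measurable f) (hB : Measurable B) : Measurable (T m G f B) :=
  measurable_pot m hG (hf.mul hB)

omit [SFinite m] in
theorem T_mono (f : X → ℝ≥0∞) {B B' : X → ℝ≥0∞} (h : ∀ x, B x ≤ B' x) (x : X) :
    T m G f B x ≤ T m G f B' x :=
  lintegral_mono fun y => mul_le_mul_right (mul_le_mul_right (h y) _) _

omit [SFinite m] in
theorem T_le {f a B : X → ℝ≥0∞} (hT : ∀ x, ∫⁻ y, G x y * f y ∂m ≤ a x) (h : ∀ x, B x ≤ 1) (x : X) :
    T m G f B x ≤ a x :=
  (lintegral_mono fun y => mul_le_mul_right (mul_le_of_le_one_right' (h y)) _).trans (hT x)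

omit [SFinite m] in
theorem tendsto_T (hG : Measurable fun z : X × X => G z.1 z.2) {f a : X → ℝ≥0∞}
    (hf : Measurable f) (hT : ∀ x, ∫⁻ y, G x y * f y ∂m ≤ a x) (hat : ∀ x, a x ≠ ⊤)
    {B : ℕ → X → ℝ≥0∞} (hB : ∀ j, Measurable (B j)) (h1 : ∀ j x, B j x ≤ 1) {B' : X → ℝ≥0∞}
    (hlim : ∀ x, Tendsto (fun j => B j x) atTop (𝓝 (B' x))) (x : X) :
    Tendsto (fun j => T m G f (B j) x) atTop (𝓝 (T m G f B' x)) := by
  have hGx : Measurable (G x) := hG.comp measurable_prodMk_left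
  simpa only [T, mul_assoc] using tendsto_wt m (hGx.fun_mul hf)
    (ne_top_of_le_ne_top (hat x) (hT x)) hB h1 hlim

/-- the bilinear interaction -/
noncomputable def Pi (G : X → X → ℝ≥0∞) (g f A B : X → ℝ≥0∞) : ℝ≥0∞ :=
  ∫⁻ x, g x * (A x * T m G f B x) ∂m

theorem Pi_eq (hG : Measurable fun z : X × X => G z.1 z.2) {g f A B : X → ℝ≥0∞}
    (hf : Measurable f) (hB : Measurable B) :
    Pi m G g f A B = ∫⁻ x, ∫⁻ y, g x * A x * G x y * (f y * B y) ∂m ∂m := by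
  refine lintegral_congr fun x => ?_
  have hGx : Measurable (G x) := hG.comp measurable_prodMk_left
  rw [← mul_assoc, T, ← lintegral_const_mul _ (hGx.fun_mul (hf.fun_mul hB))]
  simp only [mul_assoc]

theorem Pi_symm (hG : Measurable fun z : X × X => G z.1 z.2) (hsymm : ∀ x y, G x y = G y x)
    {g f A B : X → ℝ≥0∞} (hg : Measurable g) (hf : Measurable f) (hA : Measurable A)
    (hB : Measurable B) : Pi m G g f A B = Pi m G f g B A := by
  rw [Pi_eq m hG hf hB, Pi_eq m hG hg hA, lintegral_lintegral_swap]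
  · refine lintegral_congr fun x => lintegral_congr fun y => ?_
    rw [hsymm x y]
    ring
  · exact ((((hg.mul hA).comp measurable_fst).mul hG).mul
      ((hf.mul hB).comp measurable_snd)).aemeasurable

omit [SFinite m] in
theorem Pi_le {g f a A B : X → ℝ≥0∞} (hT : ∀ x, ∫⁻ y, G x y * f y ∂m ≤ a x) (h : ∀ x, B x ≤ 1) :
    Pi m G g f A B ≤ ∫⁻ x, g x * a x * A x ∂m := by
  refine lintegral_mono fun x => ?_
  rw [mul_assoc, mul_comm (a x)]
  exact mul_le_mul_right (mul_le_mul_right (T_le m hT h x) _) _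

/-- the best response -/
noncomputable def F (G : X → X → ℝ≥0∞) (f a η : X → ℝ≥0∞) (l : ℝ≥0∞) (B : X → ℝ≥0∞) (x : X) :
    ℝ≥0∞ := min (η x) (l * T m G f B x / a x)

theorem measurable_F (hG : Measurable fun z : X × X => G z.1 z.2) {f a η B : X → ℝ≥0∞}
    (hf : Measurable f) (ha : Measurable a) (hη : Measurable η) (l : ℝ≥0∞) (hB : Measurable B) :
    Measurable (F m G f a η l B) :=
  hη.min (((measurable_T m hG hf hB).const_mul l).div ha)

omit [SFinite m] in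
theorem F_mono (f a η : X → ℝ≥0∞) (l : ℝ≥0∞) {B B' : X → ℝ≥0∞} (h : ∀ x, B x ≤ B' x) (x : X) :
    F m G f a η l B x ≤ F m G f a η l B' x :=
  min_le_min le_rfl (ENNReal.div_le_div_right (mul_le_mul_right (T_mono m f h x) _) _)

omit [SFinite m] in
theorem mul_F_le (f a η : X → ℝ≥0∞) (l : ℝ≥0∞) (B : X → ℝ≥0∞) (x : X) :
    a x * F m G f a η l B x ≤ l * T m G f B x :=
  (mul_le_mul_right (min_le_right _ _) _).trans ENNReal.mul_div_le

theorem half_step (hG : Measurable fun z : X × X => G z.1 z.2) {g f a η A B : X → ℝ≥0∞}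
    (hg : Measurable g) (hf : Measurable f) (ha : Measurable a) (hη : Measurable η)
    (hA : Measurable A) (hB : Measurable B) (hT : ∀ x, ∫⁻ y, G x y * f y ∂m ≤ a x)
    (hat : ∀ x, a x ≠ ⊤) {l : ℝ≥0∞} (hl : l ≠ ⊤) (hη1 : ∀ x, η x ≤ 1) (hAη : ∀ x, A x ≤ η x)
    (hB1 : ∀ x, B x ≤ 1) :
    2 * l * Pi m G g f A B + ∫⁻ x, g x * a x * F m G f a η l B x ^ 2 ∂m ≤
      2 * l * Pi m G g f (F m G f a η l B) B + ∫⁻ x, g x * a x * A x ^ 2 ∂m := by
  have hTB := measurable_T m hG hf hB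
  have hF := measurable_F m hG hf ha hη l hB
  rw [Pi, Pi, ← lintegral_const_mul _ (hg.fun_mul (hA.fun_mul hTB)),
    ← lintegral_const_mul _ (hg.fun_mul (hF.fun_mul hTB)),
    ← lintegral_add_left ((hg.fun_mul (hA.fun_mul hTB)).const_mul _),
    ← lintegral_add_left ((hg.fun_mul (hF.fun_mul hTB)).const_mul _)]
  refine lintegral_mono fun x => ?_
  have h := mul_le_mul_right (point_ineq (hat x) (T_le m hT hB1 x) hl (hAη x) (hη1 x)) (g x)
  calc _ = g x * (2 * l * (A x * T m G f B x) + a x * F m G f a η l B x ^ 2) := by ring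
    _ ≤ g x * (2 * l * (F m G f a η l B x * T m G f B x) + a x * A x ^ 2) := h
    _ = _ := by ring

theorem core (hG : Measurable fun z : X × X => G z.1 z.2) (hsymm : ∀ x y, G x y = G y x)
    {f g a b η : X → ℝ≥0∞} (hf : Measurable f) (hg : Measurable g) (ha : Measurable a)
    (hb : Measurable b) (hη : Measurable η) (hη1 : ∀ x, η x ≤ 1)
    (hTa : ∀ x, ∫⁻ y, G x y * f y ∂m ≤ a x) (hTb : ∀ x, ∫⁻ y, G x y * g y ∂m ≤ b x)
    (hat : ∀ x, a x ≠ ⊤) (hbt : ∀ x, b x ≠ ⊤) (hEa : ∫⁻ x, g x * a x ∂m ≠ ⊤)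
    (hEb : ∫⁻ x, f x * b x ∂m ≠ ⊤) {l : ℝ≥0∞} (hl : l ≠ ⊤)
    (hz : ∀ A B : X → ℝ≥0∞, Measurable A → Measurable B → (∀ x, A x ≤ 1) → (∀ x, B x ≤ 1) →
      (∀ x, a x * A x ≤ l * T m G f B x) → (∀ x, b x * B x ≤ l * T m G g A x) →
      ∀ x, a x * A x = 0) :
    2 * l * Pi m G g f η η ≤ (∫⁻ x, g x * a x * η x ^ 2 ∂m) + ∫⁻ x, f x * b x * η x ^ 2 ∂m := by
  let B : ℕ → X → ℝ≥0∞ := fun j => Nat.rec η (fun _ B => F m G g b η l (F m G f a η l B)) j
  let A : ℕ → X → ℝ≥0∞ := fun j => F m G f a η l (B j)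
  have hBs : ∀ j, B (j + 1) = F m G g b η l (A j) := fun _ => rfl
  have hBm : ∀ j, Measurable (B j) := by
    intro j
    induction j with
    | zero => exact hη
    | succ j ih => exact measurable_F m hG hg hb hη l (measurable_F m hG hf ha hη l ih)
  have hAm : ∀ j, Measurable (A j) := fun j => measurable_F m hG hf ha hη l (hBm j)
  have hBη : ∀ j x, B j x ≤ η x := by
    rintro (_ | j) x
    · exact le_rfl
    · exact min_le_left _ _
  have hAη : ∀ j x, A j x ≤ η x := fun j x => min_le_left _ _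
  have hB1 : ∀ j x, B j x ≤ 1 := fun j x => (hBη j x).trans (hη1 x)
  have hA1 : ∀ j x, A j x ≤ 1 := fun j x => (hAη j x).trans (hη1 x)
  have hBd : ∀ j x, B (j + 1) x ≤ B j x := by
    intro j
    induction j with
    | zero => exact hBη 1
    | succ j ih => exact F_mono m g b η l (F_mono m f a η l ih)
  have hBa : ∀ x, Antitone fun j => B j x := fun x => antitone_nat_of_succ_le fun j => hBd j x
  have hAa : ∀ x, Antitone fun j => A j x := fun x => antitone_nat_of_succ_le fun j =>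
    F_mono m f a η l (hBd j) x
  have hBl := fun x => tendsto_atTop_iInf (hBa x)
  have hAl := fun x => tendsto_atTop_iInf (hAa x)
  have h0 := hz (fun x => ⨅ j, A j x) (fun x => ⨅ j, B j x) (Measurable.iInf hAm)
    (Measurable.iInf hBm) (fun x => (iInf_le _ 0).trans (hA1 0 x))
    (fun x => (iInf_le _ 0).trans (hB1 0 x))
    (fun x => ge_of_tendsto' (ENNReal.Tendsto.const_mul
      (tendsto_T m hG hf hTa hat hBm hB1 hBl x) (Or.inr hl)) fun j =>
        (mul_le_mul_right (iInf_le _ j) _).trans (mul_F_le m f a η l (B j) x))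
    (fun x => ge_of_tendsto' (ENNReal.Tendsto.const_mul
      (tendsto_T m hG hg hTb hbt hAm hA1 hAl x) (Or.inr hl)) fun j =>
        (mul_le_mul_right (iInf_le _ (j + 1)) _).trans (mul_F_le m g b η l (A j) x))
  have hlim := tendsto_wt m (hg.fun_mul ha) hEa hAm hA1 hAl
  simp only [mul_assoc, h0, mul_zero, lintegral_zero] at hlim
  -- finiteness
  have hfa : ∀ A : X → ℝ≥0∞, (∀ x, A x ≤ 1) → ∫⁻ x, g x * a x * A x ^ 2 ∂m ≠ ⊤ := fun A hA =>
    ne_top_of_le_ne_top hEa (lintegral_mono fun x =>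
      mul_le_of_le_one_right' (pow_le_one₀ (zero_le) (hA x)))
  have hfb : ∀ A : X → ℝ≥0∞, (∀ x, A x ≤ 1) → ∫⁻ x, f x * b x * A x ^ 2 ∂m ≠ ⊤ := fun A hA =>
    ne_top_of_le_ne_top hEb (lintegral_mono fun x =>
      mul_le_of_le_one_right' (pow_le_one₀ (zero_le) (hA x)))
  have key : ∀ j, 2 * l * Pi m G g f η η + (∫⁻ x, g x * a x * A j x ^ 2 ∂m) +
      ∫⁻ x, f x * b x * B j x ^ 2 ∂m ≤ 2 * l * Pi m G g f (A j) (B j) +
      (∫⁻ x, g x * a x * η x ^ 2 ∂m) + ∫⁻ x, f x * b x * η x ^ 2 ∂m := by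
    intro j
    induction j with
    | zero =>
      exact add_le_add_left
        (half_step m hG hg hf ha hη hη hη hTa hat hl hη1 (fun _ => le_rfl) hη1) _
    | succ j ih =>
      have s1 := half_step m hG hf hg hb hη (hBm j) (hAm j) hTb hbt hl hη1 (hBη j) (hA1 j)
      rw [← hBs, ← Pi_symm m hG hsymm hg hf (hAm j) (hBm j),
        ← Pi_symm m hG hsymm hg hf (hAm j) (hBm (j + 1))] at s1
      have s2 := half_step m hG hg hf ha hη (hAm j) (hBm (j + 1)) hTa hat hl hη1 (hAη j)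
        (hB1 (j + 1))
      change _ + ∫⁻ x, g x * a x * A (j + 1) x ^ 2 ∂m ≤
        2 * l * Pi m G g f (A (j + 1)) (B (j + 1)) + _ at s2
      have f1 := hfa _ (hA1 j)
      have f2 := hfb _ (hB1 j)
      generalize 2 * l * Pi m G g f η η = P0 at *
      generalize 2 * l * Pi m G g f (A j) (B j) = P1 at *
      generalize 2 * l * Pi m G g f (A j) (B (j + 1)) = P2 at *
      generalize 2 * l * Pi m G g f (A (j + 1)) (B (j + 1)) = P3 at *
      generalize ∫⁻ x, g x * a x * A j x ^ 2 ∂m = M1 at *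
      generalize ∫⁻ x, g x * a x * A (j + 1) x ^ 2 ∂m = M2 at *
      generalize ∫⁻ x, f x * b x * B j x ^ 2 ∂m = N1 at *
      generalize ∫⁻ x, f x * b x * B (j + 1) x ^ 2 ∂m = N2 at *
      generalize ∫⁻ x, g x * a x * η x ^ 2 ∂m = M0 at *
      generalize ∫⁻ x, f x * b x * η x ^ 2 ∂m = N0 at *
      refine (ENNReal.add_le_add_iff_right (ENNReal.add_ne_top.2 ⟨f1, f2⟩)).1 ?_
      calc P0 + M2 + N2 + (M1 + N1) = (P0 + M1 + N1) + (M2 + N2) := by ring
        _ ≤ (P1 + M0 + N0) + (M2 + N2) := add_le_add_left ih _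
        _ = (P1 + N2) + (M0 + N0 + M2) := by ring
        _ ≤ (P2 + N1) + (M0 + N0 + M2) := add_le_add_left s1 _
        _ = (P2 + M2) + (M0 + N0 + N1) := by ring
        _ ≤ (P3 + M1) + (M0 + N0 + N1) := add_le_add_left s2 _
        _ = _ := by ring
  have hl2 : 2 * l ≠ ⊤ := ENNReal.mul_ne_top ENNReal.ofNat_ne_top hl
  have hlim2 := ((ENNReal.Tendsto.const_mul hlim (Or.inr hl2)).add_const
    (∫⁻ x, g x * a x * η x ^ 2 ∂m)).add_const (∫⁻ x, f x * b x * η x ^ 2 ∂m)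
  rw [mul_zero, zero_add] at hlim2
  refine ge_of_tendsto' hlim2 fun j => ?_
  refine (le_self_add.trans le_self_add).trans ((key j).trans ?_)
  gcongr
  simpa only [mul_assoc] using Pi_le m hTa (hB1 j)

omit [SFinite m] in
theorem super (hG : Measurable fun z : X × X => G z.1 z.2) {h w a b A B : X → ℝ≥0∞}
    (hw : Measurable w) (hb : Measurable b) (hB : Measurable B) {p : ℝ} (hp : 0 < p)
    (hea : ∀ x, a x = h x + ∫⁻ y, G x y * (w y * b y ^ p) ∂m) (hat : ∀ x, a x ≠ ⊤)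
    (hA1 : ∀ x, A x ≤ 1) {s t c l : ℝ≥0∞} (hs : s ≠ ⊤) (hc : s * l = c)
    (hB' : ∀ x, (1 - t * B x) ^ p + c * B x ≤ 1)
    (hA : ∀ x, a x * A x ≤ l * T m G (fun y => w y * b y ^ p) B x) (x : X) :
    h x + ∫⁻ y, G x y * (w y * (b y * (1 - t * B y)) ^ p) ∂m ≤ a x * (1 - s * A x) := by
  have hGx : Measurable (G x) := hG.comp measurable_prodMk_left
  rw [ENNReal.mul_sub (fun _ _ => hat x), mul_one]
  refine ENNReal.le_sub_of_add_le_right (ENNReal.mul_ne_top (hat x) (ENNReal.mul_ne_top hs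
    (ne_top_of_le_ne_top ENNReal.one_ne_top (hA1 x)))) ?_
  have h1 : a x * (s * A x) ≤ c * T m G (fun y => w y * b y ^ p) B x := by
    rw [mul_left_comm, ← hc, mul_assoc]
    exact mul_le_mul_right (hA x) _
  refine (add_le_add_right h1 _).trans ?_
  rw [hea x, add_assoc, T, ← lintegral_const_mul _ (by fun_prop), ← lintegral_add_left (by fun_prop)]
  refine add_le_add_right (lintegral_mono fun y => ?_) _
  rw [ENNReal.mul_rpow_of_nonneg _ _ hp.le]
  calc _ = G x y * (w y * b y ^ p) * ((1 - t * B y) ^ p + c * B y) := by ring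
    _ ≤ _ := mul_le_of_le_one_right' (hB' y)

end MinAux

open MinAux

section Abstract
variable {X : Type} [MeasurableSpace X] (m : Measure X) [SFinite m] {G : X → X → ℝ≥0∞}
  {h₁ h₂ w₁ w₂ : X → ℝ≥0∞} {p q : ℝ}

theorem MinAux.pot_iSup (hG : Measurable fun z : X × X => G z.1 z.2) {w : X → ℝ≥0∞}
    (hw : Measurable w) (hp : 0 < p) {b : ℕ → X → ℝ≥0∞} (hb : ∀ j, Measurable (b j))
    (hm : ∀ x, Monotone fun j => b j x) (x : X) :
    ∫⁻ y, G x y * (w y * (⨆ j, b j y) ^ p) ∂m = ⨆ j, ∫⁻ y, G x y * (w y * b j y ^ p) ∂m := by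
  have hGx : Measurable (G x) := hG.comp measurable_prodMk_left
  rw [← lintegral_iSup (fun j => hGx.fun_mul (hw.fun_mul ((hb j).pow_const p))) fun i j hij y =>
    mul_le_mul_right (mul_le_mul_right (ENNReal.rpow_le_rpow (hm y hij) hp.le) _) _]
  refine lintegral_congr fun y => ?_
  rw [iSup_rpow (hm y) hp, ENNReal.mul_iSup, ENNReal.mul_iSup]

omit [SFinite m] in
theorem MinAux.pot_mono (G : X → X → ℝ≥0∞) (h w : X → ℝ≥0∞) (hp : 0 < p) {b b' : X → ℝ≥0∞}
    (hb : ∀ x, b x ≤ b' x) (x : X) :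
    h x + ∫⁻ y, G x y * (w y * b y ^ p) ∂m ≤ h x + ∫⁻ y, G x y * (w y * b' y ^ p) ∂m :=
  add_le_add_right (lintegral_mono fun y =>
    mul_le_mul_right (mul_le_mul_right (ENNReal.rpow_le_rpow (hb y) hp.le) _) _) _

/-- Existence of the minimal solution. -/
theorem exists_minimal (hG : Measurable fun z : X × X => G z.1 z.2) (hh₁ : Measurable h₁)
    (hh₂ : Measurable h₂) (hw₁ : Measurable w₁) (hw₂ : Measurable w₂) (hp : 0 < p) (hq : 0 < q) :
    ∃ a b : X → ℝ≥0∞, Measurable a ∧ Measurable b ∧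
      (∀ x, a x = h₁ x + ∫⁻ y, G x y * (w₁ y * b y ^ p) ∂m) ∧
      (∀ x, b x = h₂ x + ∫⁻ y, G x y * (w₂ y * a y ^ q) ∂m) ∧
      ∀ a' b' : X → ℝ≥0∞, (∀ x, h₁ x + ∫⁻ y, G x y * (w₁ y * b' y ^ p) ∂m ≤ a' x) →
        (∀ x, h₂ x + ∫⁻ y, G x y * (w₂ y * a' y ^ q) ∂m ≤ b' x) →
        (∀ x, a x ≤ a' x) ∧ ∀ x, b x ≤ b' x := by
  let Φ : (X → ℝ≥0∞) → X → ℝ≥0∞ := fun b x => h₁ x + ∫⁻ y, G x y * (w₁ y * b y ^ p) ∂m
  let Ψ : (X → ℝ≥0∞) → X → ℝ≥0∞ := fun a x => h₂ x + ∫⁻ y, G x y * (w₂ y * a y ^ q) ∂m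
  have hΦ : ∀ b, Measurable b → Measurable (Φ b) := fun b hb =>
    hh₁.add (measurable_pot m hG (hw₁.mul (hb.pow_const p)))
  have hΨ : ∀ a, Measurable a → Measurable (Ψ a) := fun a ha =>
    hh₂.add (measurable_pot m hG (hw₂.mul (ha.pow_const q)))
  let B : ℕ → X → ℝ≥0∞ := fun j => Nat.rec (fun _ => 0) (fun _ B => Ψ (Φ B)) j
  have hBm : ∀ j, Measurable (B j) := by
    intro j
    induction j with
    | zero => exact measurable_const
    | succ j ih => exact hΨ _ (hΦ _ ih)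
  have hBs : ∀ j x, B j x ≤ B (j + 1) x := by
    intro j
    induction j with
    | zero => exact fun x => zero_le
    | succ j ih => exact pot_mono m G h₂ w₂ hq (pot_mono m G h₁ w₁ hp ih)
  have hBo : ∀ x, Monotone fun j => B j x := fun x => monotone_nat_of_le_succ fun j => hBs j x
  have hAo : ∀ x, Monotone fun j => Φ (B j) x := fun x => monotone_nat_of_le_succ fun j =>
    pot_mono m G h₁ w₁ hp (hBs j) x
  refine ⟨fun x => ⨆ j, Φ (B j) x, fun x => ⨆ j, B j x, Measurable.iSup fun j => hΦ _ (hBm j),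
    Measurable.iSup hBm, fun x => ?_, fun x => ?_, fun a' b' ha' hb' => ?_⟩
  · rw [pot_iSup m hG hw₁ hp hBm hBo, ENNReal.add_iSup]
  · rw [pot_iSup m hG hw₂ hq (fun j => hΦ _ (hBm j)) hAo, ENNReal.add_iSup]
    exact ((hBo x).iSup_nat_add 1).symm
  · have h1 : ∀ j x, B j x ≤ b' x := by
      intro j
      induction j with
      | zero => exact fun x => zero_le
      | succ j ih =>
        exact fun x => (pot_mono m G h₂ w₂ hq
          (fun y => (pot_mono m G h₁ w₁ hp ih y).trans (ha' y)) x).trans (hb' x)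
    exact ⟨fun x => iSup_le fun j => (pot_mono m G h₁ w₁ hp (h1 j) x).trans (ha' x),
      fun x => iSup_le fun j => h1 j x⟩

/-- A minimal solution of finite energy is stable. -/
theorem stable_of_minimal (hG : Measurable fun z : X × X => G z.1 z.2)
    (hsymm : ∀ x y, G x y = G y x) (hh₁ : Measurable h₁) (hh₂ : Measurable h₂)
    (hw₁ : Measurable w₁) (hw₂ : Measurable w₂) (hp : 0 < p) (hq : 0 < q)
    {a b : X → ℝ≥0∞} (ha : Measurable a) (hb : Measurable b)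
    (hea : ∀ x, a x = h₁ x + ∫⁻ y, G x y * (w₁ y * b y ^ p) ∂m)
    (heb : ∀ x, b x = h₂ x + ∫⁻ y, G x y * (w₂ y * a y ^ q) ∂m)
    (hmin : ∀ a' b' : X → ℝ≥0∞, (∀ x, h₁ x + ∫⁻ y, G x y * (w₁ y * b' y ^ p) ∂m ≤ a' x) →
        (∀ x, h₂ x + ∫⁻ y, G x y * (w₂ y * a' y ^ q) ∂m ≤ b' x) →
        (∀ x, a x ≤ a' x) ∧ ∀ x, b x ≤ b' x)
    (hat : ∀ x, a x ≠ ⊤) (hbt : ∀ x, b x ≠ ⊤)
    (hEa : ∫⁻ x, w₂ x * a x ^ q * a x ∂m ≠ ⊤) (hEb : ∫⁻ x, w₁ x * b x ^ p * b x ∂m ≠ ⊤)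
    {p' q' : ℝ} (hp' : 0 < p') (hpp : p' < p) (hq' : 0 < q') (hqq : q' < q)
    {η : X → ℝ≥0∞} (hη : Measurable η) (hη1 : ∀ x, η x ≤ 1) :
    2 * ENNReal.ofReal (√(p' * q')) *
        ∫⁻ x, ∫⁻ y, w₂ x * a x ^ q * η x * G x y * (w₁ y * b y ^ p * η y) ∂m ∂m ≤
      (∫⁻ x, w₂ x * a x ^ q * a x * η x ^ 2 ∂m) + ∫⁻ x, w₁ x * b x ^ p * b x * η x ^ 2 ∂m := by
  have _ := hh₁
  have _ := hh₂
  have hf : Measurable fun y => w₁ y * b y ^ p := hw₁.mul (hb.pow_const p)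
  have hg : Measurable fun y => w₂ y * a y ^ q := hw₂.mul (ha.pow_const q)
  rw [← Pi_eq m hG hf hη]
  refine core m hG hsymm hf hg ha hb hη hη1 (fun x => (hea x).symm ▸ le_add_self)
    (fun x => (heb x).symm ▸ le_add_self) hat hbt hEa hEb ENNReal.ofReal_ne_top
    fun A B hA hB hA1 hB1 hAB hBA x => ?_
  obtain ⟨ε₁, hε₁, H₁⟩ := exists_eps hp' hpp
  obtain ⟨ε₂, hε₂, H₂⟩ := exists_eps hq' hqq
  have sp := Real.sqrt_pos.2 hp'
  have sq := Real.sqrt_pos.2 hq'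
  set ε := min (ε₁ / √q') (ε₂ / √p') with hε
  have hε0 : 0 < ε := lt_min (by positivity) (by positivity)
  have hτ : ε * √q' ≤ ε₁ := (le_div_iff₀ sq).1 (min_le_left _ _)
  have hσ : ε * √p' ≤ ε₂ := (le_div_iff₀ sp).1 (min_le_right _ _)
  have e1 : ENNReal.ofReal (ε * √p') * ENNReal.ofReal (√(p' * q')) =
      ENNReal.ofReal (p' * (ε * √q')) := by
    rw [← ENNReal.ofReal_mul (by positivity), Real.sqrt_mul hp'.le]
    congr 1
    linear_combination (ε * √q') * Real.mul_self_sqrt hp'.le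
  have e2 : ENNReal.ofReal (ε * √q') * ENNReal.ofReal (√(p' * q')) =
      ENNReal.ofReal (q' * (ε * √p')) := by
    rw [← ENNReal.ofReal_mul (by positivity), Real.sqrt_mul hp'.le]
    congr 1
    linear_combination (ε * √p') * Real.mul_self_sqrt hq'.le
  have h1 := (hmin (fun x => a x * (1 - ENNReal.ofReal (ε * √p') * A x))
    (fun x => b x * (1 - ENNReal.ofReal (ε * √q') * B x))
    (super m hG hw₁ hb hB hp hea hat hA1 ENNReal.ofReal_ne_top e1
      (fun x => H₁ _ (by positivity) hτ _ (hB1 x)) hAB)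
    (super m hG hw₂ ha hA hq heb hbt hB1 ENNReal.ofReal_ne_top e2
      (fun x => H₂ _ (by positivity) hσ _ (hA1 x)) hBA)).1 x
  by_contra hne
  obtain ⟨ha0, hA0⟩ := mul_ne_zero_iff.1 hne
  rw [ENNReal.mul_sub (fun _ _ => hat x), mul_one] at h1
  exact absurd h1 (not_le.2 (ENNReal.sub_lt_self (hat x) ha0 (mul_ne_zero ha0
    (mul_ne_zero (ENNReal.ofReal_pos.2 (by positivity)).ne' hA0))))

end Abstract

variable {S : Type} [MeasurableSpace S] {σ : Measure S} [IsFiniteMeasure σ]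
  {K : ℝ → S → S → ℝ≥0∞} {k C N p q A₁ e₁ A₂ e₂ : ℝ} {U V a b : ℝ × S → ℝ≥0∞}

theorem measurable_fold (hK : Ker σ k C N K) {f : ℝ × S → ℝ≥0∞} (hf : Measurable f) :
    Measurable (fold σ K f) := by
  refine Measurable.indicator ?_ (measurableSet_st measurableSet_Ioi)
  exact Measurable.lintegral_prod_right'
    (f := fun z : (ℝ × S) × ℝ × S => K (z.1.1 + z.2.1) z.1.2 z.2.2 * (f z.2 + f (rf z.2)))
    ((hK.measurable (by fun_prop) (by fun_prop) (by fun_prop)).mul (by fun_prop))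

theorem fold_add (hK : Ker σ k C N K) {f : ℝ × S → ℝ≥0∞} (hf : Measurable f) {x : ℝ × S}
    (hx : 0 < x.1) : fold σ K f x + ∫⁻ y in st S (Ioi 0), Gk K x y * f y ∂vol σ =
      ∫⁻ y, K (x.1 - y.1) x.2 y.2 * f y ∂vol σ := by
  have h1 : Measurable fun y : ℝ × S => K (x.1 - y.1) x.2 y.2 :=
    hK.measurable (by fun_prop) (by fun_prop) (by fun_prop)
  have h2 : Measurable fun y : ℝ × S => K (x.1 + y.1) x.2 y.2 :=
    hK.measurable (by fun_prop) (by fun_prop) (by fun_prop)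
  rw [lintegral_halves (h1.fun_mul hf), fold, indicator_of_mem (show x ∈ st S (Ioi 0) from hx),
    ← lintegral_add_left (h2.fun_mul (by fun_prop)), ← lintegral_add_left (h1.fun_mul hf)]
  refine setLIntegral_congr_fun (measurableSet_st measurableSet_Ioi) fun y hy => ?_
  have e : K (x.1 - (rf y).1) x.2 (rf y).2 = K (x.1 + y.1) x.2 y.2 := by simp [rf]
  simp only [e, ← hK.Gk_add hx hy]
  ring

theorem fold_add_rf (hK : Ker σ k C N K) {f : ℝ × S → ℝ≥0∞} (hf : Measurable f) {x : ℝ × S}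
    (hx : 0 < x.1) : fold σ K f x + ∫⁻ y in st S (Ioi 0), Gk K x y * f (rf y) ∂vol σ =
      ∫⁻ y, K ((rf x).1 - y.1) (rf x).2 y.2 * f y ∂vol σ := by
  have h1 : Measurable fun y : ℝ × S => K ((rf x).1 - y.1) (rf x).2 y.2 :=
    hK.measurable (by fun_prop) (by fun_prop) (by fun_prop)
  have h2 : Measurable fun y : ℝ × S => K (x.1 + y.1) x.2 y.2 :=
    hK.measurable (by fun_prop) (by fun_prop) (by fun_prop)
  rw [lintegral_halves (h1.fun_mul hf), fold, indicator_of_mem (show x ∈ st S (Ioi 0) from hx),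
    ← lintegral_add_left (h2.fun_mul (by fun_prop)), ← lintegral_add_left (h1.fun_mul hf)]
  refine setLIntegral_congr_fun (measurableSet_st measurableSet_Ioi) fun y hy => ?_
  have e : K ((rf x).1 - y.1) (rf x).2 y.2 = K (x.1 + y.1) x.2 y.2 := by
    rw [← hK.even]
    simp [rf, add_comm]
  have e' : K ((rf x).1 - (rf y).1) (rf x).2 (rf y).2 = K (x.1 - y.1) x.2 y.2 := by
    rw [← hK.even]
    simp only [rf]
    congr 1
    ring
  simp only [e, e', ← hK.Gk_add hx hy]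
  ring

theorem MinAux.super_nonpos (hK : Ker σ k C N K) (f g : ℝ × S → ℝ≥0∞) {x : ℝ × S}
    (hx : ¬ 0 < x.1) : fold σ K f x + ∫⁻ y in st S (Ioi 0), Gk K x y * g y ∂vol σ = 0 := by
  rw [fold, indicator_of_notMem (show x ∉ st S (Ioi 0) from hx), zero_add,
    setLIntegral_congr_fun (measurableSet_st measurableSet_Ioi) (g := fun _ => 0), lintegral_zero]
  intro y hy
  have hy' : 0 < y.1 := hy
  have : Gk K x y = 0 := tsub_eq_zero_of_le (hK.anti _ _ _ _ (by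
    rw [abs_of_nonpos (a := x.1 - y.1) (by linarith), abs_le]
    constructor <;> linarith))
  simp only [this, zero_mul]

theorem MinAux.wt_le {A e k : ℝ} (hA : 0 < A) (hk : 0 < k) {s : ℝ} (hs : 0 < s) :
    wt A (-(|e| + k)) s ≤ wt A e s ∧ wt A (-(|e| + k)) s ≤ wt A e (-s) :=
  ⟨wt_le_wt le_rfl hA.le (by nlinarith [neg_abs_le e]),
    wt_le_wt le_rfl hA.le (by nlinarith [le_abs_self e])⟩

theorem MinAux.super_U (hK : Ker σ k C N K) (hS : Sys σ K k p q A₁ e₁ A₂ e₂ U V) (x : ℝ × S) :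
    fold σ K (src A₁ e₁ p V) x + ∫⁻ y in st S (Ioi 0),
      Gk K x y * (wt A₁ (-(|e₁| + k)) y.1 * V y ^ p) ∂vol σ ≤ U x := by
  by_cases hx : 0 < x.1
  · rw [hS.eqU, ← fold_add hK (measurable_src _ _ _ hS.measV) hx]
    refine add_le_add_right (setLIntegral_mono' (measurableSet_st measurableSet_Ioi)
      fun y hy => mul_le_mul_right (mul_le_mul_left (wt_le hS.A₁_pos hK.k_pos hy).1 _) _) _
  · rw [super_nonpos hK _ _ hx]
    exact zero_le

theorem MinAux.super_rf (hK : Ker σ k C N K) (hS : Sys σ K k p q A₁ e₁ A₂ e₂ U V) (x : ℝ × S) :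
    fold σ K (src A₁ e₁ p V) x + ∫⁻ y in st S (Ioi 0),
      Gk K x y * (wt A₁ (-(|e₁| + k)) y.1 * V (rf y) ^ p) ∂vol σ ≤ U (rf x) := by
  by_cases hx : 0 < x.1
  · rw [hS.eqU, ← fold_add_rf hK (measurable_src _ _ _ hS.measV) hx]
    refine add_le_add_right (setLIntegral_mono' (measurableSet_st measurableSet_Ioi)
      fun y hy => mul_le_mul_right (mul_le_mul_left (wt_le hS.A₁_pos hK.k_pos hy).2 _) _) _
  · rw [super_nonpos hK _ _ hx]
    exact zero_le

theorem MinAux.energy_ne_top (hK : Ker σ k C N K) (hS : Sys σ K k p q A₁ e₁ A₂ e₂ U V)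
    (ha : ∀ x, a x ≤ U (rf x)) :
    ∫⁻ x in st S (Ioi 0), wt A₂ (-(|e₂| + k)) x.1 * a x ^ q * a x ∂vol σ ≠ ⊤ := by
  refine ne_top_of_le_ne_top (hS.en_ne_top hK.k_pos 0) ?_
  have h2 : (fun t : ℝ => -t) ⁻¹' Iio 0 = Ioi 0 := by ext t; simp
  rw [en, ← setLIntegral_rf measurableSet_Iio ((measurable_src _ _ _ hS.measU).fun_mul hS.measU), h2]
  exact setLIntegral_mono' (measurableSet_st measurableSet_Ioi) fun y hy =>
    mul_le_mul' (mul_le_mul' (wt_le hS.A₂_pos hK.k_pos hy).2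
      (ENNReal.rpow_le_rpow (ha y) hS.q_pos.le)) (ha y)

theorem exists_hat (hK : Ker σ k C N K) (hS : Sys σ K k p q A₁ e₁ A₂ e₂ U V) :
    ∃ a b, Hat σ K k p q A₁ e₁ A₂ e₂ U V a b := by
  have hh₁ := measurable_fold hK (measurable_src A₁ e₁ p hS.measV)
  have hh₂ := measurable_fold hK (measurable_src A₂ e₂ q hS.measU)
  have hw₁ : Measurable fun y : ℝ × S => wt A₁ (-(|e₁| + k)) y.1 := by fun_prop
  have hw₂ : Measurable fun y : ℝ × S => wt A₂ (-(|e₂| + k)) y.1 := by fun_prop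
  obtain ⟨a, b, ha, hb, hea, heb, hmin⟩ := exists_minimal ((vol σ).restrict (st S (Ioi 0)))
    hK.measurable_Gk hh₁ hh₂ hw₁ hw₂ hS.p_pos hS.q_pos
  obtain ⟨haU, hbV⟩ := hmin U V (super_U hK hS) (super_U hK hS.symm)
  obtain ⟨haU', hbV'⟩ := hmin (fun x => U (rf x)) (fun x => V (rf x)) (super_rf hK hS)
    (super_rf hK hS.symm)
  refine ⟨a, b, ha, hb, hea, heb, fun x => ⟨haU x, haU' x⟩, fun x => ⟨hbV x, hbV' x⟩,
    fun p' q' hp' hpp hq' hqq η hη hη1 => ?_⟩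
  exact stable_of_minimal _ hK.measurable_Gk hK.Gk_symm hh₁ hh₂ hw₁ hw₂ hS.p_pos hS.q_pos ha hb
    hea heb hmin (fun x => ne_top_of_le_ne_top (hS.U_ne_top x) (haU x))
    (fun x => ne_top_of_le_ne_top (hS.symm.U_ne_top x) (hbV x)) (energy_ne_top hK hS haU')
    (energy_ne_top hK hS.symm hbV') hp' hpp hq' hqq hη hη1

end Crest.Agent.R77
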