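import Crest.Agent.R77.Basic

/-! Row 77: polar coordinates. -/

set_option autoImplicit false
open MeasureTheory Set Filter Topology
open scoped ENNReal

namespace Crest.Agent.R77

theorem lintegral_Ioi_exp (H : ℝ → ℝ≥0∞) :
    ∫⁻ r in Ioi (0 : ℝ), H r = ∫⁻ t, ENNReal.ofReal (Real.exp t) * H (Real.exp t) := by
  have h := lintegral_image_eq_lintegral_abs_deriv_mul (s := univ) (f := Real.exp) (f' := Real.exp)
    MeasurableSet.univ (fun x _ => (Real.hasDerivAt_exp x).hasDerivWithinAt)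
    Real.exp_injective.injOn H
  simpa only [image_univ, Real.range_exp, Measure.restrict_univ, Real.abs_exp] using h

/-- Cylindrical (logarithmic polar) coordinates `x = e^t ω`. -/
theorem lintegral_polar {n : ℕ} (hn : 1 ≤ n) {F : EuclideanSpace ℝ (Fin n) → ℝ≥0∞}
    (hF : Measurable F) :
    ∫⁻ x, F x = ∫⁻ y : ℝ × Metric.sphere (0 : EuclideanSpace ℝ (Fin n)) 1,
      wt 1 n y.1 * F (Real.exp y.1 • (y.2 : EuclideanSpace ℝ (Fin n)))
        ∂vol (volume : Measure (EuclideanSpace ℝ (Fin n))).toSphere := by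
  obtain ⟨m, rfl⟩ : ∃ m, n = m + 1 := ⟨n - 1, by omega⟩
  let G : Metric.sphere (0 : EuclideanSpace ℝ (Fin (m + 1))) 1 × Ioi (0 : ℝ) → ℝ≥0∞ :=
    fun y => F (y.2.1 • y.1.1)
  have hG : Measurable G := hF.comp (by fun_prop)
  have h1 := (volume : Measure (EuclideanSpace ℝ (Fin (m + 1))))
    |>.measurePreserving_homeomorphUnitSphereProd.lintegral_comp hG
  have h0 : ∫⁻ x, F x = ∫⁻ x : ({0}ᶜ : Set (EuclideanSpace ℝ (Fin (m + 1)))), F x
      ∂(Measure.comap Subtype.val volume) := by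
    rw [lintegral_subtype_comap (measurableSet_singleton _).compl, restrict_compl_singleton]
  have h2 : ∀ x : ({0}ᶜ : Set (EuclideanSpace ℝ (Fin (m + 1)))),
      F x = G (homeomorphUnitSphereProd _ x) := fun x => by
    have hx : ‖x.1‖ ≠ 0 := norm_ne_zero_iff.2 x.2
    simp [G, smul_smul, hx]
  have hw : Measurable fun y : ℝ × Metric.sphere (0 : EuclideanSpace ℝ (Fin (m + 1))) 1 =>
      wt 1 ((m + 1 : ℕ) : ℝ) y.1 * F (Real.exp y.1 • (y.2 : EuclideanSpace ℝ (Fin (m + 1)))) :=
    (measurable_wt _ _ measurable_fst).mul (hF.comp (by fun_prop))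
  rw [h0]
  simp only [h2]
  rw [h1, lintegral_prod _ hG.aemeasurable, vol, lintegral_prod_symm' _ hw]
  refine lintegral_congr fun ω => ?_
  have hω : Measurable fun r => G (ω, r) := hG.comp measurable_prodMk_left
  rw [Measure.volumeIoiPow, lintegral_withDensity_eq_lintegral_mul _ (by fun_prop) hω]
  refine (lintegral_subtype_comap measurableSet_Ioi (fun r : ℝ => ENNReal.ofReal
    (r ^ (Module.finrank ℝ (EuclideanSpace ℝ (Fin (m + 1))) - 1)) * F (r • ω.1))).trans ?_
  rw [lintegral_Ioi_exp]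
  refine lintegral_congr fun t => ?_
  rw [← mul_assoc, ← ENNReal.ofReal_mul (Real.exp_pos t).le, wt, one_mul, Real.exp_nat_mul,
    finrank_euclideanSpace, Fintype.card_fin, Nat.add_sub_cancel, pow_succ']

end Crest.Agent.R77
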