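import Crest.Agent.R77.RepAux

/-! Row 77: Riesz representation of positive superharmonic functions. -/

set_option autoImplicit false
open MeasureTheory Set Filter Topology
open scoped ENNReal

namespace Crest.Agent.R77

open Laplacian InnerProductSpace

theorem rep {n : ℕ} (hn : 3 ≤ n) : ∃ κ : ℝ, 0 < κ ∧
    ∀ u f : EuclideanSpace ℝ (Fin n) → ℝ, Continuous u → ContDiffOn ℝ 2 u {0}ᶜ →
      (∀ x, 0 ≤ u x) → Measurable f → (∀ x, 0 ≤ f x) → (∀ x, x ≠ 0 → -(Δ u) x = f x) →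
      ∃ c : ℝ, 0 ≤ c ∧ ∀ x, ENNReal.ofReal (u x) = ENNReal.ofReal c + ENNReal.ofReal κ *
        ∫⁻ y, ENNReal.ofReal ‖x - y‖ ^ (-((n : ℝ) - 2)) * ENNReal.ofReal (f y) := by
  have hk := RepAux.k0_pos n
  have hJ : 0 < (RepAux.J n).toReal := ENNReal.toReal_pos (RepAux.J_pos n) (RepAux.J_ne_top hn)
  refine ⟨(RepAux.k0 n)⁻¹ * (RepAux.J n).toReal, by positivity, fun u f hu hu2 hu0 hf hf0 heq => ?_⟩
  obtain ⟨c, hc0, hc⟩ := RepAux.key (by omega) hu hu2 hu0 hf hf0 heq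
  refine ⟨(RepAux.k0 n)⁻¹ * c, by positivity, fun x => ?_⟩
  obtain ⟨h1, h2⟩ := hc x
  rw [ENNReal.ofReal_mul (p := (RepAux.k0 n)⁻¹) (q := (RepAux.J n).toReal) (by positivity),
    ENNReal.ofReal_toReal (RepAux.J_ne_top hn), mul_assoc, ← h2,
    ← ENNReal.ofReal_mul (by positivity), ← ENNReal.ofReal_add (by positivity)
      (mul_nonneg (by positivity) (sub_nonneg.2 h1))]
  congr 1
  field_simp
  ring

theorem rep_two {u f : EuclideanSpace ℝ (Fin 2) → ℝ} (hu : Continuous u)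
    (hu2 : ContDiffOn ℝ 2 u {0}ᶜ) (hu0 : ∀ x, 0 ≤ u x) (hf : Measurable f) (hf0 : ∀ x, 0 ≤ f x)
    (heq : ∀ x, x ≠ 0 → -(Δ u) x = f x) : ∫⁻ y, ENNReal.ofReal (f y) = 0 := by
  obtain ⟨c, -, hc⟩ := RepAux.key le_rfl hu hu2 hu0 hf hf0 heq
  have h := (hc 0).2
  by_contra h0
  simp only [Nat.cast_ofNat, sub_self, neg_zero, ENNReal.rpow_zero, one_mul, RepAux.J_two] at h
  rw [ENNReal.top_mul h0] at h
  exact ENNReal.ofReal_ne_top h

end Crest.Agent.R77
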