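import Crest.Agent.R77.Green

/-! Row 77: auxiliary lemmas for the Riesz representation. -/

set_option autoImplicit false
open MeasureTheory Set Filter Topology Metric
open scoped ENNReal

namespace Crest.Agent.R77.RepAux

open Laplacian InnerProductSpace

/-- Positive part. -/
noncomputable def pp (s : ℝ) : ℝ := max s 0

@[fun_prop]
theorem continuous_pp : Continuous pp := continuous_id.max continuous_const

theorem pp_nonneg (s : ℝ) : 0 ≤ pp s := le_max_right _ _

theorem pp_of_nonneg {s : ℝ} (h : 0 ≤ s) : pp s = s := max_eq_left h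

theorem pp_of_nonpos {s : ℝ} (h : s ≤ 0) : pp s = 0 := max_eq_right h

theorem pp_mul {c : ℝ} (hc : 0 ≤ c) (s : ℝ) : pp (c * s) = c * pp s := by
  rw [pp, pp, mul_max_of_nonneg _ _ hc, mul_zero]

theorem pp_mul_self (s : ℝ) : pp s * s = pp s ^ 2 := by
  rcases le_total 0 s with h | h
  · rw [pp_of_nonneg h, sq]
  · rw [pp_of_nonpos h]; simp

theorem hasDerivAt_pp_sq (s : ℝ) : HasDerivAt (fun s => pp s ^ 2) (2 * pp s) s := by
  rcases lt_trichotomy s 0 with h | h | h
  · have : (fun s => pp s ^ 2) =ᶠ[𝓝 s] fun _ => 0 := by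
      filter_upwards [Iio_mem_nhds h] with x hx
      simp [pp_of_nonpos (le_of_lt hx)]
    rw [pp_of_nonpos h.le, mul_zero]
    exact (hasDerivAt_const s (0 : ℝ)).congr_of_eventuallyEq this
  · subst h
    rw [hasDerivAt_iff_tendsto_slope_zero]
    have h1 : Tendsto pp (𝓝[≠] 0) (𝓝 (pp 0)) := continuous_pp.continuousAt.mono_left nhdsWithin_le_nhds
    simp only [pp_of_nonpos le_rfl, mul_zero] at h1 ⊢
    refine h1.congr' ?_
    filter_upwards [self_mem_nhdsWithin] with t ht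
    have ht' : t ≠ 0 := ht
    simp only [zero_add, smul_eq_mul, ← pp_mul_self]
    field_simp
    simp
  · have : (fun s => pp s ^ 2) =ᶠ[𝓝 s] fun x => x ^ 2 := by
      filter_upwards [Ioi_mem_nhds h] with x hx
      simp [pp_of_nonneg (le_of_lt hx)]
    rw [pp_of_nonneg h.le]
    exact (by simpa using hasDerivAt_pow 2 s : HasDerivAt (fun x : ℝ => x ^ 2) (2 * s) s
      ).congr_of_eventuallyEq this

theorem hasDerivAt_pp_cube (s : ℝ) : HasDerivAt (fun s => pp s ^ 3) (3 * pp s ^ 2) s := by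
  have e : (fun s => pp s ^ 3) = fun s => pp s ^ 2 * s := by
    funext s; linear_combination (-pp s) * pp_mul_self s
  rw [e]
  refine ((hasDerivAt_pp_sq s).fun_mul (hasDerivAt_id' s)).congr_deriv ?_
  rw [mul_assoc, pp_mul_self]; ring

theorem contDiff_pp_cube : ContDiff ℝ 2 (fun s => pp s ^ 3) := by
  rw [show (2 : WithTop ℕ∞) = 1 + 1 from rfl, contDiff_succ_iff_deriv]
  refine ⟨fun s => (hasDerivAt_pp_cube s).differentiableAt, by simp, ?_⟩
  rw [show deriv (fun s => pp s ^ 3) = fun s => 3 * pp s ^ 2 from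
    funext fun s => (hasDerivAt_pp_cube s).deriv]
  refine contDiff_const.mul ?_
  rw [contDiff_one_iff_deriv]
  refine ⟨fun s => (hasDerivAt_pp_sq s).differentiableAt, ?_⟩
  rw [show deriv (fun s => pp s ^ 2) = fun s => 2 * pp s from
    funext fun s => (hasDerivAt_pp_sq s).deriv]
  fun_prop

variable {n : ℕ}

theorem lap_radial {Ψ Ψ' Ψ'' : ℝ → ℝ} (h1 : ∀ t, HasDerivAt Ψ (Ψ' t) t)
    (h2 : ∀ t, HasDerivAt Ψ' (Ψ'' t) t) (x y : EuclideanSpace ℝ (Fin n)) :
    (Δ (fun y => Ψ (‖y - x‖ ^ 2))) y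
      = 4 * ‖y - x‖ ^ 2 * Ψ'' (‖y - x‖ ^ 2) + 2 * n * Ψ' (‖y - x‖ ^ 2) := by
  have hN : ∀ y : EuclideanSpace ℝ (Fin n),
      HasFDerivAt (fun y => ‖y - x‖ ^ 2) ((2 : ℝ) • innerSL ℝ (y - x)) y := fun y => by
    have := ((hasFDerivAt_id (𝕜 := ℝ) y).sub_const x).norm_sq
    refine this.congr_fderiv ?_
    ext v; simp
  have hf : fderiv ℝ (fun y => Ψ (‖y - x‖ ^ 2)) =
      fun y => Ψ' (‖y - x‖ ^ 2) • ((2 : ℝ) • innerSL ℝ (y - x)) :=
    funext fun y => ((h1 _).comp_hasFDerivAt y (hN y)).fderiv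
  have hL : HasFDerivAt (fun y : EuclideanSpace ℝ (Fin n) => (2 : ℝ) • innerSL ℝ (y - x))
      ((2 : ℝ) • innerSL ℝ) y := by
    have := ((innerSL ℝ (E := EuclideanSpace ℝ (Fin n))).hasFDerivAt (x := y - x)).comp y
      ((hasFDerivAt_id (𝕜 := ℝ) y).sub_const x)
    exact (this.const_smul (2 : ℝ)).congr_fderiv (by simp)
  have hD := ((h2 _).comp_hasFDerivAt y (hN y)).smul hL
  set b := EuclideanSpace.basisFun (Fin n) ℝ
  rw [laplacian_eq_iteratedFDeriv_orthonormalBasis _ b]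
  simp only [iteratedFDeriv_two_apply, hf]
  erw [hD.fderiv]
  have hb : ∀ i, innerSL ℝ (b i) (b i) = 1 := fun i => by
    rw [innerSL_apply_apply, real_inner_self_eq_norm_sq, b.orthonormal.1 i]; simp
  have hs := b.sum_sq_inner_left (y - x)
  rw [Finset.sum_congr rfl (g := fun i => 2 * Ψ' (‖y - x‖ ^ 2)
    + 4 * Ψ'' (‖y - x‖ ^ 2) * ⟪y - x, b i⟫_ℝ ^ 2)]
  · rw [Finset.sum_add_distrib, ← Finset.mul_sum, ← Finset.mul_sum, hs]
    simp; ring
  · intro i _
    simp only [Matrix.cons_val_zero, Matrix.cons_val_one, add_apply,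
      smul_apply, ContinuousLinearMap.smulRight_apply, smul_eq_mul,
      Function.comp_apply, innerSL_apply_apply]
    erw [hb i]
    ring

/-- The test function. -/
noncomputable def tf (x : EuclideanSpace ℝ (Fin n)) (s : ℝ) (y : EuclideanSpace ℝ (Fin n)) : ℝ :=
  pp (s ^ 2 - ‖y - x‖ ^ 2) ^ 3

/-- Its Laplacian. -/
noncomputable def tl (n : ℕ) (s ρ : ℝ) : ℝ := 24 * ρ * pp (s ^ 2 - ρ) - 6 * n * pp (s ^ 2 - ρ) ^ 2

theorem tf_contDiff (x : EuclideanSpace ℝ (Fin n)) (s : ℝ) : ContDiff ℝ 2 (tf x s) :=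
  contDiff_pp_cube.comp (contDiff_const.sub ((contDiff_id.sub contDiff_const).norm_sq ℝ))

theorem pp_out {x y : EuclideanSpace ℝ (Fin n)} {s R : ℝ} (hs : 0 ≤ s) (hR : s ≤ R)
    (hy : y ∉ closedBall x R) : pp (s ^ 2 - ‖y - x‖ ^ 2) = 0 := by
  rw [mem_closedBall, dist_eq_norm, not_le] at hy
  exact pp_of_nonpos (by nlinarith)

theorem tf_supp (x : EuclideanSpace ℝ (Fin n)) {s : ℝ} (hs : 0 ≤ s) : HasCompactSupport (tf x s) :=
  HasCompactSupport.intro (isCompact_closedBall x s) fun y hy => by simp [tf, pp_out hs le_rfl hy]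

theorem lap_tf (x : EuclideanSpace ℝ (Fin n)) (s : ℝ) (y : EuclideanSpace ℝ (Fin n)) :
    (Δ (tf x s)) y = tl n s (‖y - x‖ ^ 2) := by
  have h0 : ∀ t : ℝ, HasDerivAt (fun t : ℝ => s ^ 2 - t) (-1) t := fun t => by
    simpa using (hasDerivAt_id t).const_sub (s ^ 2)
  have h1 : ∀ t, HasDerivAt (fun t => pp (s ^ 2 - t) ^ 3) (-3 * pp (s ^ 2 - t) ^ 2) t := fun t =>
    ((hasDerivAt_pp_cube _).comp t (h0 t)).congr_deriv (by ring)
  have h2 : ∀ t, HasDerivAt (fun t => -3 * pp (s ^ 2 - t) ^ 2) (6 * pp (s ^ 2 - t)) t := fun t =>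
    (((hasDerivAt_pp_sq _).comp t (h0 t)).const_mul (-3)).congr_deriv (by ring)
  have := lap_radial h1 h2 x y
  rw [show tf x s = fun y => pp (s ^ 2 - ‖y - x‖ ^ 2) ^ 3 from rfl, this, tl]
  ring

/-- The averaging weight. -/
noncomputable def wa (n : ℕ) (s ρ : ℝ) : ℝ := (s ^ (n + 4))⁻¹ * pp (s ^ 2 - ρ) ^ 2

theorem wa_hasDerivAt (n : ℕ) {s : ℝ} (hs : s ≠ 0) (ρ : ℝ) :
    HasDerivAt (fun s => wa n s ρ) ((6 * s ^ (n + 5))⁻¹ * tl n s ρ) s := by
  have h0 : HasDerivAt (fun s : ℝ => s ^ 2 - ρ) (2 * s) s := by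
    simpa using (hasDerivAt_pow 2 s).sub_const ρ
  have h1 := ((hasDerivAt_pow (n + 4) s).fun_inv (pow_ne_zero _ hs)).fun_mul
    ((hasDerivAt_pp_sq _).comp s h0)
  refine h1.congr_deriv ?_
  have e := pp_mul_self (s ^ 2 - ρ)
  simp only [tl, Function.comp_apply, show n + 4 - 1 = n + 3 from rfl]
  push_cast
  field_simp
  linear_combination (24 * s ^ (n + 3) * s ^ (n + 5)) * e

/-- The average. -/
noncomputable def av (u : EuclideanSpace ℝ (Fin n) → ℝ) (x : EuclideanSpace ℝ (Fin n)) (s : ℝ) : ℝ :=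
  ∫ y, u y * wa n s (‖y - x‖ ^ 2)

theorem integrable_av {u : EuclideanSpace ℝ (Fin n) → ℝ} (hu : Continuous u)
    (x : EuclideanSpace ℝ (Fin n)) {s : ℝ} (hs : 0 ≤ s) :
    Integrable fun y => u y * wa n s (‖y - x‖ ^ 2) := by
  refine Continuous.integrable_of_hasCompactSupport (by unfold wa; fun_prop) ?_
  exact HasCompactSupport.intro (isCompact_closedBall x s) fun y hy => by
    simp [wa, pp_out hs le_rfl hy]

theorem av_sub {u : EuclideanSpace ℝ (Fin n) → ℝ} (hu : Continuous u)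
    (x : EuclideanSpace ℝ (Fin n)) {e R : ℝ} (he : 0 < e) (heR : e ≤ R) :
    IntegrableOn (fun s => (6 * s ^ (n + 5))⁻¹ * -∫ y, u y * tl n s (‖y - x‖ ^ 2)) (Ioc e R) ∧
    av u x e - av u x R
      = ∫ s in Ioc e R, (6 * s ^ (n + 5))⁻¹ * -∫ y, u y * tl n s (‖y - x‖ ^ 2) := by
  set F : ℝ → EuclideanSpace ℝ (Fin n) → ℝ :=
    fun s y => (6 * s ^ (n + 5))⁻¹ * -(u y * tl n s (‖y - x‖ ^ 2)) with hF
  have hc : ContinuousOn (Function.uncurry F) (Ioi 0 ×ˢ univ) := by
    refine ContinuousOn.mul (ContinuousOn.inv₀ (by fun_prop) fun z hz => ?_)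
      (Continuous.continuousOn (by unfold tl; fun_prop))
    have : 0 < z.1 := hz.1
    positivity
  have hi : Integrable (Function.uncurry F) ((volume.restrict (Ioc e R)).prod volume) := by
    rw [Measure.restrict_prod_eq_prod_univ]
    have h1 : IntegrableOn (Function.uncurry F) (Icc e R ×ˢ closedBall x R) (volume.prod volume) :=
      (hc.mono (prod_mono (fun s hs => he.trans_le hs.1) (subset_univ _))).integrableOn_compact
        (isCompact_Icc.prod (isCompact_closedBall x R))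
    refine h1.of_forall_sdiff_eq_zero (measurableSet_Ioc.prod MeasurableSet.univ) fun z hz => ?_
    have h2 : z.1 ∈ Ioc e R := hz.1.1
    have h3 : z.2 ∉ closedBall x R := fun h => hz.2 ⟨Ioc_subset_Icc_self h2, h⟩
    simp [Function.uncurry, hF, tl, pp_out (he.le.trans h2.1.le) h2.2 h3]
  have e1 : ∀ s, ∫ y, F s y = (6 * s ^ (n + 5))⁻¹ * -∫ y, u y * tl n s (‖y - x‖ ^ 2) := fun s => by
    rw [hF]; simp only; rw [integral_const_mul, integral_neg]
  have h1 := hi.integral_prod_left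
  have h2 := integral_integral_swap hi
  simp only [Function.uncurry_apply_pair, e1] at h1 h2
  refine ⟨h1, ?_⟩
  rw [h2, av, av, ← integral_sub (integrable_av hu x he.le) (integrable_av hu x (he.le.trans heR))]
  congr 1
  funext y
  rw [← intervalIntegral.integral_of_le heR,
    intervalIntegral.integral_eq_sub_of_hasDerivAt (f := fun s => -(u y * wa n s (‖y - x‖ ^ 2)))]
  · ring
  · intro s hs
    rw [uIcc_of_le heR] at hs
    exact ((wa_hasDerivAt n (he.trans_le hs.1).ne' _).const_mul (u y)).fun_neg.congr_deriv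
      (by simp only [hF]; ring)
  · refine ContinuousOn.intervalIntegrable ?_
    rw [uIcc_of_le heR]
    exact hc.comp (f := fun s => (s, y)) (by fun_prop) fun s hs => ⟨he.trans_le hs.1, mem_univ _⟩

/-- The normalising constant. -/
noncomputable def k0 (n : ℕ) : ℝ :=
  ∫ z in closedBall (0 : EuclideanSpace ℝ (Fin n)) 1, pp (1 - ‖z‖ ^ 2) ^ 2

theorem k0_pos (n : ℕ) : 0 < k0 n := by
  rw [k0, setIntegral_pos_iff_support_of_nonneg_ae (Eventually.of_forall fun z => sq_nonneg _)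
    ((Continuous.continuousOn (by fun_prop)).integrableOn_compact (isCompact_closedBall _ _))]
  refine (measure_ball_pos volume (0 : EuclideanSpace ℝ (Fin n)) one_pos).trans_le
    (measure_mono fun z hz => ⟨?_, ball_subset_closedBall hz⟩)
  rw [mem_ball_zero_iff] at hz
  have : 0 < 1 - ‖z‖ ^ 2 := by nlinarith [norm_nonneg z]
  simp [pp_of_nonneg this.le, this.ne']

theorem av_eq (u : EuclideanSpace ℝ (Fin n) → ℝ) (x : EuclideanSpace ℝ (Fin n)) {s : ℝ}
    (hs : 0 < s) : av u x s = ∫ z in closedBall (0 : EuclideanSpace ℝ (Fin n)) 1,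
      u (x + s • z) * pp (1 - ‖z‖ ^ 2) ^ 2 := by
  rw [setIntegral_eq_integral_of_forall_compl_eq_zero fun z hz => by
    have := pp_out (x := 0) zero_le_one le_rfl hz
    simp only [one_pow, sub_zero] at this
    simp [this]]
  have h := Measure.integral_comp_smul (μ := volume)
    (fun v : EuclideanSpace ℝ (Fin n) => u (x + v) * wa n s (‖x + v - x‖ ^ 2)) s
  rw [integral_add_left_eq_self (fun y => u y * wa n s (‖y - x‖ ^ 2)) x] at h
  simp only [finrank_euclideanSpace, Fintype.card_fin, smul_eq_mul, add_sub_cancel_left] at h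
  have e : ∀ z : EuclideanSpace ℝ (Fin n), u (x + s • z) * wa n s (‖s • z‖ ^ 2)
      = (s ^ n)⁻¹ * (u (x + s • z) * pp (1 - ‖z‖ ^ 2) ^ 2) := fun z => by
    rw [wa, norm_smul, Real.norm_of_nonneg hs.le,
      show s ^ 2 - (s * ‖z‖) ^ 2 = s ^ 2 * (1 - ‖z‖ ^ 2) by ring, pp_mul (sq_nonneg s)]
    field_simp
    ring
  simp only [e, integral_const_mul] at h
  rw [abs_of_pos (by positivity)] at h
  exact (mul_left_cancel₀ (by positivity) h).symm

theorem av_tendsto_zero {u : EuclideanSpace ℝ (Fin n) → ℝ} (hu : Continuous u)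
    (x : EuclideanSpace ℝ (Fin n)) :
    Tendsto (fun k : ℕ => av u x (1 / (k + 1))) atTop (𝓝 (k0 n * u x)) := by
  have hc : Continuous fun s : ℝ => ∫ z in closedBall (0 : EuclideanSpace ℝ (Fin n)) 1,
      u (x + s • z) * pp (1 - ‖z‖ ^ 2) ^ 2 :=
    continuous_parametric_integral_of_continuous
      (f := fun (s : ℝ) (z : EuclideanSpace ℝ (Fin n)) => u (x + s • z) * pp (1 - ‖z‖ ^ 2) ^ 2)
      (by unfold Function.uncurry; fun_prop) (isCompact_closedBall _ _)
  have h := (hc.tendsto 0).comp tendsto_one_div_add_atTop_nhds_zero_nat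
  simp only [zero_smul, add_zero, integral_const_mul] at h
  rw [mul_comm]
  refine h.congr fun k => ?_
  exact (av_eq u x (by positivity)).symm

theorem av_nonneg {u : EuclideanSpace ℝ (Fin n) → ℝ} (hu0 : ∀ x, 0 ≤ u x)
    (x : EuclideanSpace ℝ (Fin n)) {s : ℝ} (hs : 0 ≤ s) : 0 ≤ av u x s :=
  integral_nonneg fun y => mul_nonneg (hu0 y) (by unfold wa; positivity)

theorem av_le {u : EuclideanSpace ℝ (Fin n) → ℝ} (hu : Continuous u) (hu0 : ∀ x, 0 ≤ u x)
    (x x' : EuclideanSpace ℝ (Fin n)) {s : ℝ} (hs : 0 < s) :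
    av u x s ≤ (1 + ‖x - x'‖ / s) ^ (n + 4) * av u x' (s + ‖x - x'‖) := by
  have hd := norm_nonneg (x - x')
  rw [av, av, ← integral_const_mul]
  refine integral_mono (integrable_av hu x hs.le)
    ((integrable_av hu x' (by positivity)).const_mul _) fun y => ?_
  have h1 : pp (s ^ 2 - ‖y - x‖ ^ 2) ≤ pp ((s + ‖x - x'‖) ^ 2 - ‖y - x'‖ ^ 2) := by
    rcases le_total s ‖y - x‖ with h | h
    · rw [pp_of_nonpos (by nlinarith)]; exact pp_nonneg _
    · refine max_le_max ?_ le_rfl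
      have a1 : ‖y - x'‖ ≤ ‖y - x‖ + ‖x - x'‖ := norm_sub_le_norm_sub_add_norm_sub _ _ _
      have a2 := pow_le_pow_left₀ (norm_nonneg _) a1 2
      nlinarith
  have h2 := pow_le_pow_left₀ (pp_nonneg _) h1 2
  have e : (1 + ‖x - x'‖ / s) ^ (n + 4) * (u y * wa n (s + ‖x - x'‖) (‖y - x'‖ ^ 2))
      = u y * ((s ^ (n + 4))⁻¹ * pp ((s + ‖x - x'‖) ^ 2 - ‖y - x'‖ ^ 2) ^ 2) := by
    rw [wa, show 1 + ‖x - x'‖ / s = (s + ‖x - x'‖) / s by field_simp, div_pow]
    field_simp
  simp only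
  rw [e, wa]
  have := hu0 y
  gcongr

/-- The kernel after integrating in the radius. -/
noncomputable def kr (n : ℕ) (s ρ : ℝ) : ℝ≥0∞ :=
  ENNReal.ofReal ((6 * s ^ (n + 5))⁻¹ * pp (s ^ 2 - ρ) ^ 3)

@[fun_prop]
theorem measurable_kr (n : ℕ) {α : Type} [MeasurableSpace α] {s ρ : α → ℝ} (hs : Measurable s)
    (hρ : Measurable ρ) : Measurable fun a => kr n (s a) (ρ a) := by
  have := continuous_pp.measurable
  unfold kr
  fun_prop

/-- The constant. -/
noncomputable def J (n : ℕ) : ℝ≥0∞ := ∫⁻ t in Ioi (0 : ℝ), kr n t 1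

theorem lintegral_scale {F : ℝ → ℝ≥0∞} (hF : Measurable F) {d : ℝ} (hd : 0 < d) :
    ∫⁻ s in Ioi (0 : ℝ), F s = ENNReal.ofReal d * ∫⁻ t in Ioi (0 : ℝ), F (d * t) := by
  conv_lhs => rw [← Real.smul_map_volume_mul_left hd.ne']
  rw [Measure.restrict_smul, lintegral_smul_measure, setLIntegral_map measurableSet_Ioi hF
    (measurable_const_mul d), abs_of_pos hd, smul_eq_mul]
  congr 3
  ext t
  simp [hd]

theorem lintegral_kr {d : ℝ} (hd : 0 < d) :
    ∫⁻ s in Ioi (0 : ℝ), kr n s (d ^ 2) = ENNReal.ofReal d ^ (-((n : ℝ) - 2)) * J n := by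
  rw [lintegral_scale (by fun_prop) hd, J, ← lintegral_const_mul _ (by fun_prop),
    ← lintegral_const_mul _ (by fun_prop)]
  refine setLIntegral_congr_fun measurableSet_Ioi fun t ht => ?_
  have ht' : 0 < t := ht
  simp only [kr]
  rw [ENNReal.ofReal_rpow_of_pos hd, ← ENNReal.ofReal_mul hd.le,
    ← ENNReal.ofReal_mul (by positivity)]
  congr 1
  rw [show (d * t) ^ 2 - d ^ 2 = d ^ 2 * (t ^ 2 - 1) by ring, pp_mul (sq_nonneg d), neg_sub,
    Real.rpow_sub hd, Real.rpow_natCast, Real.rpow_two]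
  field_simp
  ring

theorem J_pos (n : ℕ) : J n ≠ 0 := by
  intro h
  rw [J, lintegral_eq_zero_iff (by fun_prop)] at h
  have h2 : ∀ᵐ t ∂(volume.restrict (Ioi (1 : ℝ))), False := by
    filter_upwards [ae_restrict_of_ae_restrict_of_subset (Ioi_subset_Ioi zero_le_one) h,
      ae_restrict_mem measurableSet_Ioi] with t h1 ht
    have ht' : 1 < t := ht
    have : 0 < t ^ 2 - 1 := by nlinarith
    simp only [kr, pp_of_nonneg this.le, Pi.zero_apply, ENNReal.ofReal_eq_zero] at h1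
    have : 0 < (6 * t ^ (n + 5))⁻¹ * (t ^ 2 - 1) ^ 3 := by positivity
    linarith
  rw [eventually_false_iff_eq_bot, ae_eq_bot, Measure.restrict_eq_zero, Real.volume_Ioi] at h2
  exact ENNReal.top_ne_zero h2

theorem J_ne_top (hn : 3 ≤ n) : J n ≠ ⊤ := by
  have h1 : IntegrableOn (fun t : ℝ => t ^ (-2 : ℝ)) (Ioi 1) :=
    integrableOn_Ioi_rpow_of_lt (by norm_num) one_pos
  refine ne_top_of_le_ne_top h1.lintegral_lt_top.ne ?_
  rw [J, ← lintegral_indicator measurableSet_Ioi, ← lintegral_indicator measurableSet_Ioi]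
  refine lintegral_mono fun t => ?_
  by_cases ht : 1 < t
  · rw [indicator_of_mem (show t ∈ Ioi 0 from zero_lt_one.trans ht), indicator_of_mem (show t ∈ Ioi 1 from ht), kr]
    refine ENNReal.ofReal_le_ofReal ?_
    have h0 : 0 < t := zero_lt_one.trans ht
    rw [pp_of_nonneg (by nlinarith), Real.rpow_neg h0.le, Real.rpow_two, inv_mul_le_iff₀
      (by positivity), le_mul_inv_iff₀ (by positivity)]
    have a1 : (t ^ 2 - 1) ^ 3 ≤ (t ^ 2) ^ 3 := pow_le_pow_left₀ (by nlinarith) (by linarith) 3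
    have a2 : t ^ 8 ≤ t ^ (n + 5) := pow_le_pow_right₀ ht.le (by omega)
    have a3 : 0 < t ^ 8 := by positivity
    nlinarith [mul_le_mul_of_nonneg_right a1 (sq_nonneg t)]
  · by_cases h0 : 0 < t
    · rw [indicator_of_mem (show t ∈ Ioi 0 from h0), kr, pp_of_nonpos (by nlinarith)]
      simp
    · rw [indicator_of_notMem (show t ∉ Ioi 0 from h0)]; exact zero_le

theorem J_two : J 2 = ⊤ := by
  by_contra h
  refine not_integrableOn_Ioi_inv (a := 2) ?_
  have h1 : IntegrableOn (fun t : ℝ => (6 * t ^ (2 + 5))⁻¹ * pp (t ^ 2 - 1) ^ 3) (Ioi 0) := by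
    have := continuous_pp.measurable
    refine ⟨(by fun_prop : Measurable _).aestronglyMeasurable, ?_⟩
    rw [hasFiniteIntegral_iff_ofReal]
    · exact lt_top_iff_ne_top.2 h
    · filter_upwards [ae_restrict_mem measurableSet_Ioi] with t ht
      have ht' : 0 < t := ht
      have := pp_nonneg (t ^ 2 - 1)
      simp only [Pi.zero_apply]; positivity
  refine ((h1.mono_set (Ioi_subset_Ioi zero_le_two)).const_mul 48).mono'
    measurable_inv.aestronglyMeasurable ?_
  filter_upwards [ae_restrict_mem measurableSet_Ioi] with t ht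
  have ht' : 2 < t := ht
  have h0 : 0 < t := by linarith
  rw [Real.norm_of_nonneg (by positivity), pp_of_nonneg (by nlinarith)]
  have a1 : (t ^ 2 / 2) ^ 3 ≤ (t ^ 2 - 1) ^ 3 := pow_le_pow_left₀ (by positivity) (by nlinarith) 3
  calc t⁻¹ = 48 * ((6 * t ^ (2 + 5))⁻¹ * (t ^ 2 / 2) ^ 3) := by field_simp; ring
    _ ≤ _ := by gcongr

theorem key (hn : 2 ≤ n) {u f : EuclideanSpace ℝ (Fin n) → ℝ} (hu : Continuous u)
    (hu2 : ContDiffOn ℝ 2 u {0}ᶜ) (hu0 : ∀ x, 0 ≤ u x) (hf : Measurable f) (hf0 : ∀ x, 0 ≤ f x)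
    (heq : ∀ x, x ≠ 0 → -(Δ u) x = f x) : ∃ c : ℝ, 0 ≤ c ∧ ∀ x, c ≤ k0 n * u x ∧
      ENNReal.ofReal (k0 n * u x - c) = J n *
        ∫⁻ y, ENNReal.ofReal ‖x - y‖ ^ (-((n : ℝ) - 2)) * ENNReal.ofReal (f y) := by
  have hg : ∀ (x : EuclideanSpace ℝ (Fin n)) {s : ℝ}, 0 < s →
      0 ≤ -∫ y, u y * tl n s (‖y - x‖ ^ 2) ∧ ∫⁻ y, ENNReal.ofReal (f y * tf x s y)
        = ENNReal.ofReal (-∫ y, u y * tl n s (‖y - x‖ ^ 2)) := fun x s hs => by
    have := green hn hu hu2 hf hf0 heq (tf_contDiff x s) (tf_supp x hs.le)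
      fun y => pow_nonneg (pp_nonneg _) 3
    simpa only [lap_tf] using this
  have hnn : ∀ (x : EuclideanSpace ℝ (Fin n)) {e : ℝ} (R : ℝ), 0 < e → 0 ≤ᵐ[volume.restrict (Ioc e R)]
      fun s => (6 * s ^ (n + 5))⁻¹ * -∫ y, u y * tl n s (‖y - x‖ ^ 2) := fun x e R he => by
    filter_upwards [ae_restrict_mem measurableSet_Ioc] with s hs
    have h0 : 0 < s := he.trans hs.1
    exact mul_nonneg (by positivity) (hg x h0).1
  have anti : ∀ (x : EuclideanSpace ℝ (Fin n)) {e R : ℝ}, 0 < e → e ≤ R → av u x R ≤ av u x e :=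
    fun x e R he heR => by
      have := integral_nonneg_of_ae (hnn x R he)
      rw [← (av_sub hu x he heR).2] at this
      linarith
  have hlim : ∀ x : EuclideanSpace ℝ (Fin n), Tendsto (fun k : ℕ => av u x (k + 1)) atTop
      (𝓝 (⨅ k : ℕ, av u x (k + 1))) := fun x =>
    tendsto_atTop_ciInf (fun a b hab => anti x (by positivity) (by gcongr))
      ⟨0, by rintro _ ⟨k, rfl⟩; exact av_nonneg hu0 x (by positivity)⟩
  have hle : ∀ x x' : EuclideanSpace ℝ (Fin n),
      ⨅ k : ℕ, av u x (k + 1) ≤ ⨅ k : ℕ, av u x' (k + 1) := fun x x' => by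
    have h1 : Tendsto (fun k : ℕ => (1 + ‖x - x'‖ * (1 / ((k : ℝ) + 1))) ^ (n + 4)
        * av u x' (k + 1)) atTop (𝓝 ((1 + ‖x - x'‖ * 0) ^ (n + 4) * ⨅ k : ℕ, av u x' (k + 1))) :=
      (((tendsto_one_div_add_atTop_nhds_zero_nat.const_mul _).const_add 1).pow _).mul (hlim x')
    simp only [mul_zero, add_zero, one_pow, one_mul, mul_one_div] at h1
    refine le_of_tendsto_of_tendsto' (hlim x) h1 fun k => (av_le hu hu0 x x' (by positivity)).trans ?_
    exact mul_le_mul_of_nonneg_left (anti x' (by positivity) (by simp)) (by positivity)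
  refine ⟨⨅ k : ℕ, av u 0 (k + 1), le_ciInf fun k => av_nonneg hu0 0 (by positivity), fun x => ?_⟩
  rw [le_antisymm (hle 0 x) (hle x 0)]
  have hk : ∀ k : ℕ, 1 / ((k : ℝ) + 1) ≤ k + 1 := fun k =>
    (div_le_one (by positivity)).2 (by simp) |>.trans (by simp)
  have h1 := (av_tendsto_zero hu x).sub (hlim x)
  refine ⟨sub_nonneg.1 (ge_of_tendsto' h1 fun k => sub_nonneg.2 (anti x (by positivity) (hk k))), ?_⟩
  have hm : Measurable fun z : ℝ × EuclideanSpace ℝ (Fin n) =>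
      kr n z.1 (‖z.2 - x‖ ^ 2) * ENNReal.ofReal (f z.2) := by fun_prop
  have cover : AECover (volume.restrict (Ioi (0 : ℝ))) atTop
      fun k : ℕ => Ioc (1 / ((k : ℝ) + 1)) (k + 1) := by
    refine ⟨?_, fun k => measurableSet_Ioc⟩
    filter_upwards [ae_restrict_mem measurableSet_Ioi] with s hs
    filter_upwards [tendsto_one_div_add_atTop_nhds_zero_nat.eventually_lt_const (show 0 < s from hs),
      (tendsto_natCast_atTop_atTop (R := ℝ)).eventually_ge_atTop s] with k a b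
    exact ⟨a, by linarith⟩
  have h2 := cover.lintegral_tendsto_of_countably_generated
    (f := fun s => ∫⁻ y, kr n s (‖y - x‖ ^ 2) * ENNReal.ofReal (f y))
    hm.lintegral_prod_right'.aemeasurable
  have h3 := (ENNReal.continuous_ofReal.tendsto _).comp h1
  have h4 := tendsto_nhds_unique h3 (h2.congr fun k => by
    have he : (0 : ℝ) < 1 / (k + 1) := by positivity
    simp only [Function.comp_apply]
    rw [Measure.restrict_restrict measurableSet_Ioc,
      inter_eq_left.2 (Ioc_subset_Ioi_self.trans (Ioi_subset_Ioi he.le)), (av_sub hu x he (hk k)).2,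
      ofReal_integral_eq_lintegral_ofReal (av_sub hu x he (hk k)).1 (hnn x _ he)]
    refine setLIntegral_congr_fun measurableSet_Ioc fun s hs => ?_
    have h0 : 0 < s := he.trans hs.1
    rw [ENNReal.ofReal_mul (by positivity), ← (hg x h0).2, ← lintegral_const_mul' _ _
      ENNReal.ofReal_ne_top]
    congr 1
    funext y
    rw [kr, ENNReal.ofReal_mul (by positivity), ENNReal.ofReal_mul (hf0 y), tf]
    ring)
  rw [h4, lintegral_lintegral_swap hm.aemeasurable, ← lintegral_const_mul _ (by fun_prop)]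
  have : Nontrivial (EuclideanSpace ℝ (Fin n)) :=
    Module.nontrivial_of_finrank_pos (R := ℝ) (by simp; omega)
  refine lintegral_congr_ae ?_
  filter_upwards [Measure.ae_ne volume x] with y hy
  rw [lintegral_mul_const _ (by fun_prop), lintegral_kr (norm_pos_iff.2 (sub_ne_zero.2 hy)),
    norm_sub_rev]
  ring

end Crest.Agent.R77.RepAux
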