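import Crest.Agent.R77.Polar
import Crest.Agent.R77.Rep

/-! Row 77: from the PDE to the integral system on the cylinder. -/

set_option autoImplicit false
open MeasureTheory Set Filter Topology
open scoped ENNReal

namespace Crest.Agent.R77

open Laplacian InnerProductSpace

theorem toSys_no_lower {S : Type} [MeasurableSpace S] {σ : Measure S} [SFinite σ] (hσ : σ ≠ 0)
    {e : ℝ} {W : ℝ × S → ℝ≥0∞} (hfin : ∫⁻ y, wt 1 e y.1 * W y ∂vol σ ≠ ⊤) {I : Set ℝ}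
    (hI : MeasurableSet I) (hv : volume I = ⊤) {c : ℝ≥0∞} (hc : c ≠ 0)
    (h : ∀ y : ℝ × S, y.1 ∈ I → 0 ≤ e * y.1 ∧ c ≤ W y) : False := by
  refine hfin (top_le_iff.1 (le_trans ?_ (setLIntegral_le_lintegral (st S I) _)))
  refine le_trans (le_of_eq ?_) (setLIntegral_mono' (f := fun _ => c) (measurableSet_st hI)
    fun y hy => ?_)
  · rw [vol_restrict_st, lintegral_const, ← univ_prod_univ, Measure.prod_prod,
      Measure.restrict_apply_univ, hv, ENNReal.top_mul (by simpa using hσ), ENNReal.mul_top hc]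
  · refine (h y hy).2.trans (le_mul_of_one_le_left (zero_le) ?_)
    rw [wt, one_mul]
    exact ENNReal.one_le_ofReal.2 (Real.one_le_exp (h y hy).1)

section
variable {n : ℕ}

/-- the function in cylindrical coordinates -/
noncomputable def cyl (k : ℝ) (u : EuclideanSpace ℝ (Fin n) → ℝ)
    (y : ℝ × Metric.sphere (0 : EuclideanSpace ℝ (Fin n)) 1) : ℝ≥0∞ :=
  ENNReal.ofReal (Real.exp (k * y.1) * u (Real.exp y.1 • (y.2 : EuclideanSpace ℝ (Fin n))))

theorem continuous_cyl (k : ℝ) {u : EuclideanSpace ℝ (Fin n) → ℝ} (hu : Continuous u) :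
    Continuous (cyl k u) :=
  ENNReal.continuous_ofReal.comp (by fun_prop)

theorem norm_exp_smul (s : ℝ) (w : Metric.sphere (0 : EuclideanSpace ℝ (Fin n)) 1) :
    ‖Real.exp s • (w : EuclideanSpace ℝ (Fin n))‖ = Real.exp s := by
  rw [norm_smul, norm_eq_of_mem_sphere, mul_one, Real.norm_of_nonneg (Real.exp_pos s).le]

theorem kernel_cyl (t s : ℝ) (w w' : Metric.sphere (0 : EuclideanSpace ℝ (Fin n)) 1) :
    ENNReal.ofReal ‖Real.exp t • (w : EuclideanSpace ℝ (Fin n)) - Real.exp s • w'.1‖ ^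
        (-((n : ℝ) - 2)) =
      Ksph n (t - s) w w' * ENNReal.ofReal (Real.exp ((t + s) * -(((n : ℝ) - 2) / 2))) := by
  have h1 : ‖Real.exp t • (w : EuclideanSpace ℝ (Fin n)) - Real.exp s • w'.1‖ ^ 2 =
      Real.exp (t + s) * (2 * Real.cosh (t - s) - 2 * inner ℝ w.1 w'.1) := by
    rw [norm_sub_sq_real, norm_exp_smul, norm_exp_smul, real_inner_smul_left, real_inner_smul_right,
      Real.cosh_eq, neg_sub, Real.exp_add, Real.exp_sub, Real.exp_sub]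
    field_simp
    ring
  rw [show -((n : ℝ) - 2) = 2 * -(((n : ℝ) - 2) / 2) by ring, ENNReal.rpow_mul, ENNReal.rpow_two,
    ← ENNReal.ofReal_pow (norm_nonneg _), h1, ENNReal.ofReal_mul (Real.exp_pos _).le,
    ENNReal.mul_rpow_of_ne_top ENNReal.ofReal_ne_top ENNReal.ofReal_ne_top,
    ENNReal.ofReal_rpow_of_pos (Real.exp_pos _), ← Real.exp_mul, mul_comm, Ksph]

variable {u v : EuclideanSpace ℝ (Fin n) → ℝ} {κ c p A : ℝ}

theorem toSys_meas (hv : Continuous v) (x : EuclideanSpace ℝ (Fin n)) :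
    Measurable fun y : EuclideanSpace ℝ (Fin n) =>
      ENNReal.ofReal ‖x - y‖ ^ (-((n : ℝ) - 2)) * ENNReal.ofReal (‖y‖ ^ A * v y ^ p) := by
  have := hv.measurable
  fun_prop

theorem toSys_fin (hn : 3 ≤ n) (hκ : 0 < κ) (hv : Continuous v) (hv0 : ∀ x, 0 < v x)
    (h : ∀ x, ENNReal.ofReal (u x) = ENNReal.ofReal c + ENNReal.ofReal κ *
      ∫⁻ y, ENNReal.ofReal ‖x - y‖ ^ (-((n : ℝ) - 2)) * ENNReal.ofReal (‖y‖ ^ A * v y ^ p)) :
    ∫⁻ y : ℝ × Metric.sphere (0 : EuclideanSpace ℝ (Fin n)) 1, wt 1 (2 + A) y.1 *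
      ENNReal.ofReal (v (Real.exp y.1 • y.2.1)) ^ p
        ∂vol (volume : Measure (EuclideanSpace ℝ (Fin n))).toSphere ≠ ⊤ := by
  have h1 : ∫⁻ y : EuclideanSpace ℝ (Fin n), ENNReal.ofReal ‖0 - y‖ ^ (-((n : ℝ) - 2)) *
      ENNReal.ofReal (‖y‖ ^ A * v y ^ p) ≠ ⊤ := by
    intro h1
    have h2 := h 0
    rw [h1, ENNReal.mul_top (by simpa using hκ), add_top] at h2
    exact ENNReal.ofReal_ne_top h2
  rw [lintegral_polar (by omega) (toSys_meas hv 0)] at h1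
  convert h1 using 3 with y
  rw [zero_sub, norm_neg, norm_exp_smul, ENNReal.ofReal_rpow_of_pos (Real.exp_pos _),
    ENNReal.ofReal_rpow_of_pos (hv0 _), wt, wt, ← ENNReal.ofReal_mul (by positivity),
    ← ENNReal.ofReal_mul (by positivity), ← ENNReal.ofReal_mul (by positivity), ← Real.exp_mul,
    ← Real.exp_mul, one_mul, one_mul, ← mul_assoc, ← mul_assoc, ← Real.exp_add, ← Real.exp_add]
  congr 3
  ring

theorem toSys_sigma (hn : 3 ≤ n) : (volume : Measure (EuclideanSpace ℝ (Fin n))).toSphere ≠ 0 := by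
  obtain ⟨m, rfl⟩ : ∃ m, n = m + 1 := ⟨n - 1, by omega⟩
  exact Measure.toSphere_ne_zero _

theorem toSys_exp (hn : 3 ≤ n) (hp : 0 < p) (hv : Continuous v) (hv0 : ∀ x, 0 < v x)
    (h : ∫⁻ y : ℝ × Metric.sphere (0 : EuclideanSpace ℝ (Fin n)) 1, wt 1 (2 + A) y.1 *
      ENNReal.ofReal (v (Real.exp y.1 • y.2.1)) ^ p
        ∂vol (volume : Measure (EuclideanSpace ℝ (Fin n))).toSphere ≠ ⊤) : 0 < 2 + A := by
  by_contra hA
  obtain ⟨x₀, -, hx⟩ := (isCompact_closedBall (0 : EuclideanSpace ℝ (Fin n)) 1).exists_isMinOn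
    ⟨0, by simp⟩ hv.continuousOn
  refine toSys_no_lower (toSys_sigma hn) h measurableSet_Iio (Real.volume_Iio (a := 0))
    (c := ENNReal.ofReal (v x₀) ^ p)
    (ENNReal.rpow_pos (ENNReal.ofReal_pos.2 (hv0 _)) ENNReal.ofReal_ne_top).ne' fun y hy =>
    ⟨mul_nonneg_of_nonpos_of_nonpos (not_lt.1 hA) (le_of_lt hy),
      ENNReal.rpow_le_rpow (ENNReal.ofReal_le_ofReal (hx ?_)) hp.le⟩
  rw [mem_closedBall_zero_iff, norm_exp_smul]
  exact Real.exp_le_one_iff.2 (le_of_lt hy)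

theorem toSys_const (hn : 3 ≤ n) (hp : 0 < p) (hA : 0 < 2 + A) {c : ℝ≥0∞}
    (hc : ∀ x, c ≤ ENNReal.ofReal (v x))
    (h : ∫⁻ y : ℝ × Metric.sphere (0 : EuclideanSpace ℝ (Fin n)) 1, wt 1 (2 + A) y.1 *
      ENNReal.ofReal (v (Real.exp y.1 • y.2.1)) ^ p
        ∂vol (volume : Measure (EuclideanSpace ℝ (Fin n))).toSphere ≠ ⊤) : c = 0 := by
  by_contra h0
  exact toSys_no_lower (toSys_sigma hn) h measurableSet_Ioi (Real.volume_Ioi (a := 0))
    (c := c ^ p) (by simp [h0, hp.le]) fun y hy =>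
    ⟨mul_nonneg hA.le (le_of_lt hy), ENNReal.rpow_le_rpow (hc _) hp.le⟩

theorem toSys_eq (hn : 3 ≤ n) (hκ : 0 < κ) (hv : Continuous v) (hv0 : ∀ x, 0 < v x)
    (h : ∀ x, ENNReal.ofReal (u x) = ENNReal.ofReal κ *
      ∫⁻ y, ENNReal.ofReal ‖x - y‖ ^ (-((n : ℝ) - 2)) * ENNReal.ofReal (‖y‖ ^ A * v y ^ p))
    (x : ℝ × Metric.sphere (0 : EuclideanSpace ℝ (Fin n)) 1) :
    cyl (((n : ℝ) - 2) / 2) u x = ∫⁻ y, Ksph n (x.1 - y.1) x.2 y.2 *
      src κ (((n : ℝ) - 2) / 2 + 2 + A - p * (((n : ℝ) - 2) / 2)) p (cyl (((n : ℝ) - 2) / 2) v) y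
        ∂vol (volume : Measure (EuclideanSpace ℝ (Fin n))).toSphere := by
  rw [cyl, ENNReal.ofReal_mul (Real.exp_pos _).le, h, lintegral_polar (by omega) (toSys_meas hv _),
    ← lintegral_const_mul' _ _ ENNReal.ofReal_ne_top,
    ← lintegral_const_mul' _ _ ENNReal.ofReal_ne_top]
  refine lintegral_congr fun y => ?_
  have hy := hv0 (Real.exp y.1 • y.2.1)
  rw [kernel_cyl, norm_exp_smul, mul_assoc, mul_left_comm _ (Ksph _ _ _ _),
    mul_left_comm _ (Ksph _ _ _ _), mul_left_comm _ (Ksph _ _ _ _), src, cyl,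
    ENNReal.ofReal_rpow_of_pos (by positivity), wt, wt, ← ENNReal.ofReal_mul (by positivity),
    ← ENNReal.ofReal_mul (by positivity), ← ENNReal.ofReal_mul hκ.le,
    ← ENNReal.ofReal_mul (by positivity), ← ENNReal.ofReal_mul (by positivity),
    Real.mul_rpow (Real.exp_pos _).le hy.le, ← Real.exp_mul, ← Real.exp_mul]
  congr 2
  rw [mul_left_comm, mul_assoc κ, one_mul]
  congr 1
  simp only [← mul_assoc, ← Real.exp_add]
  congr 2
  ring

theorem toSys_bdd (k : ℝ) (hu : Continuous u) (T : ℝ) : ∃ D : ℝ, 0 < D ∧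
    ∀ x : ℝ × Metric.sphere (0 : EuclideanSpace ℝ (Fin n)) 1, x.1 ≤ T → cyl k u x ≤ wt D k x.1 := by
  obtain ⟨x₀, -, hx⟩ := (isCompact_closedBall (0 : EuclideanSpace ℝ (Fin n))
    (Real.exp T)).exists_isMaxOn ⟨0, by simp [(Real.exp_pos T).le]⟩ hu.continuousOn
  refine ⟨max (u x₀) 1, lt_max_of_lt_right one_pos, fun x hT => ENNReal.ofReal_le_ofReal ?_⟩
  rw [mul_comm]
  refine mul_le_mul_of_nonneg_right (le_max_of_le_left (hx ?_)) (Real.exp_pos _).le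
  rw [mem_closedBall_zero_iff, norm_exp_smul]
  exact Real.exp_le_exp.2 hT

end

theorem exists_sys {n : ℕ} (hn : 3 ≤ n) {p q A B : ℝ} (hp : 0 < p) (hq : 0 < q)
    {u v : EuclideanSpace ℝ (Fin n) → ℝ} (hu : Continuous u) (hv : Continuous v)
    (hu2 : ContDiffOn ℝ 2 u {0}ᶜ) (hv2 : ContDiffOn ℝ 2 v {0}ᶜ) (hu0 : ∀ x, 0 < u x)
    (hv0 : ∀ x, 0 < v x)
    (heq : ∀ x, x ≠ 0 → -(Δ u) x = ‖x‖ ^ A * v x ^ p ∧ -(Δ v) x = ‖x‖ ^ B * u x ^ q) :
    ∃ κ U V, Sys (volume : Measure (EuclideanSpace ℝ (Fin n))).toSphere (Ksph n)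
      (((n : ℝ) - 2) / 2) p q κ (((n : ℝ) - 2) / 2 + 2 + A - p * (((n : ℝ) - 2) / 2))
      κ (((n : ℝ) - 2) / 2 + 2 + B - q * (((n : ℝ) - 2) / 2)) U V := by
  obtain ⟨κ, hκ, hrep⟩ := rep hn
  have mu := hu.measurable
  have mv := hv.measurable
  obtain ⟨c, -, hc⟩ := hrep u (fun x => ‖x‖ ^ A * v x ^ p) hu hu2 (fun x => (hu0 x).le)
    (by fun_prop) (fun x => by have := hv0 x; positivity) fun x hx => (heq x hx).1
  obtain ⟨c', -, hc'⟩ := hrep v (fun x => ‖x‖ ^ B * u x ^ q) hv hv2 (fun x => (hv0 x).le)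
    (by fun_prop) (fun x => by have := hu0 x; positivity) fun x hx => (heq x hx).2
  have f1 := toSys_fin hn hκ hv hv0 hc
  have f2 := toSys_fin hn hκ hu hu0 hc'
  have hA := toSys_exp hn hp hv hv0 f1
  have hB := toSys_exp hn hq hu hu0 f2
  have z1 := toSys_const hn hq hB (fun x => (hc x).ge.trans' le_self_add) f2
  have z2 := toSys_const hn hp hA (fun x => (hc' x).ge.trans' le_self_add) f1
  simp only [z1, z2, zero_add] at hc hc'
  refine ⟨κ, cyl _ u, cyl _ v, hp, hq, hκ, hκ, by linarith, by linarith,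
    (continuous_cyl _ hu).measurable, (continuous_cyl _ hv).measurable,
    fun a => (continuous_cyl _ hu).comp (by fun_prop),
    fun a => (continuous_cyl _ hv).comp (by fun_prop), toSys_eq hn hκ hv hv0 hc,
    toSys_eq hn hκ hu hu0 hc', fun T => ?_,
    fun x => (ENNReal.ofReal_pos.2 (mul_pos (Real.exp_pos _) (hu0 _))).ne',
    fun x => (ENNReal.ofReal_pos.2 (mul_pos (Real.exp_pos _) (hv0 _))).ne'⟩
  obtain ⟨D, hD0, hD⟩ := toSys_bdd (((n : ℝ) - 2) / 2) hu T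
  obtain ⟨D', -, hD'⟩ := toSys_bdd (((n : ℝ) - 2) / 2) hv T
  have h0 : 0 < max D D' := lt_max_of_lt_left hD0
  exact ⟨max D D', h0, fun x hx => ⟨(hD x hx).trans (wt_le_wt (le_max_left _ _) h0.le le_rfl),
    (hD' x hx).trans (wt_le_wt (le_max_right _ _) h0.le le_rfl)⟩⟩

end Crest.Agent.R77
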